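import Vale.Agent.P154.Bern

/-!
P154: a faster evaluation of the checker of `Bern`: the whole tensor of one box is packed into
one number, so that the kernel works on a few large numbers instead of long lists.
-/

namespace Vale.Agent.P154.Lst

lemma pack_zeros (w : ℕ) : ∀ k, pack w (List.replicate k 0) = 0
  | 0 => rfl
  | k + 1 => by simp [List.replicate_succ, pack, pack_zeros w k]

lemma absSum_zeros : ∀ k, absSum (List.replicate k 0) = 0
  | 0 => rfl
  | k + 1 => by simp [List.replicate_succ, absSum, absSum_zeros k]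

lemma pack_pad (w k : ℕ) (A : List ℤ) : pack w (pad k A) = pack w A := by
  rw [pad, pack_append, pack_zeros]; ring

lemma absSum_pad (k : ℕ) (A : List ℤ) : absSum (pad k A) = absSum A := by
  rw [pad, absSum_append, absSum_zeros]; ring

lemma pack_conv (w : ℕ) : ∀ (A B : List ℤ), B ≠ [] → pack w (conv A B) = pack w A * pack w B
  | [], _, _ => by simp [conv, pack]
  | [a], B, _ => by simp [conv, pack_scale, pack]
  | a :: a' :: A, B, hB => by
      have ih := pack_conv w (a' :: A) B hB
      have hl := conv_length (a' :: A) B (by simp)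
      have hBl : 0 < B.length := List.length_pos_of_ne_nil hB
      rw [conv, pack_add, pack_pad, pack_scale, pack, ih]
      · simp only [pack]; ring
      · simp only [pad_length, scale_length, List.length_cons] at hl ⊢
        omega

lemma absSum_conv : ∀ (A B : List ℤ), absSum (conv A B) ≤ absSum A * absSum B
  | [], _ => by simp [conv, absSum]
  | [a], B => by simp [conv, absSum_scale, absSum]
  | a :: a' :: A, B => by
      have ih := absSum_conv (a' :: A) B
      rw [conv]
      refine (absSum_add _ _).trans ?_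
      rw [absSum_pad, absSum_scale]
      simp only [absSum, Int.natAbs_zero, zero_add] at ih ⊢
      rw [Nat.add_mul a.natAbs]
      exact add_le_add le_rfl ih

/-- The mask `halves`, in closed form. -/
def mask (w n : ℕ) : ℕ := 2 ^ w / 2 * ((2 ^ (w * n) - 1) / (2 ^ w - 1))

lemma mask_eq {w : ℕ} (hw : 0 < w) (n : ℕ) : mask w n = halves w n := by
  have h2 : 1 < 2 ^ w := Nat.one_lt_two_pow (by omega)
  have key : ∀ n, halves w n * (2 ^ w - 1) = 2 ^ w / 2 * (2 ^ (w * n) - 1) := by
    intro n
    induction n with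
    | zero => simp [halves]
    | succ n ih =>
        obtain ⟨p, hp⟩ : ∃ p, 2 ^ w = p + 1 := ⟨2 ^ w - 1, by omega⟩
        obtain ⟨m, hm⟩ : ∃ m, 2 ^ (w * n) = m + 1 :=
          ⟨2 ^ (w * n) - 1, (Nat.succ_pred_eq_of_pos (Nat.two_pow_pos _)).symm⟩
        have e : 2 ^ (w * (n + 1)) - 1 = p + (p + 1) * m := by
          rw [Nat.mul_succ, pow_add, hp, hm]
          have : (m + 1) * (p + 1) = p + (p + 1) * m + 1 := by ring
          omega
        rw [e, halves]
        rw [hp, Nat.add_sub_cancel] at ih ⊢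
        rw [hm, Nat.add_sub_cancel] at ih
        calc ((p + 1) / 2 + (p + 1) * halves w n) * p
            = (p + 1) / 2 * p + (p + 1) * (halves w n * p) := by ring
          _ = _ := by rw [ih]; ring
  have hne : 0 < 2 ^ w - 1 := by omega
  have hdvd : (2 ^ w - 1) ∣ (2 ^ (w * n) - 1) := by
    rw [pow_mul]
    exact Nat.sub_one_dvd_pow_sub_one _ n
  rw [mask]
  refine Nat.eq_of_mul_eq_mul_right hne ?_
  rw [key n, mul_assoc, Nat.div_mul_cancel hdvd]

/-- A packed list of small nonnegative slots passes the slot test. -/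
lemma slotsOK_complete {w : ℕ} (hw : 0 < w) {A : List ℤ} (hb : 2 * absSum A < 2 ^ w)
    (h : ∀ a ∈ A, 0 ≤ a) : slotsOK w A.length (pack w A) = true := by
  obtain ⟨v, rfl⟩ : ∃ v, w = v + 1 := ⟨w - 1, by omega⟩
  have hH : 2 ^ (v + 1) / 2 = 2 ^ v := by rw [pow_succ]; omega
  have key : ∀ A : List ℤ, 2 * absSum A < 2 ^ (v + 1) → (∀ a ∈ A, 0 ≤ a) →
      ∃ m : ℕ, (m : ℤ) = pack (v + 1) A + (halves (v + 1) A.length : ℤ) ∧
        m &&& halves (v + 1) A.length = halves (v + 1) A.length := by
    intro A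
    induction A with
    | nil => exact fun _ _ => ⟨0, by simp [pack, halves], by simp [halves]⟩
    | cons a A ih =>
        intro hb h
        simp only [absSum] at hb
        obtain ⟨m', hm', hand⟩ := ih (by omega) fun b hb' => h b (by simp [hb'])
        obtain ⟨r, rfl⟩ : ∃ r : ℕ, (r : ℤ) = a := ⟨a.toNat, Int.toNat_of_nonneg (h a (by simp))⟩
        have hr : r < 2 ^ v := by simp only [Int.natAbs_natCast, pow_succ] at hb; omega
        refine ⟨(2 ^ v + r) + 2 ^ (v + 1) * m', ?_, ?_⟩
        · simp only [pack, List.length_cons, halves, hH]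
          push_cast at hm' ⊢
          rw [hm']; ring
        · simp only [List.length_cons, halves, hH]
          have h1 : (2 ^ v + r) &&& 2 ^ v = 2 ^ v := by
            rw [Nat.and_two_pow, Nat.testBit_two_pow_add_eq, Nat.testBit_lt_two_pow hr]
            simp
          have l1 : 2 ^ v + r < 2 ^ (v + 1) := by rw [pow_succ]; omega
          have l2 : 2 ^ v < 2 ^ (v + 1) := by rw [pow_succ]; have := Nat.two_pow_pos v; omega
          have e1 : ((2 ^ v + r) + 2 ^ (v + 1) * m' &&& 2 ^ v + 2 ^ (v + 1) * halves (v + 1) A.length)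
              % 2 ^ (v + 1) = 2 ^ v := by
            simp only [Nat.and_mod_two_pow, Nat.add_mul_mod_self_left, Nat.mod_eq_of_lt l1,
              Nat.mod_eq_of_lt l2, h1]
          have e2 : ((2 ^ v + r) + 2 ^ (v + 1) * m' &&& 2 ^ v + 2 ^ (v + 1) * halves (v + 1) A.length)
              / 2 ^ (v + 1) = halves (v + 1) A.length := by
            simp only [Nat.and_div_two_pow, Nat.add_mul_div_left _ _ (Nat.two_pow_pos (v + 1)),
              Nat.div_eq_of_lt l1, Nat.div_eq_of_lt l2, Nat.zero_add, hand]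
          conv_lhs => rw [← Nat.mod_add_div ((2 ^ v + r) + 2 ^ (v + 1) * m' &&&
            2 ^ v + 2 ^ (v + 1) * halves (v + 1) A.length) (2 ^ (v + 1))]
          rw [e1, e2]
  obtain ⟨m, hm, hand⟩ := key A hb h
  simp only [slotsOK, Bool.and_eq_true, decide_eq_true_eq, beq_iff_eq]
  refine ⟨hm ▸ Int.natCast_nonneg m, ?_⟩
  rw [← hm, Int.toNat_natCast]
  exact hand

lemma pack_flatten (w n : ℕ) : ∀ E : List (List ℤ), (∀ e ∈ E, e.length = n) →
    pack w E.flatten = pack (w * n) (E.map (pack w))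
  | [], _ => by simp [pack]
  | e :: E, h => by
      rw [List.flatten_cons, pack_append, pack_flatten w n E fun q hq => h q (by simp [hq]),
        List.map_cons, h e (by simp)]
      simp [pack]

end Vale.Agent.P154.Lst

namespace Vale.Agent.P154.Bern

open Lst

/-- The packed radial monomial. -/
def radP (w : ℕ) (a : Ax) (N n : ℕ) : ℤ := pack w a.lin ^ n * pack w a.one ^ (N - n)

/-- A bound for the norm of the radial monomial. -/
def radN (a : Ax) (N n : ℕ) : ℕ := absSum a.lin ^ n * absSum a.one ^ (N - n)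

/-- The packed angular monomial. -/
def angP (w : ℕ) (a : Ax) (N i j : ℕ) : ℤ :=
  pack w a.tq ^ i * pack w a.kq ^ j * pack w a.one ^ (N - (2 * i + 2 * j))

/-- A bound for the norm of the angular monomial. -/
def angN (a : Ax) (N i j : ℕ) : ℕ :=
  absSum a.tq ^ i * absSum a.kq ^ j * absSum a.one ^ (N - (2 * i + 2 * j))

/-- Packed vectors of the second point. -/
def pTableF (c : Cfg) (b : Box) : List (ℕ × ℕ) → List (ℤ × ℕ)
  | [] => []
  | (k, l) :: ps =>
    (2 ^ (c.cap - (2 * k + 3 * l)) *
        (radP (c.W * (c.N3 + 1)) b.a2 c.N2 (2 * k + 3 * l - 2) * angP c.W b.a3 c.N3 k l),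
      2 ^ (c.cap - (2 * k + 3 * l)) *
        (radN b.a2 c.N2 (2 * k + 3 * l - 2) * angN b.a3 c.N3 k l)) :: pTableF c b ps

/-- The tensor, packed in all but the first coordinate, and the norm bound. -/
def accumF (c : Cfg) (b : Box) (T : List (ℤ × ℕ)) : List ((ℕ × ℕ) × List ℤ) → List ℤ × ℕ
  | [] => (List.replicate (c.N0 + 1) 0, 0)
  | r :: rs =>
    let g := combine T r.2
    let i := r.1.1
    let j := r.1.2
    let rest := accumF c b T rs
    (Lst.add (scale (g.1 * 2 ^ (c.cap - (2 * i + 3 * j)) *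
        angP (c.W * ((c.N2 + 1) * (c.N3 + 1))) b.a1 c.N1 i j)
        (radV b.a0 c.N0 (2 * i + 3 * j))) rest.1,
      2 ^ (c.cap - (2 * i + 3 * j)) *
        (radN b.a0 c.N0 (2 * i + 3 * j) * angN b.a1 c.N1 i j) * g.2 + rest.2)

/-- All slots of one number. -/
def slotsF (w n : ℕ) (m : ℤ) : Bool :=
  decide (0 ≤ m + (mask w n : ℤ)) && ((m + (mask w n : ℤ)).toNat &&& mask w n == mask w n)

/-- The check on one box. -/
def boxF (c : Cfg) (P : Poly) (b : Box) : Bool :=
  decide (b.a0.lo < b.a0.hi) && decide (b.a1.lo < b.a1.hi) && decide (b.a2.lo < b.a2.hi) &&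
    decide (b.a3.lo < b.a3.hi) &&
    (let r := accumF c b (pTableF c b P.pks) P.rows
     decide (2 * r.2 < 2 ^ c.W) &&
       r.1.all (slotsF c.W ((c.N1 + 1) * ((c.N2 + 1) * (c.N3 + 1)))))

/-- The check on a subdivision. -/
def coverF (c : Cfg) (P : Poly) : Cover → Box → Bool
  | .leaf, b => boxF c P b
  | .split ax l r, b => coverF c P l (b.cut ax Ax.left) && coverF c P r (b.cut ax Ax.right)

/-- The fast checker. -/
def checkF (c : Cfg) (P : Poly) (cv : Cover) : Bool := shapeOK c P && coverF c P cv unitBox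

lemma pw_spec (w : ℕ) (L : List ℤ) (hL : L ≠ []) :
    ∀ n, pack w (pw L n) = pack w L ^ n ∧ absSum (pw L n) ≤ absSum L ^ n
  | 0 => by simp [pw, pack, absSum]
  | n + 1 => by
      obtain ⟨h1, h2⟩ := pw_spec w L hL n
      refine ⟨?_, ?_⟩
      · rw [pw, pack_conv w _ _ (ne_nil_of_length (pw_length L hL n)), h1, pow_succ']
      · rw [pw, pow_succ']
        exact (absSum_conv _ _).trans (Nat.mul_le_mul_left _ h2)

lemma rad_spec (w : ℕ) (a : Ax) (N n : ℕ) :
    pack w (radV a N n) = radP w a N n ∧ absSum (radV a N n) ≤ radN a N n := by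
  obtain ⟨h1, h1'⟩ := pw_spec w a.lin (by simp [Ax.lin]) n
  obtain ⟨h2, h2'⟩ := pw_spec w a.one (by simp [Ax.one]) (N - n)
  refine ⟨?_, (absSum_conv _ _).trans (Nat.mul_le_mul h1' h2')⟩
  rw [radV, pack_conv w _ _ (ne_nil_of_length (pw_length _ (by simp [Ax.one]) _)), h1, h2, radP]

lemma ang_spec (w : ℕ) (a : Ax) (N i j : ℕ) :
    pack w (angV a N i j) = angP w a N i j ∧ absSum (angV a N i j) ≤ angN a N i j := by
  obtain ⟨h1, h1'⟩ := pw_spec w a.tq (by simp [Ax.tq]) i
  obtain ⟨h2, h2'⟩ := pw_spec w a.kq (by simp [Ax.kq]) j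
  obtain ⟨h3, h3'⟩ := pw_spec w a.one (by simp [Ax.one]) (N - (2 * i + 2 * j))
  refine ⟨?_, (absSum_conv _ _).trans (Nat.mul_le_mul ((absSum_conv _ _).trans
    (Nat.mul_le_mul h1' h2')) h3')⟩
  rw [angV, pack_conv w _ _ (ne_nil_of_length (pw_length _ (by simp [Ax.one]) _)),
    pack_conv w _ _ (ne_nil_of_length (pw_length _ (by simp [Ax.kq]) _)), h1, h2, h3, angP]

lemma combine_spec_F (c : Cfg) (b : Box) : ∀ (ps : List (ℕ × ℕ)) (cs : List ℤ),
    (combine (pTable c b ps) cs).1 = (combine (pTableF c b ps) cs).1 ∧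
      (combine (pTable c b ps) cs).2 ≤ (combine (pTableF c b ps) cs).2
  | [], _ => by simp [pTable, pTableF, combine]
  | (k, l) :: ps, [] => by simp [pTable, pTableF, combine]
  | (k, l) :: ps, z :: cs => by
      obtain ⟨h1, h2⟩ := combine_spec_F c b ps cs
      obtain ⟨e1, e1'⟩ := rad_spec (c.W * (c.N3 + 1)) b.a2 c.N2 (2 * k + 3 * l - 2)
      obtain ⟨e2, e2'⟩ := ang_spec c.W b.a3 c.N3 k l
      simp only [pTable, pTableF, combine, h1, e1, e2, true_and]
      exact add_le_add (Nat.mul_le_mul_left _ (Nat.mul_le_mul_left _ (Nat.mul_le_mul e1' e2'))) h2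

lemma scale_scale (a b : ℤ) (A : List ℤ) : scale a (scale b A) = scale (a * b) A := by
  simp [scale, List.map_map, Function.comp_def, mul_assoc]

lemma add_append : ∀ (A B C D : List ℤ), A.length = B.length →
    Lst.add (A ++ C) (B ++ D) = Lst.add A B ++ Lst.add C D
  | [], [], C, D, _ => rfl
  | [], _ :: _, _, _, h => by simp at h
  | _ :: _, [], _, _, h => by simp at h
  | a :: A, b :: B, C, D, h => by
      simp only [List.length_cons, add_left_inj] at h
      simp [Lst.add, add_append A B C D h]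

lemma chunk_step (w : ℕ) (k : ℤ) (B : List ℤ) : ∀ (A : List ℤ) (E : List (List ℤ)),
    E.length = A.length → (∀ e ∈ E, e.length = B.length) →
    ∃ E' : List (List ℤ), E'.length = A.length ∧ (∀ e ∈ E', e.length = B.length) ∧
      E'.flatten = Lst.add (scale k (outer A B)) E.flatten ∧
      E'.map (pack w) = Lst.add (scale (k * pack w B) A) (E.map (pack w))
  | [], [], _, _ => ⟨[], rfl, by simp, rfl, rfl⟩
  | [], _ :: _, h, _ => by simp at h
  | _ :: _, [], h, _ => by simp at h
  | a :: A, e :: E, h, he => by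
      simp only [List.length_cons, add_left_inj] at h
      obtain ⟨E', h1, h2, h3, h4⟩ := chunk_step w k B A E h fun q hq => he q (by simp [hq])
      have hl : (scale k (scale a B)).length = e.length := by simp [he e (by simp)]
      refine ⟨Lst.add (scale k (scale a B)) e :: E', by simp [h1], ?_, ?_, ?_⟩
      · intro q hq
        simp only [List.mem_cons] at hq
        rcases hq with rfl | hq
        · simp [he e (by simp)]
        · exact h2 q hq
      · rw [List.flatten_cons, h3, outer, List.flatten_cons, ← add_append _ _ _ _ hl]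
        simp [scale]
      · rw [List.map_cons, List.map_cons, h4, pack_add _ _ _ hl, pack_scale, pack_scale]
        simp only [scale, List.map_cons, Lst.add]
        congr 1
        ring

lemma chunk_mem {f : List ℤ → ℤ} : ∀ (G : List (List ℤ)) (E : List (List ℤ)),
    E.map f = G.flatten → ∀ e ∈ E, ∃ g ∈ G, ∃ E' : List (List ℤ),
      (∀ q ∈ E', q ∈ E) ∧ norm2 E' ≤ norm2 E ∧ e ∈ E' ∧ E'.map f = g
  | [], E, h, e, he => by
      simp only [List.flatten_nil, List.map_eq_nil_iff] at h
      simp [h] at he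
  | g :: G, E, h, e, he => by
      rw [List.flatten_cons] at h
      obtain ⟨E1, E2, rfl, h1, h2⟩ := List.map_eq_append_iff.1 h
      have hn : ∀ A B : List (List ℤ), norm2 (A ++ B) = norm2 A + norm2 B := by
        intro A B
        induction A with
        | nil => simp [norm2]
        | cons a A ih => simp [norm2, ih]; ring
      rcases List.mem_append.1 he with he | he
      · exact ⟨g, by simp, E1, fun q hq => by simp [hq], by rw [hn]; omega, he, h1⟩
      · obtain ⟨g', hg', E', p1, p2, p3, p4⟩ := chunk_mem G E2 h2 e he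
        exact ⟨g', by simp [hg'], E', fun q hq => by simp [p1 q hq], by rw [hn]; omega, p3, p4⟩

lemma accum_F (c : Cfg) (b : Box) (ps : List (ℕ × ℕ)) :
    ∀ rs : List ((ℕ × ℕ) × List ℤ),
    (∀ q ∈ rs, 2 * q.1.1 + 3 * q.1.2 ≤ c.N0 ∧ 2 * q.1.1 + 2 * q.1.2 ≤ c.N1) →
    ∃ G : List (List ℤ), G.length = c.N0 + 1 ∧ (∀ g ∈ G, g.length = c.N1 + 1) ∧
      G.flatten = (accum c b (pTable c b ps) rs).1 ∧
      G.map (pack (c.W * ((c.N2 + 1) * (c.N3 + 1)))) = (accumF c b (pTableF c b ps) rs).1 ∧
      (accum c b (pTable c b ps) rs).2 ≤ (accumF c b (pTableF c b ps) rs).2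
  | [], _ => by
      refine ⟨List.replicate (c.N0 + 1) (List.replicate (c.N1 + 1) 0), by simp,
        fun g hg => by simp [List.eq_of_mem_replicate hg], ?_, ?_, le_rfl⟩
      · simp [accum]
      · simp [accumF, pack_zeros]
  | r :: rs, hr => by
      obtain ⟨G, hl, hg, hG, h1, h2⟩ := accum_F c b ps rs fun q hq => hr q (by simp [hq])
      obtain ⟨hi0, hi1⟩ := hr r (by simp)
      obtain ⟨g1, g2⟩ := combine_spec_F c b ps r.2
      set n := c.W * ((c.N2 + 1) * (c.N3 + 1)) with hn
      set A := radV b.a0 c.N0 (2 * r.1.1 + 3 * r.1.2) with hA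
      set B := angV b.a1 c.N1 r.1.1 r.1.2 with hB
      have lA : A.length = c.N0 + 1 := radV_length hi0
      have lB : B.length = c.N1 + 1 := angV_length hi1
      obtain ⟨-, e1'⟩ := rad_spec n b.a0 c.N0 (2 * r.1.1 + 3 * r.1.2)
      obtain ⟨e2, e2'⟩ := ang_spec n b.a1 c.N1 r.1.1 r.1.2
      rw [← hA] at e1'
      rw [← hB] at e2 e2'
      obtain ⟨G', k1, k2, k3, k4⟩ := chunk_step n
        ((combine (pTable c b ps) r.2).1 * 2 ^ (c.cap - (2 * r.1.1 + 3 * r.1.2))) B A G
        (by rw [hl, lA]) (fun q hq => by rw [hg q hq, lB])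
      refine ⟨G', by rw [k1, lA], fun q hq => by rw [k2 q hq, lB], ?_, ?_, ?_⟩
      · rw [k3, hG]
        simp only [accum, ← hA, ← hB, scale_scale]
      · rw [k4, h1]
        simp only [accumF, ← hA, ← hn, e2, g1]
      · simp only [accum, accumF, ← hA, ← hB, ← hn, absSum_scale, absSum_outer, Int.natAbs_pow]
        exact add_le_add (Nat.mul_le_mul (Nat.mul_le_mul_left _ (Nat.mul_le_mul e1' e2')) g2) h2

lemma boxOK_of_fast {c : Cfg} {P : Poly} (hs : shapeOK c P = true) {b : Box}
    (h : boxF c P b = true) : boxOK c P b = true := by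
  simp only [boxF, Bool.and_eq_true, decide_eq_true_eq, List.all_eq_true] at h
  obtain ⟨⟨⟨⟨h0, h1⟩, h2⟩, h3⟩, hn, hslot⟩ := h
  simp only [shapeOK, Bool.and_eq_true, decide_eq_true_eq, List.all_eq_true] at hs
  obtain ⟨⟨hW, hp⟩, hr⟩ := hs
  obtain ⟨G, -, hg, hG, hpack, hnorm⟩ := accum_F c b P.pks P.rows
    fun q hq => by have := hr q hq; tauto
  obtain ⟨val, ⟨E, e1, e2, e3, e4, e5⟩, -⟩ := accum_spec c b P.pks 0 0 0 0 h0 h1 h2 h3
    (fun p hp' => by have := hp p hp'; tauto) P.rows (fun q hq => by have := hr q hq; tauto)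
  set n := (c.N2 + 1) * (c.N3 + 1) with hnn
  have hab : ∀ E : List (List ℤ), absSum E.flatten = norm2 E := by
    intro E
    induction E with
    | nil => simp [norm2, absSum]
    | cons e E ih => simp [norm2, absSum_append, ih]
  simp only [boxOK, Bool.and_eq_true, decide_eq_true_eq, List.all_eq_true]
  refine ⟨⟨⟨⟨h0, h1⟩, h2⟩, h3⟩, by omega, fun z hz => ?_⟩
  rw [← e3] at hz
  obtain ⟨e, he, rfl⟩ := List.mem_map.1 hz
  obtain ⟨g, hgG, E', p1, p2, p3, p4⟩ := chunk_mem G E (e3.trans hG.symm) e he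
  have e2' : ∀ q ∈ E', q.length = n := fun q hq => e2 q (p1 q hq)
  have hlen : E'.flatten.length = (c.N1 + 1) * n := by
    rw [List.length_flatten, List.map_congr_left e2', List.map_const', List.sum_replicate,
      smul_eq_mul, ← hg g hgG, ← p4, List.length_map]
  have hnn0 : ∀ a ∈ E'.flatten, 0 ≤ a := by
    refine slotsOK_sound hW (w := c.W) (by rw [hab]; omega) ?_
    rw [hlen, pack_flatten _ _ E' e2', p4]
    have := hslot _ (hpack ▸ List.mem_map_of_mem hgG)
    simp only [slotsF, mask_eq hW] at this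
    simpa [slotsOK] using this
  rw [← hnn, ← e2 e he]
  refine slotsOK_complete hW ?_ fun a ha => hnn0 a (List.mem_flatten.2 ⟨e, p3, ha⟩)
  have := absSum_le_norm2 he
  omega

lemma coverOK_of_fast {c : Cfg} {P : Poly} (hs : shapeOK c P = true) :
    ∀ (cv : Cover) (b : Box), coverF c P cv b = true → coverOK c P cv b = true
  | .leaf, b, h => boxOK_of_fast hs h
  | .split ax l r, b, h => by
      simp only [coverF, Bool.and_eq_true] at h
      simp only [coverOK, Bool.and_eq_true]
      exact ⟨coverOK_of_fast hs l _ h.1, coverOK_of_fast hs r _ h.2⟩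

/-- A certificate accepted by the fast checker is accepted by the checker. -/
theorem check_of_fast {c : Cfg} {P : Poly} {cv : Cover} (h : checkF c P cv = true) :
    check c P cv = true := by
  simp only [checkF, Bool.and_eq_true] at h
  simp only [check, Bool.and_eq_true]
  exact ⟨h.1, coverOK_of_fast h.1 cv _ h.2⟩

end Vale.Agent.P154.Bern
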