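import Vale.Agent.P154.AuxStep

/-!
P154: the quadratic potential and the auxiliary functional, for any number of states.
-/

namespace Vale.Agent.P154

open scoped BigOperators

variable {q : ℕ}

/-- The mean `k`-th power of the centred scaled vector. -/
noncomputable def cmom (k : ℕ) (p : Fin q → ℝ) : ℝ :=
  (∑ i, ((q : ℝ) * p i - 1) ^ k) / q

/-- The quadratic potential. -/
noncomputable def potQ (p : Fin q → ℝ) : ℝ := cmom 2 p

/-- The auxiliary functional, with four parameters. -/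
noncomputable def psiOf (K e3 e11 e4 : ℝ) (p : Fin q → ℝ) : ℝ :=
  cmom 3 p - K * cmom 2 p ^ 2 + e3 * cmom 2 p ^ 3 + e11 * (cmom 2 p * cmom 3 p) + e4 * cmom 4 p

lemma cmom_chan [NeZero q] (lam : ℝ) (k : ℕ) {p : Fin q → ℝ} (hp : p ∈ stdSimplex ℝ (Fin q)) :
    cmom k (chanMap lam p) = lam ^ k * cmom k p := by
  have hq : (q : ℝ) ≠ 0 := Nat.cast_ne_zero.mpr (NeZero.ne q)
  have h : ∀ i, (q : ℝ) * chanMap lam p i - 1 = lam * ((q : ℝ) * p i - 1) := by
    intro i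
    rw [chanMap_eq, hp.2]
    field_simp
    ring
  simp only [cmom, h, mul_pow, ← Finset.mul_sum, mul_div_assoc]

lemma potQ_nonneg (p : Fin q → ℝ) : 0 ≤ potQ p :=
  div_nonneg (Finset.sum_nonneg fun _ _ => sq_nonneg _) (Nat.cast_nonneg q)

lemma cmom_four_nonneg (p : Fin q → ℝ) : 0 ≤ cmom 4 p :=
  div_nonneg (Finset.sum_nonneg fun _ _ => Even.pow_nonneg ⟨2, rfl⟩ _) (Nat.cast_nonneg q)

lemma potQ_eq [NeZero q] {p : Fin q → ℝ} (hp : p ∈ stdSimplex ℝ (Fin q)) :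
    potQ p = (q : ℝ) * ∑ i, p i ^ 2 - 1 := by
  have hq : (q : ℝ) ≠ 0 := Nat.cast_ne_zero.mpr (NeZero.ne q)
  simp only [potQ, cmom, sub_sq, mul_pow, Finset.sum_add_distrib, Finset.sum_sub_distrib,
    ← Finset.mul_sum, Finset.sum_const, Finset.card_univ, Fintype.card_fin, nsmul_eq_mul,
    one_pow, mul_one]
  rw [hp.2]
  field_simp
  ring

lemma potQ_le [NeZero q] {p : Fin q → ℝ} (hp : p ∈ stdSimplex ℝ (Fin q)) :
    potQ p ≤ (q : ℝ) - 1 := by
  rw [potQ_eq hp]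
  have h : ∑ i, p i ^ 2 ≤ ∑ i, p i := Finset.sum_le_sum fun i _ => by
    have h1 : p i ≤ 1 := hp.2 ▸ Finset.single_le_sum (fun j _ => hp.1 j) (Finset.mem_univ i)
    nlinarith [hp.1 i]
  rw [hp.2] at h
  nlinarith [(Nat.cast_nonneg q : (0 : ℝ) ≤ q)]

lemma abs_cmom_three_le [NeZero q] (hq : 2 ≤ q) {p : Fin q → ℝ}
    (hp : p ∈ stdSimplex ℝ (Fin q)) : |cmom 3 p| ≤ ((q : ℝ) - 1) * cmom 2 p := by
  have hq' : (2 : ℝ) ≤ q := by exact_mod_cast hq
  have hi : ∀ i, |((q : ℝ) * p i - 1) ^ 3| ≤ ((q : ℝ) - 1) * ((q : ℝ) * p i - 1) ^ 2 := by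
    intro i
    have h1 : p i ≤ 1 := hp.2 ▸ Finset.single_le_sum (fun j _ => hp.1 j) (Finset.mem_univ i)
    have h2 : |(q : ℝ) * p i - 1| ≤ (q : ℝ) - 1 := by
      rw [abs_le]
      constructor <;> nlinarith [hp.1 i]
    rw [abs_pow, pow_succ', sq_abs]
    exact mul_le_mul_of_nonneg_right h2 (sq_nonneg _)
  rw [cmom, cmom, abs_div, abs_of_nonneg (show (0 : ℝ) ≤ q by linarith), ← mul_div_assoc,
    Finset.mul_sum]
  exact div_le_div_of_nonneg_right
    ((Finset.abs_sum_le_sum_abs _ _).trans (Finset.sum_le_sum fun i _ => hi i)) (by linarith)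

lemma isPotential_potQ (hq : 2 ≤ q) : IsPotential (potQ (q := q)) := by
  have : NeZero q := ⟨by omega⟩
  have hq0 : (0 : ℝ) < q := by exact_mod_cast (by omega : 0 < q)
  refine ⟨fun p _ => potQ_nonneg p, ⟨(q : ℝ) - 1, fun p hp => potQ_le hp⟩, ?_, ?_⟩
  · simp [potQ, cmom, hq0.ne']
  · intro ε hε
    refine ⟨1 / ε, by positivity, fun p _ => ?_⟩
    have h : ∀ x : ℝ, |x| / 2 ≤ ε + 1 / ε * x ^ 2 := fun x => by
      rw [← sq_abs x]
      generalize hy : |x| = y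
      have e : ε + 1 / ε * y ^ 2 - y / 2 = 1 / ε * (y - ε / 4) ^ 2 + 15 / 16 * ε := by
        field_simp
        ring
      nlinarith [mul_nonneg (show (0 : ℝ) ≤ 1 / ε by positivity) (sq_nonneg (y - ε / 4))]
    have hs := Finset.sum_le_sum fun i (_ : i ∈ Finset.univ) => h ((q : ℝ) * p i - 1)
    rw [Finset.sum_add_distrib, Finset.sum_const, Finset.card_univ, Fintype.card_fin,
      nsmul_eq_mul, ← Finset.mul_sum] at hs
    have e : ∀ i, |(q : ℝ) * p i - 1| / 2 = q * (1 / 2 * |p i - 1 / q|) := by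
      intro i
      rw [show (q : ℝ) * p i - 1 = q * (p i - 1 / q) by field_simp, abs_mul, abs_of_pos hq0]
      ring
    simp only [e, ← Finset.mul_sum] at hs
    refine le_of_mul_le_mul_left ?_ hq0
    refine hs.trans_eq ?_
    simp only [potQ, cmom]
    field_simp

lemma psiOf_uniform [NeZero q] (K e3 e11 e4 : ℝ) :
    psiOf K e3 e11 e4 (fun _ : Fin q => (1 : ℝ) / q) = 0 := by
  have hq : (q : ℝ) ≠ 0 := Nat.cast_ne_zero.mpr (NeZero.ne q)
  simp [psiOf, cmom, hq]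

lemma cmom_delta [NeZero q] (k : ℕ) (i : Fin q) :
    cmom k (fun j => if i = j then (1 : ℝ) else 0) =
      (((q : ℝ) - 1) ^ k + ((q : ℝ) - 1) * (-1) ^ k) / q := by
  have e : ∀ j, ((q : ℝ) * (if i = j then 1 else 0) - 1) ^ k =
      (-1) ^ k + if i = j then ((q : ℝ) - 1) ^ k - (-1) ^ k else 0 := fun j => by
    split_ifs <;> simp
  simp only [cmom, e, Finset.sum_add_distrib, Finset.sum_ite_eq, Finset.mem_univ, if_true,
    Finset.sum_const, Finset.card_univ, Fintype.card_fin, nsmul_eq_mul]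
  ring

/-- The channel only increases the auxiliary functional beyond the cubic factor. -/
lemma psiOf_chan (hq : 2 ≤ q) {K e3 e11 e4 lam : ℝ} (h0 : 0 ≤ lam) (h1 : lam ≤ 1)
    (he3 : 0 ≤ e3) (he4 : e4 ≤ 0)
    (hK : ((q : ℝ) - 1) * (3 * e3 + 2 * |e11|) ≤ K)
    {p : Fin q → ℝ} (hp : p ∈ stdSimplex ℝ (Fin q)) :
    lam ^ 3 * psiOf K e3 e11 e4 p ≤ psiOf K e3 e11 e4 (chanMap lam p) := by
  have : NeZero q := ⟨by omega⟩
  have hq' : (2 : ℝ) ≤ q := by exact_mod_cast hq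
  simp only [psiOf, cmom_chan lam _ hp]
  have hQ : 0 ≤ cmom 2 p := potQ_nonneg p
  have hQ' : cmom 2 p ≤ (q : ℝ) - 1 := potQ_le hp
  have hF := cmom_four_nonneg p
  have hT := abs_cmom_three_le hq hp
  generalize cmom 2 p = Q at *
  generalize cmom 3 p = T at *
  generalize cmom 4 p = F at *
  have hb : 0 ≤ K * Q ^ 2 - e3 * (1 + lam + lam ^ 2) * Q ^ 3 - e11 * (1 + lam) * (Q * T) - e4 * F := by
    have a1 : e3 * (1 + lam + lam ^ 2) * Q ^ 3 ≤ e3 * 3 * (((q : ℝ) - 1) * Q ^ 2) := by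
      have : Q ^ 3 ≤ ((q : ℝ) - 1) * Q ^ 2 := by nlinarith [sq_nonneg Q]
      gcongr
      nlinarith
    have a2 : e11 * (1 + lam) * (Q * T) ≤ |e11| * 2 * (((q : ℝ) - 1) * Q ^ 2) := by
      calc e11 * (1 + lam) * (Q * T) ≤ |e11 * (1 + lam) * (Q * T)| := le_abs_self _
        _ = |e11| * (1 + lam) * (Q * |T|) := by
          rw [abs_mul, abs_mul, abs_mul, abs_of_nonneg hQ,
            abs_of_nonneg (show (0 : ℝ) ≤ 1 + lam by linarith)]
        _ ≤ |e11| * 2 * (Q * (((q : ℝ) - 1) * Q)) := by gcongr; linarith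
        _ = _ := by ring
    have a3 := mul_le_mul_of_nonneg_right hK (sq_nonneg Q)
    nlinarith [mul_nonneg (neg_nonneg.mpr he4) hF]
  nlinarith [mul_nonneg (mul_nonneg (pow_nonneg h0 3) (sub_nonneg.mpr h1)) hb]

/-- The setup of the recursion from the two merge inequalities. -/
theorem auxSetup_ferro (hq : 2 ≤ q) {K e3 e11 e4 lam : ℝ} (h0 : 0 ≤ lam) (h1 : lam ≤ 1)
    (he3 : 0 ≤ e3) (he4 : e4 ≤ 0) (hK : ((q : ℝ) - 1) * (3 * e3 + 2 * |e11|) ≤ K)
    (hdelta : 0 ≤ ((q : ℝ) - 1) * ((q : ℝ) - 2) - K * ((q : ℝ) - 1) ^ 2 + e3 * ((q : ℝ) - 1) ^ 3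
      + e11 * (((q : ℝ) - 1) ^ 2 * ((q : ℝ) - 2))
      + e4 * (((q : ℝ) - 1) * ((q : ℝ) ^ 2 - 3 * q + 3)))
    (ha : AuxIneq q (psiOf K e3 e11 e4)) (hm : MainIneq q potQ (psiOf K e3 e11 e4)) :
    AuxSetup q lam potQ (psiOf K e3 e11 e4) := by
  have : NeZero q := ⟨by omega⟩
  have hq0 : (q : ℝ) ≠ 0 := Nat.cast_ne_zero.mpr (NeZero.ne q)
  refine ⟨isPotential_potQ hq, ha, hm, psiOf_uniform _ _ _ _, fun i => ?_,
    ⟨lam ^ 3, pow_nonneg h0 3, fun p hp => psiOf_chan hq h0 h1 he3 he4 hK hp⟩,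
    fun p hp => cmom_chan lam 2 hp⟩
  refine hdelta.trans_eq ?_
  simp only [psiOf, cmom_delta]
  field_simp
  ring

/-- The mean of the `k`-th powers of the merged scaled vector. -/
noncomputable def mergePow (k : ℕ) (s u : Fin q → ℝ) : ℝ :=
  (∑ i, ((q : ℝ) ^ 2 * (s i * u i)) ^ k) / q

/-- The merged average written with the scaled sum. -/
lemma mergeAvg_eq [NeZero q] (Φ : (Fin q → ℝ) → ℝ) (s u : Fin q → ℝ) :
    mergeAvg Φ s u = (∑ σ : Equiv.Perm (Fin q), mergePow 1 s (u ∘ σ) *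
        Φ (fun i => s i * u (σ i) / ∑ j, s j * u (σ j))) /
      (Fintype.card (Equiv.Perm (Fin q)) : ℝ) := by
  have hq : (q : ℝ) ≠ 0 := Nat.cast_ne_zero.mpr (NeZero.ne q)
  rw [mergeAvg, Finset.sum_div, Finset.mul_sum]
  refine Finset.sum_congr rfl fun σ _ => ?_
  simp only [hom, mergePow, pow_one, ← Finset.mul_sum, Function.comp]
  field_simp

/-- The centred moments of a normalised vector through power sums. -/
lemma cmom_normalized [NeZero q] {s u : Fin q → ℝ} (h : mergePow 1 s u ≠ 0) :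
    cmom 2 (fun i => s i * u i / ∑ j, s j * u j) = mergePow 2 s u / mergePow 1 s u ^ 2 - 1 ∧
    cmom 3 (fun i => s i * u i / ∑ j, s j * u j) =
      mergePow 3 s u / mergePow 1 s u ^ 3 - 3 * (mergePow 2 s u / mergePow 1 s u ^ 2) + 2 ∧
    cmom 4 (fun i => s i * u i / ∑ j, s j * u j) =
      mergePow 4 s u / mergePow 1 s u ^ 4 - 4 * (mergePow 3 s u / mergePow 1 s u ^ 3)
        + 6 * (mergePow 2 s u / mergePow 1 s u ^ 2) - 3 := by
  have hq : (q : ℝ) ≠ 0 := Nat.cast_ne_zero.mpr (NeZero.ne q)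
  set S := ∑ j, s j * u j with hS
  have hS0 : S ≠ 0 := by
    intro h0
    exact h (by simp [mergePow, ← Finset.mul_sum, ← hS, h0])
  have e1 : mergePow 1 s u = (q : ℝ) * S := by
    simp only [mergePow, pow_one, ← Finset.mul_sum, ← hS]
    field_simp
  have ek : ∀ k, mergePow k s u = (q : ℝ) ^ (2 * k) / q * ∑ i, (s i * u i) ^ k := by
    intro k
    simp only [mergePow, mul_pow, ← Finset.mul_sum, pow_mul]
    ring
  have hnorm : ∑ i, s i * u i / S = 1 := by rw [← Finset.sum_div, ← hS, div_self hS0]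
  have hpw : ∀ k, ∑ i, (s i * u i / S) ^ k = (∑ i, (s i * u i) ^ k) / S ^ k := by
    intro k
    simp only [div_pow, ← Finset.sum_div]
  rw [e1, ek 2, ek 3, ek 4]
  simp only [cmom]
  refine ⟨?_, ?_, ?_⟩
  · have : ∀ x : ℝ, ((q : ℝ) * x - 1) ^ 2 = (q : ℝ) ^ 2 * x ^ 2 - 2 * q * x + 1 := fun x => by ring
    simp only [this, Finset.sum_add_distrib, Finset.sum_sub_distrib, ← Finset.mul_sum,
      Finset.sum_const, Finset.card_univ, Fintype.card_fin, nsmul_eq_mul, hnorm, hpw]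
    field_simp
    ring
  · have : ∀ x : ℝ, ((q : ℝ) * x - 1) ^ 3 =
        (q : ℝ) ^ 3 * x ^ 3 - 3 * (q : ℝ) ^ 2 * x ^ 2 + 3 * q * x - 1 := fun x => by ring
    simp only [this, Finset.sum_add_distrib, Finset.sum_sub_distrib, ← Finset.mul_sum,
      Finset.sum_const, Finset.card_univ, Fintype.card_fin, nsmul_eq_mul, hnorm, hpw]
    field_simp
    ring
  · have : ∀ x : ℝ, ((q : ℝ) * x - 1) ^ 4 = (q : ℝ) ^ 4 * x ^ 4 - 4 * (q : ℝ) ^ 3 * x ^ 3
        + 6 * (q : ℝ) ^ 2 * x ^ 2 - 4 * q * x + 1 := fun x => by ring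
    simp only [this, Finset.sum_add_distrib, Finset.sum_sub_distrib, ← Finset.mul_sum,
      Finset.sum_const, Finset.card_univ, Fintype.card_fin, nsmul_eq_mul, hnorm, hpw]
    field_simp
    ring

end Vale.Agent.P154
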