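import Vale.Agent.P154.ChildMean

/-!
P154: nonreconstruction from a budget functional, for a Poisson and for a fixed number of
children.
-/

namespace Vale.Agent.P154

open scoped BigOperators ENNReal NNReal
open Filter Topology

variable {q : ℕ}

lemma chanMap_comp [NeZero q] (a c : ℝ) (w : Fin q → ℝ) :
    chanMap a (chanMap c w) = chanMap (a * c) w := by
  have hq : (q : ℝ) ≠ 0 := Nat.cast_ne_zero.mpr (NeZero.ne q)
  funext i
  simp only [chanMap_eq, sum_chanMap, Finset.sum_add_distrib, ← Finset.mul_sum, Finset.sum_const,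
    Finset.card_univ, Fintype.card_fin, nsmul_eq_mul]
  field_simp
  ring

lemma chanMap_mem (hq : 2 ≤ q) {c : ℝ} (h0 : -1 / ((q : ℝ) - 1) ≤ c) (h1 : c ≤ 1)
    {u : Fin q → ℝ} (hu : u ∈ stdSimplex ℝ (Fin q)) : chanMap c u ∈ stdSimplex ℝ (Fin q) :=
  haveI : NeZero q := ⟨by omega⟩
  ⟨fun i => chanMap_nonneg hq h0 h1 hu.1 i, by rw [sum_chanMap]; exact hu.2⟩

lemma IsPotential.bddOn {Φ : (Fin q → ℝ) → ℝ} (h : IsPotential Φ) : BddOn Φ := by
  obtain ⟨M, hM⟩ := h.bounded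
  exact ⟨M, fun p hp => by rw [abs_of_nonneg (h.nonneg p hp)]; exact hM p hp⟩

lemma treeMean_mem (hq : 2 ≤ q) {lam : ℝ} (h0 : -1 / ((q : ℝ) - 1) ≤ lam) (h1 : lam ≤ 1)
    {Φ : (Fin q → ℝ) → ℝ} {M : ℝ} (hnn : ∀ p ∈ stdSimplex ℝ (Fin q), 0 ≤ Φ p)
    (hM : ∀ p ∈ stdSimplex ℝ (Fin q), Φ p ≤ M) (ν : PMF ℕ) (n : ℕ) :
    treeMean q lam Φ ν n ∈ Set.Icc 0 M := by
  haveI : NeZero q := ⟨by omega⟩
  refine ⟨tsum_nonneg fun T => mul_nonneg ENNReal.toReal_nonneg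
    (famVal_nonneg' hnn (lik_balanced hq h0 h1 n T).1.nonneg), ?_⟩
  have hb : BddOn Φ := ⟨M, fun p hp => by rw [abs_of_nonneg (hnn p hp)]; exact hM p hp⟩
  refine ((summable_treeTerm hq h0 h1 hb).tsum_le_tsum (fun T =>
    mul_le_mul_of_nonneg_left (famVal_le hM (lik_balanced hq h0 h1 n T).1) ENNReal.toReal_nonneg)
    (summable_treeProb.mul_right M)).trans_eq ?_
  rw [tsum_mul_right, tsum_treeProb_toReal, one_mul]

lemma treeMean_const_mul (c lam : ℝ) (Φ : (Fin q → ℝ) → ℝ) (ν : PMF ℕ) (n : ℕ) :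
    treeMean q lam (fun p => c * Φ p) ν n = c * treeMean q lam Φ ν n := by
  have e : ∀ T : Tree n, famVal (fun p => c * Φ p) (lik q lam n T) = c * famVal Φ (lik q lam n T) := by
    intro T
    simp only [famVal, hom, Finset.mul_sum]
    exact Finset.sum_congr rfl fun τ _ => by ring
  simp only [treeMean, e, ← tsum_mul_left]
  exact tsum_congr fun T => by ring

/-- Nonreconstruction when one step is bounded by a map below the diagonal. -/
theorem nonReconstruction_of_map (hq : 2 ≤ q) {lam : ℝ} (h0 : -1 / ((q : ℝ) - 1) ≤ lam)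
    (h1 : lam ≤ 1) {Φ : (Fin q → ℝ) → ℝ} (hΦ : IsPotential Φ) {ν : PMF ℕ} {g : ℝ → ℝ} {M : ℝ}
    (hM : ∀ p ∈ stdSimplex ℝ (Fin q), Φ p ≤ M) (hg : ContinuousOn g (Set.Icc 0 M))
    (hg0 : g 0 ≤ 0) (hlt : ∀ X, 0 < X → X ≤ M → g X < X)
    (hrec : ∀ n, treeMean q lam Φ ν (n + 1) ≤ g (treeMean q lam Φ ν n)) :
    NonReconstruction q lam ν := by
  set x := treeMean q lam Φ ν with hx
  have hmem : ∀ n, x n ∈ Set.Icc 0 M := treeMean_mem hq h0 h1 hΦ.nonneg hM ν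
  have hanti : Antitone x := antitone_nat_of_succ_le fun n => by
    refine (hrec n).trans ?_
    rcases (hmem n).1.eq_or_lt with h | h
    · rw [← h]; exact hg0
    · exact (hlt _ h (hmem n).2).le
  have hlim : Tendsto x atTop (𝓝 (⨅ n, x n)) :=
    tendsto_atTop_ciInf hanti ⟨0, by rintro _ ⟨n, rfl⟩; exact (hmem n).1⟩
  set L := ⨅ n, x n with hL
  have hLmem : L ∈ Set.Icc 0 M := isClosed_Icc.mem_of_tendsto hlim (Eventually.of_forall hmem)
  have hLle : L ≤ g L := by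
    have ht : Tendsto (fun n => g (x n)) atTop (𝓝 (g L)) :=
      (hg L hLmem).tendsto.comp (tendsto_nhdsWithin_iff.mpr ⟨hlim, Eventually.of_forall hmem⟩)
    exact le_of_tendsto_of_tendsto' (hlim.comp (tendsto_add_atTop_nat 1)) ht hrec
  have hL0 : L = 0 := by
    rcases hLmem.1.eq_or_lt with h | h
    · exact h.symm
    · exact absurd hLle (not_le.mpr (hlt L h hLmem.2))
  refine reconDist_tendsto_zero hq h0 h1 hΦ ?_
  have e : meanPot q lam Φ ν = fun n => ENNReal.ofReal (x n) :=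
    funext fun n => treeMean_eq hq h0 h1 hΦ.bddOn hΦ.nonneg
  rw [e, ← ENNReal.ofReal_zero, ← hL0]
  exact ENNReal.tendsto_ofReal hlim

/-- The Poisson tree, from a budget functional at one channel `l0` and radial scaling below it. -/
theorem nonReconstruction_poisson_of_budget (hq : 2 ≤ q) {l0 c : ℝ}
    (hl0 : -1 / ((q : ℝ) - 1) ≤ l0) (hl1 : l0 ≤ 1) (hc0 : 0 ≤ c) (hc1 : c ≤ 1)
    {Φ : (Fin q → ℝ) → ℝ} {V D : (Fin q → ℝ) → ℝ → ℝ} {R C D0 M : ℝ} {d : ℝ≥0} (B : Finset ℝ)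
    (hC : 0 ≤ C) (hΦ : IsPotential Φ) (hM : ∀ p ∈ stdSimplex ℝ (Fin q), Φ p ≤ M)
    (hrad : ∀ p ∈ stdSimplex ℝ (Fin q), Φ (chanMap c p) ≤ c ^ 2 * Φ p)
    (hV : ∀ A ∈ Set.Icc (0 : ℝ) R, BddOn (V · A)) (hD : ∀ A ∈ Set.Icc (0 : ℝ) R, BddOn (D · A))
    (hD0 : ∀ A ∈ Set.Icc (0 : ℝ) R, ∀ p ∈ stdSimplex ℝ (Fin q), 0 ≤ D p A)
    (hΦV : ∀ p ∈ stdSimplex ℝ (Fin q), Φ p ≤ V p 0)
    (hmerge : ∀ A ∈ Set.Icc (0 : ℝ) R, ∀ s ∈ stdSimplex ℝ (Fin q), ∀ u ∈ stdSimplex ℝ (Fin q),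
      mergeAvg (V · A) s (chanMap l0 u) ≤ V s A + D s A * Φ u)
    (htay : ∀ s ∈ stdSimplex ℝ (Fin q), ∀ A e : ℝ, 0 ≤ A → 0 ≤ e → A + e ≤ R →
      V s A + e * D s A ≤ V s (A + e) + C * e * (e + inside B A e))
    (hcont : ContinuousOn (V fun _ => (1 : ℝ) / q) (Set.Icc 0 R))
    (hzero : V (fun _ => (1 : ℝ) / q) 0 ≤ 0)
    (hgain : ∀ A, 0 < A → A ≤ R → D0 * V (fun _ => (1 : ℝ) / q) A < A)
    (hD0' : 0 < D0) (hR : D0 * M ≤ R) (hd : (d : ℝ) * c ^ 2 ≤ D0) :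
    NonReconstruction q (l0 * c) (poissonLaw d) := by
  haveI : NeZero q := ⟨by omega⟩
  have hq' : (2 : ℝ) ≤ q := by exact_mod_cast hq
  have hlow : -1 / ((q : ℝ) - 1) ≤ 0 := div_nonpos_of_nonpos_of_nonneg (by norm_num) (by linarith)
  have h0 : -1 / ((q : ℝ) - 1) ≤ l0 * c := by
    rcases le_total 0 l0 with h | h
    · exact hlow.trans (mul_nonneg h hc0)
    · exact hl0.trans (le_mul_of_le_one_right h hc1)
  have h1 : l0 * c ≤ 1 := by
    rcases le_total 0 l0 with h | h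
    · exact mul_le_one₀ hl1 hc0 hc1
    · exact le_trans (mul_nonpos_of_nonpos_of_nonneg h hc0) zero_le_one
  have hu0 : (fun _ : Fin q => (1 : ℝ) / q) ∈ stdSimplex ℝ (Fin q) :=
    ⟨fun _ => by positivity, by
      simp only [Finset.sum_const, Finset.card_univ, Fintype.card_fin, nsmul_eq_mul]
      field_simp⟩
  have hM0 : 0 ≤ M := le_trans (hΦ.nonneg _ hu0) (hM _ hu0)
  have hin : ∀ X ∈ Set.Icc 0 M, (d : ℝ) * c ^ 2 * X ∈ Set.Icc 0 R := fun X hX =>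
    ⟨mul_nonneg (mul_nonneg d.coe_nonneg (sq_nonneg c)) hX.1,
      le_trans (mul_le_mul hd hX.2 hX.1 hD0'.le) hR⟩
  refine nonReconstruction_of_map hq h0 h1 hΦ hM
    (g := fun X => V (fun _ => (1 : ℝ) / q) ((d : ℝ) * c ^ 2 * X))
    (hcont.comp (continuous_const.mul continuous_id).continuousOn hin) (by simpa using hzero) ?_
    fun n => ?_
  · intro X hX0 hXM
    rcases eq_or_lt_of_le (hin X ⟨hX0.le, hXM⟩).1 with h | h
    · simp only [← h]; exact lt_of_le_of_lt hzero hX0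
    · have := hgain _ h (hin X ⟨hX0.le, hXM⟩).2
      have h2 : (d : ℝ) * c ^ 2 * X ≤ D0 * X := mul_le_mul_of_nonneg_right hd hX0.le
      exact lt_of_mul_lt_mul_left (lt_of_lt_of_le this h2) hD0'.le
  · have hX := treeMean_mem hq h0 h1 hΦ.nonneg hM (poissonLaw d) n
    have hc2 : BddOn fun p => c ^ 2 * Φ p := by
      refine ⟨c ^ 2 * M, fun p hp => ?_⟩
      rw [abs_mul, abs_of_nonneg (sq_nonneg c), abs_of_nonneg (hΦ.nonneg p hp)]
      exact mul_le_mul_of_nonneg_left (hM p hp) (sq_nonneg c)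
    have h := treeMean_poisson_le hq h0 h1 (Φ := fun p => c ^ 2 * Φ p) (F := Φ) (V := V) (D := D)
      (R := R) B hC hΦ.bddOn hΦ.nonneg hc2
      (fun p hp => mul_nonneg (sq_nonneg c) (hΦ.nonneg p hp)) hV hD hΦV
      (fun A hA s hs u hu => by
        have hm := hmerge A hA s hs _ (chanMap_mem hq (hlow.trans hc0) hc1 hu)
        rw [chanMap_comp] at hm
        exact hm.trans (add_le_add le_rfl (mul_le_mul_of_nonneg_left (hrad u hu) (hD0 A hA s hs))))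
      htay n (fun k => rfl)
      (by rw [treeMean_const_mul, ← mul_assoc]; exact (hin _ hX).2)
    rwa [treeMean_const_mul, ← mul_assoc] at h

/-- The tree with `d` children at every vertex, from a budget step at one channel `l0`. -/
theorem nonReconstruction_regular_of_budget (hq : 2 ≤ q) {l0 c : ℝ}
    (hl0 : -1 / ((q : ℝ) - 1) ≤ l0) (hl1 : l0 ≤ 1) (hc0 : 0 ≤ c) (hc1 : c ≤ 1)
    {Φ : (Fin q → ℝ) → ℝ} {V : (Fin q → ℝ) → ℝ → ℝ} {β : (Fin q → ℝ) → ℝ → ℝ → ℝ} {M : ℝ} {d : ℕ}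
    (hΦ : IsPotential Φ) (hM : ∀ p ∈ stdSimplex ℝ (Fin q), Φ p ≤ M)
    (hrad : ∀ p ∈ stdSimplex ℝ (Fin q), Φ (chanMap c p) ≤ c ^ 2 * Φ p)
    (hd : (d : ℝ) * (l0 * c) ^ 2 ≤ 1)
    (hV : ∀ A ∈ Set.Icc (0 : ℝ) M, BddOn (V · A))
    (hΦV : ∀ p ∈ stdSimplex ℝ (Fin q), Φ p ≤ V p 0)
    (hstep : ∀ kap : ℝ, 0 ≤ kap → (d : ℝ) * kap ≤ M → ∀ r ∈ Set.Icc (0 : ℝ) ((d : ℝ) * kap),
      r + kap ≤ (d : ℝ) * kap → BddOn (β · r kap) ∧
      (∀ p ∈ stdSimplex ℝ (Fin q), 0 ≤ β p r kap) ∧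
      ∀ s ∈ stdSimplex ℝ (Fin q), ∀ u ∈ stdSimplex ℝ (Fin q),
        mergeAvg (V · r) s (chanMap l0 u) ≤ V s (r + kap) + β s r kap * (l0 ^ 2 * Φ u - kap))
    (hcont : ContinuousOn (V fun _ => (1 : ℝ) / q) (Set.Icc 0 M))
    (hzero : V (fun _ => (1 : ℝ) / q) 0 ≤ 0)
    (hgain : ∀ A, 0 < A → A ≤ M → V (fun _ => (1 : ℝ) / q) A < A) :
    NonReconstruction q (l0 * c) (regularLaw d) := by
  haveI : NeZero q := ⟨by omega⟩
  have hq' : (2 : ℝ) ≤ q := by exact_mod_cast hq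
  have hlow : -1 / ((q : ℝ) - 1) ≤ 0 := div_nonpos_of_nonpos_of_nonneg (by norm_num) (by linarith)
  have h0 : -1 / ((q : ℝ) - 1) ≤ l0 * c := by
    rcases le_total 0 l0 with h | h
    · exact hlow.trans (mul_nonneg h hc0)
    · exact hl0.trans (le_mul_of_le_one_right h hc1)
  have h1 : l0 * c ≤ 1 := by
    rcases le_total 0 l0 with h | h
    · exact mul_le_one₀ hl1 hc0 hc1
    · exact le_trans (mul_nonpos_of_nonpos_of_nonneg h hc0) zero_le_one
  set lam := l0 * c with hlam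
  have hin : ∀ X ∈ Set.Icc 0 M, (d : ℝ) * lam ^ 2 * X ∈ Set.Icc 0 M := fun X hX =>
    ⟨mul_nonneg (mul_nonneg (Nat.cast_nonneg d) (sq_nonneg lam)) hX.1,
      le_trans (mul_le_of_le_one_left hX.1 hd) hX.2⟩
  refine nonReconstruction_of_map hq h0 h1 hΦ hM
    (g := fun X => V (fun _ => (1 : ℝ) / q) ((d : ℝ) * lam ^ 2 * X))
    (hcont.comp (continuous_const.mul continuous_id).continuousOn hin) (by simpa using hzero) ?_
    fun n => ?_
  · intro X hX0 hXM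
    rcases eq_or_lt_of_le (hin X ⟨hX0.le, hXM⟩).1 with h | h
    · simp only [← h]; exact lt_of_le_of_lt hzero hX0
    · exact lt_of_lt_of_le (hgain _ h (hin X ⟨hX0.le, hXM⟩).2) (mul_le_of_le_one_left hX0.le hd)
  · have hX := treeMean_mem hq h0 h1 hΦ.nonneg hM (regularLaw d) n
    set kap := lam ^ 2 * treeMean q lam Φ (regularLaw d) n with hkap
    have hkap0 : 0 ≤ kap := mul_nonneg (sq_nonneg lam) hX.1
    have hdk : (d : ℝ) * kap ∈ Set.Icc 0 M := by rw [hkap, ← mul_assoc]; exact hin _ hX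
    have hmem : ∀ j : ℕ, j ≤ d → (j : ℝ) * kap ∈ Set.Icc 0 M := fun j hj =>
      ⟨mul_nonneg (Nat.cast_nonneg j) hkap0,
        le_trans (mul_le_mul_of_nonneg_right (Nat.cast_le.mpr hj) hkap0) hdk.2⟩
    have hstp : ∀ j, j < d → BddOn (β · ((j : ℝ) * kap) kap) ∧
        (∀ p ∈ stdSimplex ℝ (Fin q), 0 ≤ β p ((j : ℝ) * kap) kap) ∧
        ∀ s ∈ stdSimplex ℝ (Fin q), ∀ u ∈ stdSimplex ℝ (Fin q),
          mergeAvg (V · ((j : ℝ) * kap)) s (chanMap lam u) ≤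
            V s (((j : ℝ) + 1) * kap) + β s ((j : ℝ) * kap) kap * (lam ^ 2 * Φ u - kap) := by
      intro j hj
      have hj' : ((j : ℝ) + 1) * kap ≤ (d : ℝ) * kap :=
        mul_le_mul_of_nonneg_right (by exact_mod_cast hj) hkap0
      obtain ⟨b1, b2, b3⟩ := hstep kap hkap0 hdk.2 ((j : ℝ) * kap)
        ⟨mul_nonneg (Nat.cast_nonneg j) hkap0, by linarith⟩ (by linarith)
      refine ⟨b1, b2, fun s hs u hu => ?_⟩
      have hm := b3 s hs _ (chanMap_mem hq (hlow.trans hc0) hc1 hu)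
      rw [chanMap_comp, ← hlam, show (j : ℝ) * kap + kap = ((j : ℝ) + 1) * kap by ring] at hm
      refine hm.trans (add_le_add le_rfl (mul_le_mul_of_nonneg_left (sub_le_sub_right ?_ kap) (b2 s hs)))
      calc l0 ^ 2 * Φ (chanMap c u) ≤ l0 ^ 2 * (c ^ 2 * Φ u) :=
            mul_le_mul_of_nonneg_left (hrad u hu) (sq_nonneg l0)
        _ = lam ^ 2 * Φ u := by rw [hlam]; ring
    have h := childMean_budget_fin (ν := regularLaw d) (n := n) hq h0 h1
      (V := V) (β := fun s r => β s r kap) hkap0 hΦ.bddOn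
      (fun j hj => hV _ (hmem j hj)) (fun j hj => (hstp j hj).1) (fun j hj => (hstp j hj).2.1)
      (fun j hj => (hstp j hj).2.2) le_rfl
    have hle : treeMean q lam Φ (regularLaw d) (n + 1) ≤
        childMean q lam (V · 0) (regularLaw d) n d := by
      have hV0 : BddOn (V · 0) := hV 0 ⟨le_rfl, le_trans hX.1 hX.2⟩
      have hz : BddOn (fun _ : Fin q → ℝ => (0 : ℝ)) := ⟨0, fun p _ => by simp⟩
      have hmono : childMean q lam Φ (regularLaw d) n d ≤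
          childMean q lam (V · 0) (regularLaw d) n d := by
        simpa using childMean_comb_le (ν := regularLaw d) (n := n) (k := d) hq h0 h1 hΦ.bddOn hz
          hV0 (r := 0) (c := 0) fun p hp => by simpa using hΦV p hp
      refine le_trans (le_of_eq ?_) hmono
      have hnn : 0 ≤ childMean q lam Φ (regularLaw d) n d := tsum_nonneg fun f =>
        mul_nonneg (childProb_nonneg f) (famVal_nonneg' hΦ.nonneg (prodFam_lik_facts hq h0 h1 f).1)
      refine (ENNReal.ofReal_eq_ofReal_iff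
        (treeMean_mem hq h0 h1 hΦ.nonneg hM (regularLaw d) (n + 1)).1 hnn).mp ?_
      rw [← treeMean_eq hq h0 h1 hΦ.bddOn hΦ.nonneg,
        meanPot_succ_childMean hq h0 h1 hΦ.bddOn hΦ.nonneg, tsum_eq_single d]
      · simp [regularLaw]
      · intro b hb
        simp [regularLaw, hb]
    refine (hle.trans h).trans_eq ?_
    rw [hkap, mul_assoc]

end Vale.Agent.P154
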