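import Vale.Agent.P154.FastBern

/-!
P154: the fast box checker with the radial coefficients read off from one packed power instead
of being built by list convolutions.
-/

namespace Vale.Agent.P154.Lst

/-- The slots of a nonnegative packed number. -/
def unpack (w : ℕ) : ℕ → ℕ → List ℤ
  | 0, _ => []
  | k + 1, x => Int.ofNat (x % 2 ^ w) :: unpack w k (x / 2 ^ w)

lemma unpack_spec (w : ℕ) : ∀ (A : List ℤ), (∀ a ∈ A, 0 ≤ a ∧ a < ((2 ^ w : ℕ) : ℤ)) →
    0 ≤ pack w A ∧ unpack w A.length (pack w A).toNat = A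
  | [], _ => by simp [pack, unpack]
  | a :: A, h => by
      obtain ⟨ha0, ha1⟩ := h a (by simp)
      obtain ⟨h0, ih⟩ := unpack_spec w A fun b hb => h b (by simp [hb])
      obtain ⟨u, rfl⟩ : ∃ u : ℕ, (u : ℤ) = a := ⟨a.toNat, Int.toNat_of_nonneg ha0⟩
      obtain ⟨x, hx⟩ : ∃ x : ℕ, (x : ℤ) = pack w A := ⟨_, Int.toNat_of_nonneg h0⟩
      have hu : u < 2 ^ w := by exact_mod_cast ha1
      have e : pack w ((u : ℤ) :: A) = ((u + 2 ^ w * x : ℕ) : ℤ) := by
        simp only [pack, ← hx]; push_cast; ring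
      refine ⟨e ▸ Int.natCast_nonneg _, ?_⟩
      rw [← hx, Int.toNat_natCast] at ih
      rw [e, Int.toNat_natCast, List.length_cons, unpack, Nat.add_mul_mod_self_left,
        Nat.mod_eq_of_lt hu, Nat.add_mul_div_left _ _ (Nat.two_pow_pos w), Nat.div_eq_of_lt hu,
        Nat.zero_add, ih]
      rfl

lemma add_nn : ∀ {A B : List ℤ}, (∀ a ∈ A, 0 ≤ a) → (∀ b ∈ B, 0 ≤ b) → ∀ z ∈ add A B, 0 ≤ z
  | [], _, _, _ => by simp [add]
  | _ :: _, [], _, _ => by simp [add]
  | a :: A, b :: B, hA, hB => by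
      intro z hz
      simp only [add, List.mem_cons] at hz
      rcases hz with rfl | hz
      · exact add_nonneg (hA a (by simp)) (hB b (by simp))
      · exact add_nn (fun c hc => hA c (by simp [hc])) (fun c hc => hB c (by simp [hc])) z hz

lemma conv_nn : ∀ {A B : List ℤ}, (∀ a ∈ A, 0 ≤ a) → (∀ b ∈ B, 0 ≤ b) → ∀ z ∈ conv A B, 0 ≤ z
  | [], _, _, _ => by simp [conv]
  | [a], B, hA, hB => by
      intro z hz
      simp only [conv, scale, List.mem_map] at hz
      obtain ⟨b, hb, rfl⟩ := hz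
      exact mul_nonneg (hA a (by simp)) (hB b hb)
  | a :: a' :: A, B, hA, hB => by
      rw [conv]
      refine add_nn (fun z hz => ?_) fun z hz => ?_
      · simp only [pad, scale, List.mem_append, List.mem_map, List.mem_replicate] at hz
        rcases hz with ⟨b, hb, rfl⟩ | ⟨-, rfl⟩
        · exact mul_nonneg (hA a (by simp)) (hB b hb)
        · exact le_rfl
      · simp only [List.mem_cons] at hz
        rcases hz with rfl | hz
        · exact le_rfl
        · exact conv_nn (fun c hc => hA c (by simp [hc])) hB z hz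

end Vale.Agent.P154.Lst

namespace Vale.Agent.P154.Bern

open Lst

/-- Powers through natural numbers. -/
def ipow : ℤ → ℕ → ℤ
  | .ofNat a, n => Int.ofNat (a ^ n)
  | .negSucc a, n => if n % 2 = 0 then Int.ofNat ((a + 1) ^ n) else -Int.ofNat ((a + 1) ^ n)

lemma ipow_eq : ∀ (z : ℤ) (n : ℕ), ipow z n = z ^ n
  | .ofNat a, n => by simp [ipow, Int.ofNat_eq_natCast]
  | .negSucc a, n => by
      have e : Int.negSucc a = -((a + 1 : ℕ) : ℤ) := rfl
      rw [ipow, e, neg_pow (((a + 1 : ℕ) : ℤ))]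
      rcases Nat.even_or_odd n with h | h
      · rw [if_pos (Nat.even_iff.1 h), h.neg_one_pow]
        simp [Int.ofNat_eq_natCast]
      · rw [if_neg (by rw [Nat.odd_iff.1 h]; omega), h.neg_one_pow]
        simp [Int.ofNat_eq_natCast]

/-- A power of two, through natural numbers. -/
def two (m : ℕ) : ℤ := ((2 ^ m : ℕ) : ℤ)

lemma two_eq (m : ℕ) : two m = 2 ^ m := by simp [two]

/-- The coefficients of the form of `Tv`. -/
def tq3 (a : Ax) : ℤ × ℤ × ℤ :=
  let M := two a.m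
  (3 * a.lo * a.lo - 6 * M * a.lo + 4 * M * M,
    6 * a.lo * a.hi - 6 * M * (a.lo + a.hi) + 8 * M * M,
    3 * a.hi * a.hi - 6 * M * a.hi + 4 * M * M)

/-- The coefficients of the form of `Kv`. -/
def kq3 (a : Ax) : ℤ × ℤ × ℤ :=
  let M := two a.m
  (9 * a.lo * a.lo - 18 * M * a.lo + 8 * M * M,
    18 * a.lo * a.hi - 18 * M * (a.lo + a.hi) + 16 * M * M,
    9 * a.hi * a.hi - 18 * M * a.hi + 8 * M * M)

/-- A packed pair. -/
def pk2 (w : ℕ) (p q : ℤ) : ℤ := p + two w * q

/-- A packed triple. -/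
def pk3 (w : ℕ) (t : ℤ × ℤ × ℤ) : ℤ := t.1 + two w * (t.2.1 + two w * t.2.2)

/-- The norm of a triple. -/
def nm3 (t : ℤ × ℤ × ℤ) : ℕ := t.1.natAbs + (t.2.1.natAbs + t.2.2.natAbs)

/-- The packed radial monomial. -/
def radQ (w : ℕ) (a : Ax) (N n : ℕ) : ℤ :=
  ipow (pk2 w a.lo a.hi) n * ipow (pk2 w (two a.m) (two a.m)) (N - n)

/-- The norm bound of the radial monomial. -/
def radB (a : Ax) (N n : ℕ) : ℕ := (a.lo.natAbs + a.hi.natAbs) ^ n * (2 ^ a.m + 2 ^ a.m) ^ (N - n)

/-- The packed angular monomial. -/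
def angQ (w : ℕ) (a : Ax) (N i j : ℕ) : ℤ :=
  ipow (pk3 w (tq3 a)) i * ipow (pk3 w (kq3 a)) j *
    ipow (pk2 w (two a.m) (two a.m)) (N - (2 * i + 2 * j))

/-- The norm bound of the angular monomial. -/
def angB (a : Ax) (N i j : ℕ) : ℕ :=
  nm3 (tq3 a) ^ i * nm3 (kq3 a) ^ j * (2 ^ a.m + 2 ^ a.m) ^ (N - (2 * i + 2 * j))

lemma radQ_eq (w : ℕ) (a : Ax) (N n : ℕ) : radQ w a N n = radP w a N n := by
  simp [radQ, radP, ipow_eq, pk2, pack, two, Ax.lin, Ax.one]

lemma angQ_eq (w : ℕ) (a : Ax) (N i j : ℕ) : angQ w a N i j = angP w a N i j := by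
  simp [angQ, angP, ipow_eq, pk2, pk3, tq3, kq3, pack, two, Ax.tq, Ax.kq, Ax.one]

lemma radB_eq (a : Ax) (N n : ℕ) : radB a N n = radN a N n := by
  simp [radB, radN, absSum, Ax.lin, Ax.one, Int.natAbs_pow]

lemma angB_eq (a : Ax) (N i j : ℕ) : angB a N i j = angN a N i j := by
  simp [angB, angN, nm3, tq3, kq3, two, absSum, Ax.tq, Ax.kq, Ax.one, Int.natAbs_pow]

/-- The combination of a table with one row, by plain recursion. -/
noncomputable def comb (T : List (ℤ × ℕ)) (cs : List ℤ) : ℤ × ℕ :=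
  List.rec (motive := fun _ => List ℤ → ℤ × ℕ) (fun _ => (0, 0))
    (fun p _ f B => List.rec (motive := fun _ => ℤ × ℕ) (0, 0)
      (fun c cs' _ => let r := f cs'; (c * p.1 + r.1, c.natAbs * p.2 + r.2)) B) T cs

lemma comb_eq : ∀ (T : List (ℤ × ℕ)) (cs : List ℤ), comb T cs = combine T cs
  | [], _ => rfl
  | _ :: _, [] => rfl
  | (v, n) :: T, c :: cs => by
      rw [show combine ((v, n) :: T) (c :: cs) =
        (c * v + (combine T cs).1, c.natAbs * n + (combine T cs).2) from rfl, ← comb_eq T cs]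
      rfl

/-- The radial coefficients, from one packed product. -/
def radU (w : ℕ) (a : Ax) (N n : ℕ) : List ℤ := unpack w (N + 1) (radQ w a N n).toNat

lemma pw_nn {L : List ℤ} (hL : ∀ a ∈ L, 0 ≤ a) : ∀ n, ∀ z ∈ pw L n, 0 ≤ z
  | 0 => by simp [pw]
  | n + 1 => conv_nn hL (pw_nn hL n)

lemma radU_eq {w : ℕ} {a : Ax} {N n : ℕ} (hn : n ≤ N) (h0 : 0 ≤ a.lo) (h1 : a.lo < a.hi)
    (hb : radN a N n < 2 ^ w) : radU w a N n = radV a N n := by
  obtain ⟨e, e'⟩ := rad_spec w a N n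
  have hnn : ∀ z ∈ radV a N n, 0 ≤ z := by
    refine conv_nn (pw_nn ?_ n) (pw_nn ?_ _) <;> simp [Ax.lin, Ax.one, h0] <;> omega
  have key := unpack_spec w (radV a N n) fun z hz => ⟨hnn z hz, by
    have := natAbs_le_absSum hz
    have := hnn z hz
    omega⟩
  rw [radU, radQ_eq, ← e, ← radV_length hn]
  exact key.2

/-- Packed vectors of the second point. -/
def pTableU (c : Cfg) (b : Box) : List (ℕ × ℕ) → List (ℤ × ℕ)
  | [] => []
  | (k, l) :: ps =>
    (((2 ^ (c.cap - (2 * k + 3 * l)) : ℕ) : ℤ) *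
        (radQ (c.W * (c.N3 + 1)) b.a2 c.N2 (2 * k + 3 * l - 2) * angQ c.W b.a3 c.N3 k l),
      2 ^ (c.cap - (2 * k + 3 * l)) *
        (radB b.a2 c.N2 (2 * k + 3 * l - 2) * angB b.a3 c.N3 k l)) :: pTableU c b ps

lemma pTableU_eq (c : Cfg) (b : Box) : ∀ ps, pTableU c b ps = pTableF c b ps
  | [] => rfl
  | (k, l) :: ps => by simp [pTableU, pTableF, pTableU_eq c b ps, radQ_eq, angQ_eq, radB_eq, angB_eq]

/-- The tensor, packed in all but the first coordinate. -/
noncomputable def accumU (c : Cfg) (b : Box) (T : List (ℤ × ℕ)) : List ((ℕ × ℕ) × List ℤ) → List ℤ × ℕ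
  | [] => (List.replicate (c.N0 + 1) 0, 0)
  | r :: rs =>
    let g := comb T r.2
    let i := r.1.1
    let j := r.1.2
    let k := g.1 * ((2 ^ (c.cap - (2 * i + 3 * j)) : ℕ) : ℤ) *
      angQ (c.W * ((c.N2 + 1) * (c.N3 + 1))) b.a1 c.N1 i j
    let rest := accumU c b T rs
    (List.zipWith (fun x y => k * x + y) (radU c.W b.a0 c.N0 (2 * i + 3 * j)) rest.1,
      2 ^ (c.cap - (2 * i + 3 * j)) *
        (radB b.a0 c.N0 (2 * i + 3 * j) * angB b.a1 c.N1 i j) * g.2 + rest.2)

lemma add_scale_zip (k : ℤ) : ∀ A B : List ℤ,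
    List.zipWith (fun x y => k * x + y) A B = Lst.add (scale k A) B
  | [], _ => by simp [scale, Lst.add]
  | _ :: _, [] => by simp [scale, Lst.add]
  | a :: A, b :: B => by
      have := add_scale_zip k A B
      simp only [scale] at this
      simp [scale, Lst.add, this]

lemma accumU_eq (c : Cfg) (b : Box) (T : List (ℤ × ℕ)) (h0 : 0 ≤ b.a0.lo)
    (h1 : b.a0.lo < b.a0.hi) : ∀ rs : List ((ℕ × ℕ) × List ℤ),
    (∀ q ∈ rs, 2 * q.1.1 + 3 * q.1.2 ≤ c.N0) →
    (∀ q ∈ rs, radB b.a0 c.N0 (2 * q.1.1 + 3 * q.1.2) < 2 ^ c.W) →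
    accumU c b T rs = accumF c b T rs
  | [], _, _ => rfl
  | r :: rs, hr, hb => by
      simp only [accumU, accumF, accumU_eq c b T h0 h1 rs (fun q hq => hr q (by simp [hq]))
        fun q hq => hb q (by simp [hq]), radU_eq (hr r (by simp)) h0 h1 ((radB_eq _ _ _).symm ▸ hb r (by simp)),
        angQ_eq, add_scale_zip, comb_eq, radB_eq, angB_eq]
      push_cast
      rfl

/-- The check on one box. -/
noncomputable def boxU (c : Cfg) (P : Poly) (b : Box) : Bool :=
  decide (0 ≤ b.a0.lo) && decide (b.a0.lo < b.a0.hi) && decide (b.a1.lo < b.a1.hi) &&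
    decide (b.a2.lo < b.a2.hi) && decide (b.a3.lo < b.a3.hi) &&
    P.rows.all (fun q => decide (radB b.a0 c.N0 (2 * q.1.1 + 3 * q.1.2) < 2 ^ c.W)) &&
    (let r := accumU c b (pTableU c b P.pks) P.rows
     decide (2 * r.2 < 2 ^ c.W) &&
       r.1.all (slotsF c.W ((c.N1 + 1) * ((c.N2 + 1) * (c.N3 + 1)))))

/-- The check on a subdivision. -/
noncomputable def coverU (c : Cfg) (P : Poly) : Cover → Box → Bool
  | .leaf, b => boxU c P b
  | .split ax l r, b => coverU c P l (b.cut ax Ax.left) && coverU c P r (b.cut ax Ax.right)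

lemma boxOK_of_quick {c : Cfg} {P : Poly} (hs : shapeOK c P = true) {b : Box}
    (h : boxU c P b = true) : boxOK c P b = true := by
  simp only [boxU, Bool.and_eq_true, decide_eq_true_eq] at h
  obtain ⟨⟨⟨⟨⟨⟨hlo, h0⟩, h1⟩, h2⟩, h3⟩, hb⟩, hr⟩ := h
  simp only [List.all_eq_true, decide_eq_true_eq] at hb
  have hs' := hs
  simp only [shapeOK, Bool.and_eq_true, decide_eq_true_eq, List.all_eq_true] at hs'
  rw [accumU_eq c b _ hlo h0 P.rows (fun q hq => by have := hs'.2 q hq; tauto) hb,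
    pTableU_eq] at hr
  refine boxOK_of_fast hs ?_
  simp only [boxF, Bool.and_eq_true, decide_eq_true_eq]
  exact ⟨⟨⟨⟨h0, h1⟩, h2⟩, h3⟩, hr⟩

lemma coverOK_of_quick {c : Cfg} {P : Poly} (hs : shapeOK c P = true) :
    ∀ (cv : Cover) (b : Box), coverU c P cv b = true → coverOK c P cv b = true
  | .leaf, b, h => boxOK_of_quick hs h
  | .split ax l r, b, h => by
      simp only [coverU, Bool.and_eq_true] at h
      simp only [coverOK, Bool.and_eq_true]
      exact ⟨coverOK_of_quick hs l _ h.1, coverOK_of_quick hs r _ h.2⟩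

/-- A subdivision may be checked half by half. -/
lemma coverU_split {c : Cfg} {P : Poly} {ax : ℕ} {l r : Cover} {b : Box}
    (hl : coverU c P l (b.cut ax Ax.left) = true) (hr : coverU c P r (b.cut ax Ax.right) = true) :
    coverU c P (.split ax l r) b = true := by
  simp [coverU, hl, hr]

/-- A certificate accepted by the quick checker is accepted by the checker. -/
theorem check_of_quick {c : Cfg} {P : Poly} {cv : Cover} (hs : shapeOK c P = true)
    (h : coverU c P cv unitBox = true) : check c P cv = true := by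
  simp [check, hs, coverOK_of_quick hs cv _ h]

end Vale.Agent.P154.Bern
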