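import Vale.Agent.P154.RowFast
import Vale.Agent.P154.BernQuick

/-!
P154: row checks from parts checked with the quick box checker.
-/

namespace Vale.Agent.P154.BudgetRow

open Kron

/-- A row passes from its rest and its two subdivisions checked quickly. -/
theorem rowCheck_of_quick {Φ : List Term} {r : Row} (h : rowRest Φ r = true)
    (hP : Bern.coverU r.cfg r.P r.cov Bern.unitBox = true)
    (h3 : Bern.coverU r.cfg3 r.R3 r.cov3 box3 = true) : rowCheck Φ r = true := by
  simp only [rowRest, Bool.and_eq_true, decide_eq_true_eq] at h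
  simp only [rowCheck, Bool.and_eq_true, decide_eq_true_eq]
  obtain ⟨⟨⟨⟨h', hb⟩, hid⟩, hs3⟩, hid3⟩ := h
  exact ⟨⟨⟨⟨⟨h', Bern.check_of_quick hb hP⟩, hid⟩, hs3⟩,
    Bern.coverOK_of_quick hs3 _ _ h3⟩, hid3⟩

/-- The general row passes from its rest and its two subdivisions checked quickly. -/
theorem rowCheckGen_of_quick {na nb N : ℕ} {R : List Term} {r : Row}
    (h : rowRestGen na nb N R r = true)
    (hP : Bern.coverU r.cfg r.P r.cov Bern.unitBox = true)
    (h3 : Bern.coverU r.cfg3 r.R3 r.cov3 box3 = true) : rowCheckGen na nb N R r = true := by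
  simp only [rowRestGen, Bool.and_eq_true, decide_eq_true_eq] at h
  simp only [rowCheckGen, Bool.and_eq_true, decide_eq_true_eq]
  obtain ⟨⟨⟨⟨h', hb⟩, hid⟩, hs3⟩, hid3⟩ := h
  exact ⟨⟨⟨⟨⟨h', Bern.check_of_quick hb hP⟩, hid⟩, hs3⟩,
    Bern.coverOK_of_quick hs3 _ _ h3⟩, hid3⟩

end Vale.Agent.P154.BudgetRow
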