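import Vale.Agent.P154.BudgetRow

/-!
P154: the row check for a channel `-na / nb` in `[-1/2, 0]` and an arbitrary right side.
-/

namespace Vale.Agent.P154.BudgetRow

open scoped BigOperators
open Kron

/-- The second point written through its image under the channel `-na / nb`, times `na ^ N`. -/
def unChanGen (na nb N : ℕ) (L : List Term) : List Term :=
  L.map fun t =>
    (t.1 * (nb : ℤ) ^ (2 * t.2.2.2.1 + 3 * t.2.2.2.2) * (-1) ^ t.2.2.2.2 *
      (na : ℤ) ^ (N - (2 * t.2.2.2.1 + 3 * t.2.2.2.2)), t.2)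

/-- Weights within the bound. -/
def weightOK (N : ℕ) (L : List Term) : Bool :=
  L.all fun t => decide (2 * t.2.2.2.1 + 3 * t.2.2.2.2 ≤ N)

/-- The polynomial of the identity in the four invariants, which vanishes. -/
def sumPolyGen {α : Type} (o : Ops α) (na nb N : ℕ) (R : List Term) (r : Row) (x : Fin 4 → α) : α :=
  let z := Aux3.three o (x 0) (x 1)
  let y := Aux3.three o (x 2) (x 3)
  o.add (o.mul (o.cst r.kR)
      (Aux3.evO o (Aux3.scaleT 6 2 r.I r.J (unChanGen na nb N R)) (Aux3.invs o z y)))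
    (o.mul (o.cst (-1))
      (o.add (o.mul (o.cst r.kG) (Aux3.six o r.G z y))
        (o.mul (o.cst r.kP)
          (Aux3.evO o (Aux3.scaleT 6 2 r.I r.J (unChanGen na nb N (Aux3.toTerms r.P)))
            (Aux3.invs o z y)))))

/-- The check of one row with right side `R` in the invariants of both points; the field `D` of the
row is not read. -/
def rowCheckGen (na nb N : ℕ) (R : List Term) (r : Row) : Bool :=
  decide (0 < r.a) && decide (0 < r.kG) && decide (0 < nb) && decide (2 * na ≤ nb) &&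
    decide (r.e * r.kR * (6 ^ r.I * 2 ^ r.J * na ^ N) = 6 * r.a * r.kG) &&
    firstOnly r.W && constOK r.G && weightOK N R && weightOK N (Aux3.toTerms r.P) &&
    Aux3.scaleOK r.I r.J (unChanGen na nb N R) &&
    Aux3.scaleOK r.I r.J (unChanGen na nb N (Aux3.toTerms r.P)) &&
    Bern.check r.cfg r.P r.cov && zeroOK r.lay (sumPolyGen kOps na nb N R r r.lay.var) &&
    Bern.shapeOK r.cfg3 r.R3 && Bern.coverOK r.cfg3 r.R3 r.cov3 box3 &&
    zeroOK r.lay3 (domPoly kOps r r.lay3.var)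

lemma evalT_unChanGen {na nb N : ℕ} (hnb : 0 < nb) (x : Fin 4 → ℝ) : ∀ L, weightOK N L = true →
    evalT (unChanGen na nb N L)
        ![x 0, x 1, ((na : ℝ) / nb) ^ 2 * x 2, -((na : ℝ) / nb) ^ 3 * x 3] =
      (na : ℝ) ^ N * evalT L x
  | [], _ => by simp [unChanGen, evalT]
  | (z, i, j, k, l) :: L, h => by
      simp only [weightOK, List.all_cons, Bool.and_eq_true, decide_eq_true_eq] at h
      have ih := evalT_unChanGen hnb x L (N := N) (na := na) h.2
      obtain ⟨w, rfl⟩ : ∃ w, N = 2 * k + 3 * l + w := ⟨N - (2 * k + 3 * l), by omega⟩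
      have hb : (nb : ℝ) ≠ 0 := Nat.cast_ne_zero.mpr hnb.ne'
      simp only [evalT, unChanGen] at ih
      simp only [evalT, unChanGen, List.map_cons, List.sum_cons, termVal, ih, Nat.add_sub_cancel_left,
        Matrix.cons_val_zero, Matrix.cons_val_one, Matrix.cons_val]
      have e1 : (-1 : ℝ) ^ l * (-1) ^ l = 1 := by rw [← mul_pow]; simp
      push_cast
      rw [mul_add]
      congr 1
      have e2 : (nb : ℝ) ^ (2 * k + 3 * l) * (-1) ^ l *
          ((((na : ℝ) / nb) ^ 2 * x 2) ^ k * (-((na : ℝ) / nb) ^ 3 * x 3) ^ l) =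
          (na : ℝ) ^ (2 * k + 3 * l) * (x 2 ^ k * x 3 ^ l) := by
        rw [show -((na : ℝ) / nb) ^ 3 * x 3 = (-1) * (((na : ℝ) / nb) ^ 3 * x 3) by ring]
        simp only [mul_pow, div_pow, ← pow_mul, pow_add]
        field_simp
        linear_combination (x 2 ^ k * x 3 ^ l * ((na : ℝ) ^ (2 * k) * (na : ℝ) ^ (3 * l))) * e1
      rw [pow_add (na : ℝ)]
      linear_combination ((z : ℝ) * (na : ℝ) ^ w * x 0 ^ i * x 1 ^ j) * e2

variable {L : Lay}

lemma rel_sumPolyGen (na nb N : ℕ) (R : List Term) (r : Row) :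
    Rel L (fun x => sumPolyGen rOps na nb N R r x) (sumPolyGen kOps na nb N R r L.var) := by
  have hz := Aux3.rel_three (rel_var L 0) (rel_var L 1)
  have hy := Aux3.rel_three (rel_var L 2) (rel_var L 3)
  have hA := Aux3.rel_evO
    (F := fun x => Aux3.invs rOps (Aux3.three rOps (x 0) (x 1)) (Aux3.three rOps (x 2) (x 3)))
    (V := Aux3.invs kOps (Aux3.three kOps (L.var 0) (L.var 1)) (Aux3.three kOps (L.var 2) (L.var 3)))
    (Aux3.rel_invs hz hy)
  have key := rel_add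
    (rel_mul (rel_cst L r.kR) (hA (Aux3.scaleT 6 2 r.I r.J (unChanGen na nb N R))))
    (rel_mul (rel_cst L (-1))
      (rel_add (rel_mul (rel_cst L r.kG) (Aux3.rel_six r.G hz hy))
        (rel_mul (rel_cst L r.kP)
          (hA (Aux3.scaleT 6 2 r.I r.J (unChanGen na nb N (Aux3.toTerms r.P)))))))
  simp only [sumPolyGen]
  with_reducible exact key

/-- Soundness of the check of one row with a general right side. -/
theorem rowGen_sound {na nb N : ℕ} {R : List Term} {r : Row} (h : rowCheckGen na nb N R r = true)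
    {s u : Fin 3 → ℝ} (hs : s ∈ stdSimplex ℝ (Fin 3)) (hu : u ∈ stdSimplex ℝ (Fin 3)) :
    (r.e : ℝ) * mergeAvg (polyT r.W) s (chanMap (-(na : ℝ) / nb) u) ≤
      evalT R ![tI s, cI s, tI u, cI u] := by
  simp only [rowCheckGen, Bool.and_eq_true, decide_eq_true_eq] at h
  obtain ⟨⟨⟨⟨⟨⟨⟨⟨⟨⟨⟨⟨⟨⟨⟨ha, hkG⟩, hnb⟩, hna⟩, hbal⟩, hW⟩, hG0⟩, hwR⟩, hwP⟩, hsc⟩, hscP⟩, hb⟩, hid⟩,
    hs3⟩, hb3⟩, hid3⟩ := h
  set c := (na : ℝ) / nb with hc
  have hb' : (0 : ℝ) < nb := Nat.cast_pos.mpr hnb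
  have hc0 : 0 ≤ c := by positivity
  have hc1 : c ≤ 1 / 2 := by
    rw [hc, div_le_iff₀ hb']
    have : (2 : ℝ) * na ≤ nb := by exact_mod_cast hna
    linarith
  rw [neg_div, ← hc]
  set u' := chanMap (-c) u with hu'
  have eu : ∀ i, u' i = (1 + c) / 3 - c * u i := fun i => by
    rw [hu', chanMap_simplex _ hu, shrink]; ring
  have hu'm : u' ∈ stdSimplex ℝ (Fin 3) := by
    refine ⟨fun i => ?_, ?_⟩
    · have h1 : u i ≤ 1 := hu.2 ▸ Finset.single_le_sum (fun j _ => hu.1 j) (Finset.mem_univ i)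
      have := mul_le_mul_of_nonneg_left h1 hc0
      rw [eu]; linarith
    · have := hu.2
      simp only [Fin.sum_univ_three] at this
      simp only [eu, Fin.sum_univ_three]; linear_combination -c * this
  have hu'2 : ∀ i, u' i ≤ 1 / 2 := fun i => by
    have := mul_nonneg hc0 (hu.1 i)
    rw [eu]; linarith
  have hs3' : s 0 + s 1 + s 2 = 1 := by simpa [Fin.sum_univ_three] using hs.2
  have hu3 : u' 0 + u' 1 + u' 2 = 1 := by simpa [Fin.sum_univ_three] using hu'm.2
  have key := rel_zero (rel_sumPolyGen na nb N R r) hid ![3 * s 0, 3 * s 1, 3 * u' 0, 3 * u' 1]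
  have et : ∀ p : Fin 3 → ℝ, p 0 + p 1 + p 2 = 1 →
      Aux3.three rOps (3 * p 0) (3 * p 1) = (3 * p 0, 3 * p 1, 3 * p 2) := by
    intro p hp
    simp only [Aux3.three, rOps, Prod.mk.injEq, true_and]
    push_cast
    linarith
  have hA : tI u' = c ^ 2 * tI u := by
    rw [hu', chanMap_simplex _ hu, tI_shrink]; ring
  have hB : cI u' = -c ^ 3 * cI u := by
    rw [hu', chanMap_simplex _ hu]
    simp only [cI, shrink, Fin.prod_univ_three]; ring
  have einv : Aux3.invs rOps (3 * s 0, 3 * s 1, 3 * s 2) (3 * u' 0, 3 * u' 1, 3 * u' 2) =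
      ![6 * tI s, 2 * cI s, 6 * tI u', 2 * cI u'] := by
    funext i
    fin_cases i <;>
      (simp [Aux3.invs, Aux3.sq3, Aux3.cu3, Aux3.ctr, rOps, tI, cI, Fin.sum_univ_three,
          Fin.prod_univ_three]
       ring)
  have esum : Aux3.six rOps r.G (3 * s 0, 3 * s 1, 3 * s 2) (3 * u' 0, 3 * u' 1, 3 * u' 2) =
      ∑ σ : Equiv.Perm (Fin 3), evalT r.G (Aux3.prodVec s (u' ∘ σ)) := by
    have epr : ∀ w : Fin 3 → ℝ,
        Aux3.prods rOps (3 * s 0, 3 * s 1, 3 * s 2) (3 * w 0, 3 * w 1, 3 * w 2) =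
          Aux3.prodVec s w := by
      intro w
      funext i
      fin_cases i <;> simp [Aux3.prods, Aux3.prodVec, rOps] <;> ring
    have e : ∀ (σ : Equiv.Perm (Fin 3)) (i j k : Fin 3), σ 0 = i → σ 1 = j → σ 2 = k →
        Aux3.prodVec s (u' ∘ σ) =
          Aux3.prods rOps (3 * s 0, 3 * s 1, 3 * s 2) (3 * u' i, 3 * u' j, 3 * u' k) := by
      rintro σ _ _ _ rfl rfl rfl
      exact (epr (u' ∘ σ)).symm
    rw [Aux3.perm_three, Finset.sum_insert (by decide), Finset.sum_insert (by decide),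
      Finset.sum_insert (by decide), Finset.sum_insert (by decide), Finset.sum_insert (by decide),
      Finset.sum_singleton, e (Equiv.refl _) 0 1 2 rfl rfl rfl,
      e (Equiv.subLeft 0) 0 2 1 (by decide) (by decide) (by decide),
      e (Equiv.subLeft 1) 1 0 2 (by decide) (by decide) (by decide),
      e (Equiv.addRight 1) 1 2 0 (by decide) (by decide) (by decide),
      e (Equiv.addRight 2) 2 0 1 (by decide) (by decide) (by decide),
      e (Equiv.subLeft 2) 2 1 0 (by decide) (by decide) (by decide)]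
    simp only [Aux3.six, Aux3.evO_r]
    show (_ + _) + ((_ + _) + (_ + _)) = _
    ring
  simp only [sumPolyGen, Matrix.cons_val_zero, Matrix.cons_val_one, Matrix.cons_val, et s hs3',
    et u' hu3, esum, einv, Aux3.evO_r] at key
  simp only [rOps] at key
  push_cast at key
  have hsR := Aux3.evalT_scale 6 2 r.I r.J ![tI s, cI s, tI u', cI u'] _ hsc
  have hsP := Aux3.evalT_scale 6 2 r.I r.J ![tI s, cI s, tI u', cI u'] _ hscP
  simp only [Matrix.cons_val_zero, Matrix.cons_val_one, Matrix.cons_val] at hsR hsP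
  have hgR := evalT_unChanGen (na := na) hnb ![tI s, cI s, tI u, cI u] R hwR
  have hgP := evalT_unChanGen (na := na) hnb ![tI s, cI s, tI u, cI u] _ hwP
  simp only [Matrix.cons_val_zero, Matrix.cons_val_one, Matrix.cons_val, ← hc, ← hA, ← hB] at hgR hgP
  rw [hgR] at hsR
  rw [hgP] at hsP
  push_cast at hsR hsP
  rw [hsR, hsP, Aux3.evalT_toTerms] at key
  obtain ⟨ρ, v, hρ, hv, e1, e2⟩ := Aux3.param hs
  obtain ⟨ρ', v', hρ', hv', e3, e4⟩ := Aux3.param hu
  have hP := Bern.check_sound hb hρ hv hρ' hv'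
  rw [← e1, ← e2, ← e3, ← e4] at hP
  set X := evalT R ![tI s, cI s, tI u, cI u]
  set Sg := ∑ σ : Equiv.Perm (Fin 3), evalT r.G (Aux3.prodVec s (u' ∘ σ)) with hSg
  have h1 : (r.kG : ℝ) * Sg ≤ (r.kR : ℝ) * ((6 : ℝ) ^ r.I * 2 ^ r.J * ((na : ℝ) ^ N * X)) := by
    have : 0 ≤ (r.kP : ℝ) *
        ((6 : ℝ) ^ r.I * 2 ^ r.J * ((na : ℝ) ^ N * r.P.eval ![tI s, cI s, tI u, cI u])) :=
      mul_nonneg (Nat.cast_nonneg _) (mul_nonneg (by positivity) (mul_nonneg (by positivity) hP))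
    linarith
  have h2 := Finset.sum_le_sum fun (σ : Equiv.Perm (Fin 3)) (_ : σ ∈ Finset.univ) =>
    node_le hG0 hW hs3 hb3 hid3 hs (Aux3.mem_simplex_comp hu'm σ) fun i => hu'2 (σ i)
  rw [← Finset.mul_sum, ← hSg] at h2
  rw [mergeAvg_eq, Aux3.card_three]
  simp only [Function.comp_apply] at h2 ⊢
  generalize hM : (∑ σ : Equiv.Perm (Fin 3),
    mergePow 1 s (u' ∘ σ) * polyT r.W (fun i => s i * u' (σ i) / ∑ j, s j * u' (σ j))) = M
      at h2 ⊢
  have hbal' : (r.e : ℝ) * r.kR * ((6 : ℝ) ^ r.I * 2 ^ r.J * (na : ℝ) ^ N) = 6 * (r.a : ℝ) * r.kG := by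
    exact_mod_cast hbal
  have hpos : (0 : ℝ) < 6 * (r.a : ℝ) * r.kG := by
    have : (0 : ℝ) < r.a := by exact_mod_cast ha
    have : (0 : ℝ) < r.kG := by exact_mod_cast hkG
    positivity
  refine le_of_mul_le_mul_left ?_ hpos
  calc 6 * (r.a : ℝ) * r.kG * ((r.e : ℝ) * (M / 6)) = (r.e : ℝ) * (r.kG * ((r.a : ℝ) * M)) := by
        ring
    _ ≤ (r.e : ℝ) * ((r.kR : ℝ) * ((6 : ℝ) ^ r.I * 2 ^ r.J * ((na : ℝ) ^ N * X))) :=
        mul_le_mul_of_nonneg_left
          ((mul_le_mul_of_nonneg_left h2 (Nat.cast_nonneg _)).trans h1) (Nat.cast_nonneg _)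
    _ = 6 * (r.a : ℝ) * r.kG * X := by rw [← hbal']; ring


end Vale.Agent.P154.BudgetRow
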