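import Vale.Agent.P154.Recursion

/-!
P154: data processing along the depth. The leaves at depth `n + 1` are a garbling of the leaves at
depth `n`, so `a_n` and the mean of every convex functional of the posterior are nonincreasing.
-/

namespace Vale.Agent.P154

open scoped BigOperators ENNReal
open Filter Topology

variable {q : ℕ}

/-- The first `n` generations of a tree. -/
def cut : (n : ℕ) → Tree (n + 1) → Tree n
  | 0, _ => ()
  | n + 1, T => ⟨T.1, fun a => cut n (T.2 a)⟩

/-- `w` is obtained from `v` by a stochastic kernel which ignores the root. -/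
def Garbled {ι κ : Type} [Fintype ι] [Fintype κ] (v : ι → Fin q → ℝ) (w : κ → Fin q → ℝ) : Prop :=
  ∃ K : ι → κ → ℝ, (∀ t u, 0 ≤ K t u) ∧ (∀ t, ∑ u, K t u = 1) ∧
    ∀ u i, w u i = ∑ t, K t u * v t i

lemma garbled_prodFam {lam : ℝ} {k : ℕ} {ι κ : Fin k → Type} [∀ a, Fintype (ι a)]
    [∀ a, Fintype (κ a)] {v : (a : Fin k) → ι a → Fin q → ℝ}
    {w : (a : Fin k) → κ a → Fin q → ℝ} (h : ∀ a, Garbled (v a) (w a)) :
    Garbled (prodFam lam v) (prodFam lam w) := by
  classical
  choose K hK0 hK1 hK using h
  refine ⟨fun t u => ∏ a, K a (t a) (u a),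
    fun t u => Finset.prod_nonneg fun a _ => hK0 a _ _, fun t => ?_, fun u i => ?_⟩
  · rw [← Fintype.prod_sum fun a x => K a (t a) x]
    exact Finset.prod_eq_one fun a _ => hK1 a _
  · simp only [prodFam, ← Finset.prod_mul_distrib]
    rw [← Fintype.prod_sum fun a x => K a x (u a) * chanMap lam (v a x) i]
    refine Finset.prod_congr rfl fun a _ => ?_
    simp only [chanMap, hK a, Finset.mul_sum]
    rw [Finset.sum_comm]
    exact Finset.sum_congr rfl fun t _ => Finset.sum_congr rfl fun j _ => by ring

/-- The observation one level deeper is a garbling. -/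
lemma garbled_lik (hq : 2 ≤ q) {lam : ℝ} (h0 : -1 / ((q : ℝ) - 1) ≤ lam) (h1 : lam ≤ 1) :
    ∀ (n : ℕ) (T : Tree (n + 1)),
      Garbled (lik q lam n (cut n T)) (lik q lam (n + 1) T) := by
  classical
  intro n
  induction n with
  | zero =>
      intro T
      have hb := (lik_balanced hq h0 h1 1 T).1
      refine ⟨fun t u => lik q lam 1 T u t, fun t u => hb.nonneg u t, fun t => hb.marg t,
        fun u i => ?_⟩
      simp only [lik_zero, mul_ite, mul_one, mul_zero]
      exact ((Finset.sum_eq_single (M := ℝ) i (fun b _ hb' => if_neg hb')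
        (fun h => absurd (Finset.mem_univ _) h)).trans (if_pos rfl)).symm
  | succ n ih =>
      intro T
      have e1 : lik q lam (n + 1 + 1) T = prodFam lam (fun a => lik q lam (n + 1) (T.2 a)) :=
        funext fun τ => lik_succ lam (n + 1) T τ
      have e2 : lik q lam (n + 1) (cut (n + 1) T) =
          prodFam lam (fun a : Fin T.1 => lik q lam n (cut n (T.2 a))) :=
        funext fun τ => lik_succ lam n (cut (n + 1) T) τ
      rw [e1, e2]
      exact garbled_prodFam fun a => ih (T.2 a)

lemma hom_zero (Φ : (Fin q → ℝ) → ℝ) : hom Φ (fun _ => 0) = 0 := by simp [hom]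

/-- The homogeneous extension of a convex functional is sublinear. -/
lemma hom_add_le {Φ : (Fin q → ℝ) → ℝ} (hΦ : ConvexOn ℝ (stdSimplex ℝ (Fin q)) Φ)
    {x y : Fin q → ℝ} (hx : ∀ i, 0 ≤ x i) (hy : ∀ i, 0 ≤ y i) :
    hom Φ (fun i => x i + y i) ≤ hom Φ x + hom Φ y := by
  rcases (Finset.sum_nonneg fun i (_ : i ∈ Finset.univ) => hx i).eq_or_lt with hX | hX
  · have h0 : ∀ i, x i = 0 := fun i =>
      le_antisymm (le_of_le_of_eq (Finset.single_le_sum (fun j _ => hx j) (Finset.mem_univ i))
        hX.symm) (hx i)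
    simp [hom, h0]
  rcases (Finset.sum_nonneg fun i (_ : i ∈ Finset.univ) => hy i).eq_or_lt with hY | hY
  · have h0 : ∀ i, y i = 0 := fun i =>
      le_antisymm (le_of_le_of_eq (Finset.single_le_sum (fun j _ => hy j) (Finset.mem_univ i))
        hY.symm) (hy i)
    simp [hom, h0]
  have hq : (0 : ℝ) < q := by
    rcases Nat.eq_zero_or_pos q with h | h
    · subst h; simp at hX
    · exact_mod_cast h
  set X := ∑ i, x i with hXdef
  set Y := ∑ i, y i with hYdef
  have hS : ∑ i, (x i + y i) = X + Y := Finset.sum_add_distrib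
  have hp : 0 < X + Y := add_pos hX hY
  have hconv := hΦ.2 (mem_simplex_of_nonneg hx hX) (mem_simplex_of_nonneg hy hY)
    (div_nonneg hX.le hp.le) (div_nonneg hY.le hp.le)
    (by rw [← add_div, div_self hp.ne'])
  have e : ((X / (X + Y)) • (fun i => x i / ∑ j, x j) + (Y / (X + Y)) • fun i => y i / ∑ j, y j) =
      fun i => (x i + y i) / (X + Y) := by
    funext i
    simp only [Pi.add_apply, Pi.smul_apply, smul_eq_mul, ← hXdef, ← hYdef]
    field_simp
  rw [e] at hconv
  simp only [smul_eq_mul, ← hXdef, ← hYdef] at hconv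
  simp only [hom, hS, ← hXdef, ← hYdef]
  calc (X + Y) / q * Φ (fun i => (x i + y i) / (X + Y))
      ≤ (X + Y) / q * (X / (X + Y) * Φ (fun i => x i / X) + Y / (X + Y) * Φ (fun i => y i / Y)) :=
        mul_le_mul_of_nonneg_left hconv (div_nonneg hp.le hq.le)
    _ = _ := by field_simp

lemma hom_sum_le {Φ : (Fin q → ℝ) → ℝ} (hΦ : ConvexOn ℝ (stdSimplex ℝ (Fin q)) Φ)
    {ι : Type} (s : Finset ι) (c : ι → ℝ) (x : ι → Fin q → ℝ) (hc : ∀ t, 0 ≤ c t)
    (hx : ∀ t i, 0 ≤ x t i) :
    hom Φ (fun i => ∑ t ∈ s, c t * x t i) ≤ ∑ t ∈ s, c t * hom Φ (x t) := by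
  classical
  induction s using Finset.induction_on with
  | empty => simp [hom]
  | insert a s ha ih =>
      simp only [Finset.sum_insert ha]
      refine (hom_add_le hΦ (fun i => mul_nonneg (hc a) (hx a i))
        (fun i => Finset.sum_nonneg fun t _ => mul_nonneg (hc t) (hx t i))).trans ?_
      rw [hom_smul]
      exact add_le_add le_rfl ih

lemma Garbled.famVal_le {ι κ : Type} [Fintype ι] [Fintype κ] {v : ι → Fin q → ℝ}
    {w : κ → Fin q → ℝ} (h : Garbled v w) (hv : ∀ t i, 0 ≤ v t i) {Φ : (Fin q → ℝ) → ℝ}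
    (hΦ : ConvexOn ℝ (stdSimplex ℝ (Fin q)) Φ) : famVal Φ w ≤ famVal Φ v := by
  obtain ⟨K, hK0, hK1, hK⟩ := h
  calc famVal Φ w ≤ ∑ u, ∑ t, K t u * hom Φ (v t) := by
        refine Finset.sum_le_sum fun u _ => ?_
        rw [show w u = fun i => ∑ t, K t u * v t i from funext (hK u)]
        exact hom_sum_le hΦ _ _ v (fun t => hK0 t u) hv
    _ = famVal Φ v := by
        rw [Finset.sum_comm]
        refine Finset.sum_congr rfl fun t _ => ?_
        rw [← Finset.sum_mul, hK1, one_mul]

/-- The distance to uniform does not increase under a garbling. -/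
lemma treeDist_succ_le (hq : 2 ≤ q) {lam : ℝ} (h0 : -1 / ((q : ℝ) - 1) ≤ lam) (h1 : lam ≤ 1)
    (n : ℕ) (T : Tree (n + 1)) :
    treeDist q lam (n + 1) T ≤ treeDist q lam n (cut n T) := by
  obtain ⟨K, hK0, hK1, hK⟩ := garbled_lik hq h0 h1 n T
  simp only [treeDist, joint_eq, ← Finset.mul_sum, ← Finset.sum_div]
  refine mul_le_mul_of_nonneg_left ?_ (by norm_num)
  set v := lik q lam n (cut n T)
  calc ∑ u, ∑ i, |lik q lam (n + 1) T u i / q - (∑ j, lik q lam (n + 1) T u j) / q / q|
      ≤ ∑ u, ∑ i, ∑ t, K t u * |v t i / q - (∑ j, v t j) / q / q| := by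
        refine Finset.sum_le_sum fun u _ => Finset.sum_le_sum fun i _ => ?_
        have e : lik q lam (n + 1) T u i / q - (∑ j, lik q lam (n + 1) T u j) / q / q =
            ∑ t, K t u * (v t i / q - (∑ j, v t j) / q / q) := by
          simp only [hK, mul_sub, Finset.sum_sub_distrib, mul_div_assoc', Finset.mul_sum,
            Finset.sum_div]
          congr 1
          exact Finset.sum_comm
        rw [e]
        refine (Finset.abs_sum_le_sum_abs _ _).trans (Finset.sum_le_sum fun t _ => ?_)
        rw [abs_mul, abs_of_nonneg (hK0 t u)]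
    _ = ∑ t, ∑ i, |v t i / q - (∑ j, v t j) / q / q| := by
        rw [Finset.sum_congr rfl fun u _ => Finset.sum_comm, Finset.sum_comm]
        refine Finset.sum_congr rfl fun t _ => ?_
        simp only [← Finset.mul_sum, ← Finset.sum_mul, hK1, one_mul]

/-- The law of the first `n` generations is the law of the tree of depth `n`. -/
lemma tsum_cut (ν : PMF ℕ) : ∀ (n : ℕ) (g : Tree n → ℝ≥0∞),
    ∑' T : Tree (n + 1), treeProb ν (n + 1) T * g (cut n T) = ∑' T, treeProb ν n T * g T := by
  intro n
  induction n with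
  | zero =>
      intro g
      calc ∑' T : Tree 1, treeProb ν 1 T * g (cut 0 T)
          = ∑' T : Tree 1, treeProb ν 1 T * g () := rfl
        _ = g () := by rw [ENNReal.tsum_mul_right, tsum_treeProb, one_mul]
        _ = _ := by
            show g () = ∑' u : Unit, (1 : ℝ≥0∞) * g u
            rw [tsum_eq_single () (fun b hb => absurd (Subsingleton.elim b _) hb), one_mul]
  | succ n ih =>
      intro g
      have hpi : ∀ (k : ℕ) (G : (Fin k → Tree n) → ℝ≥0∞),
          ∑' f : Fin k → Tree (n + 1), (∏ a, treeProb ν (n + 1) (f a)) *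
              G (fun a => cut n (f a)) =
            ∑' f : Fin k → Tree n, (∏ a, treeProb ν n (f a)) * G f := by
        intro k
        induction k with
        | zero =>
            intro G
            rw [tsum_eq_single (default : Fin 0 → Tree (n + 1))
              (fun b hb => absurd (Subsingleton.elim b _) hb),
              tsum_eq_single (default : Fin 0 → Tree n)
              (fun b hb => absurd (Subsingleton.elim b _) hb)]
            simp only [Finset.univ_eq_empty, Finset.prod_empty, one_mul]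
            exact congrArg G (Subsingleton.elim _ _)
        | succ k ihk =>
            intro G
            rw [← Equiv.tsum_eq (Fin.consEquiv fun _ : Fin (k + 1) => Tree (n + 1))
              (fun f => (∏ a, treeProb ν (n + 1) (f a)) * G (fun a => cut n (f a))),
              ← Equiv.tsum_eq (Fin.consEquiv fun _ : Fin (k + 1) => Tree n)
              (fun f => (∏ a, treeProb ν n (f a)) * G f), ENNReal.tsum_prod', ENNReal.tsum_prod']
            simp only [Fin.consEquiv_apply, Fin.prod_univ_succ, Fin.cons_zero, Fin.cons_succ,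
              mul_assoc, ENNReal.tsum_mul_left]
            have e : ∀ (x : Tree (n + 1)) (f : Fin k → Tree (n + 1)),
                (fun a => cut n (Fin.cons (α := fun _ => Tree (n + 1)) x f a)) =
                  Fin.cons (α := fun _ => Tree n) (cut n x) (fun a => cut n (f a)) := fun x f =>
              funext fun a => Fin.cases (by simp) (fun b => by simp) a
            simp only [e]
            rw [tsum_congr fun x => congrArg (treeProb ν (n + 1) x * ·)
              (ihk fun f => G (Fin.cons (α := fun _ => Tree n) (cut n x) f))]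
            exact ih fun y => ∑' f : Fin k → Tree n,
              (∏ a, treeProb ν n (f a)) * G (Fin.cons (α := fun _ => Tree n) y f)
      rw [tsum_tree_succ (n + 1), tsum_tree_succ n]
      refine tsum_congr fun k => ?_
      show ∑' f : Fin k → Tree (n + 1), (ν k * ∏ a, treeProb ν (n + 1) (f a)) *
          g (node fun a => cut n (f a)) =
        ∑' f : Fin k → Tree n, (ν k * ∏ a, treeProb ν n (f a)) * g (node f)
      simp only [mul_assoc, ENNReal.tsum_mul_left]
      rw [hpi k fun f => g (node f)]

/-- The mean of a convex functional of the posterior is nonincreasing in the depth. -/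
theorem meanPot_antitone (hq : 2 ≤ q) {lam : ℝ} (h0 : -1 / ((q : ℝ) - 1) ≤ lam) (h1 : lam ≤ 1)
    {Φ : (Fin q → ℝ) → ℝ} (hΦ : ConvexOn ℝ (stdSimplex ℝ (Fin q)) Φ) (ν : PMF ℕ) :
    Antitone (meanPot q lam Φ ν) := by
  refine antitone_nat_of_succ_le fun n => ?_
  unfold meanPot
  rw [← tsum_cut ν n]
  exact ENNReal.tsum_le_tsum fun T => mul_le_mul_right (ENNReal.ofReal_le_ofReal
    ((garbled_lik hq h0 h1 n T).famVal_le (lik_balanced hq h0 h1 n (cut n T)).1.nonneg hΦ)) _

/-- The sequence `a_n` is nonincreasing. -/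
theorem reconDist_antitone (hq : 2 ≤ q) {lam : ℝ} (h0 : -1 / ((q : ℝ) - 1) ≤ lam) (h1 : lam ≤ 1)
    (ν : PMF ℕ) : Antitone (reconDist q lam ν) := by
  refine antitone_nat_of_succ_le fun n => ?_
  unfold reconDist
  rw [← tsum_cut ν n]
  exact ENNReal.tsum_le_tsum fun T =>
    mul_le_mul_right (ENNReal.ofReal_le_ofReal (treeDist_succ_le hq h0 h1 n T)) _

/-- The limit of `a_n` exists. -/
theorem reconDist_tendsto_iInf (hq : 2 ≤ q) {lam : ℝ} (h0 : -1 / ((q : ℝ) - 1) ≤ lam)
    (h1 : lam ≤ 1) (ν : PMF ℕ) :
    Tendsto (reconDist q lam ν) atTop (𝓝 (⨅ n, reconDist q lam ν n)) :=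
  tendsto_atTop_iInf (reconDist_antitone hq h0 h1 ν)

end Vale.Agent.P154
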