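import Vale.Agent.P154.AuxFinal
import Vale.Agent.P154.Mono

/-!
P154: assembly of the thresholds from the nonreconstruction theorems of the parts.
-/

namespace Vale.Agent.P154.Assembly

open scoped ENNReal NNReal

variable {q : ℕ} {lam : ℝ}

/-- Above the threshold there is reconstruction, so nonreconstruction below it gives both
equivalences. -/
lemma iff_pair (hq : 2 ≤ q) (h0 : -1 / ((q : ℝ) - 1) ≤ lam) (h1 : lam ≤ 1) {ν : PMF ℕ} {x : ℝ}
    (hx : offspringMean ν * ENNReal.ofReal (lam ^ 2) = ENNReal.ofReal x)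
    (h : x ≤ 1 → NonReconstruction q lam ν) :
    (Reconstruction q lam ν ↔ 1 < x) ∧ (NonReconstruction q lam ν ↔ x ≤ 1) := by
  haveI : NeZero q := ⟨by omega⟩
  have hks : 1 < x → Reconstruction q lam ν := fun hlt =>
    reconDist_lower hq h0 h1 (by rw [hx]; exact ENNReal.one_lt_ofReal.mpr hlt)
  refine ⟨⟨fun hr => ?_, hks⟩, ⟨fun hn => ?_, h⟩⟩
  · exact lt_of_not_ge fun hle => not_nonReconstruction_of_reconstruction hr (h hle)
  · exact le_of_not_gt fun hlt => not_nonReconstruction_of_reconstruction (hks hlt) hn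

lemma mean_regular (d : ℕ) (lam : ℝ) :
    offspringMean (regularLaw d) * ENNReal.ofReal (lam ^ 2) =
      ENNReal.ofReal ((d : ℝ) * lam ^ 2) := by
  rw [offspringMean_regular, ENNReal.ofReal_mul (Nat.cast_nonneg d), ENNReal.ofReal_natCast]

lemma mean_poisson (d : ℝ≥0) (lam : ℝ) :
    offspringMean (poissonLaw d) * ENNReal.ofReal (lam ^ 2) =
      ENNReal.ofReal ((d : ℝ) * lam ^ 2) := by
  rw [offspringMean_poisson, ← ENNReal.ofReal_coe_nnreal, ← ENNReal.ofReal_mul d.coe_nonneg]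

/-- The three-state threshold for every parameter, from the ferromagnetic certificate and the
three antiferromagnetic parts. -/
theorem three (hF : FerroCert 3)
    (hP : ∀ l : ℝ, -1 / 2 ≤ l → l ≤ 0 → ∀ d : ℝ≥0, (d : ℝ) * l ^ 2 ≤ 1 →
      NonReconstruction 3 l (poissonLaw d))
    (hR : ∀ l : ℝ, -9 / 20 ≤ l → l ≤ 0 → ∀ d : ℕ, (d : ℝ) * l ^ 2 ≤ 1 →
      NonReconstruction 3 l (regularLaw d))
    (hS : ∀ l : ℝ, -1 / 2 ≤ l → l ≤ -9 / 20 → ∀ d : ℕ, 2 ≤ d → d ≤ 4 →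
      NonReconstruction 3 l (regularLaw d))
    (h0 : -1 / 2 ≤ lam) (h1 : lam ≤ 1) :
    (∀ d : ℕ, 2 ≤ d →
      (Reconstruction 3 lam (regularLaw d) ↔ 1 < (d : ℝ) * lam ^ 2) ∧
      (NonReconstruction 3 lam (regularLaw d) ↔ (d : ℝ) * lam ^ 2 ≤ 1)) ∧
    (∀ d : ℝ≥0, 0 < d →
      (Reconstruction 3 lam (poissonLaw d) ↔ 1 < (d : ℝ) * lam ^ 2) ∧
      (NonReconstruction 3 lam (poissonLaw d) ↔ (d : ℝ) * lam ^ 2 ≤ 1)) := by
  have hl : -1 / (((3 : ℕ) : ℝ) - 1) ≤ lam := by push_cast; linarith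
  refine ⟨fun d hd => ?_, fun d hd => ?_⟩
  · rcases le_total 0 lam with hp | hn
    · exact (threshold_regular (by norm_num) hF hp h1 hd).symm
    refine iff_pair (by norm_num) hl h1 (mean_regular d lam) fun hle => ?_
    rcases le_total (-9 / 20) lam with ha | ha
    · exact hR lam ha hn d hle
    · refine hS lam h0 ha d hd (Nat.le_of_lt_succ ?_)
      by_contra hc
      have h5 : (5 : ℝ) ≤ d := by exact_mod_cast not_lt.mp hc
      nlinarith
  · rcases le_total 0 lam with hp | hn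
    · exact (threshold_poisson (by norm_num) hF hp h1 hd).symm
    exact iff_pair (by norm_num) hl h1 (mean_poisson d lam) fun hle => hP lam h0 hn d hle

/-- The complete answer from the five parts. -/
theorem full (hF3 : FerroCert 3) (hF4 : FerroCert 4)
    (hP : ∀ l : ℝ, -1 / 2 ≤ l → l ≤ 0 → ∀ d : ℝ≥0, (d : ℝ) * l ^ 2 ≤ 1 →
      NonReconstruction 3 l (poissonLaw d))
    (hR : ∀ l : ℝ, -9 / 20 ≤ l → l ≤ 0 → ∀ d : ℕ, (d : ℝ) * l ^ 2 ≤ 1 →
      NonReconstruction 3 l (regularLaw d))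
    (hS : ∀ l : ℝ, -1 / 2 ≤ l → l ≤ -9 / 20 → ∀ d : ℕ, 2 ≤ d → d ≤ 4 →
      NonReconstruction 3 l (regularLaw d)) :
    ∀ (q : ℕ) (lam : ℝ), (q = 3 ∧ -1 / 2 ≤ lam ∨ q = 4 ∧ 0 ≤ lam) → lam ≤ 1 →
      (∀ d : ℕ, 2 ≤ d →
        (Reconstruction q lam (regularLaw d) ↔ 1 < (d : ℝ) * lam ^ 2) ∧
        (NonReconstruction q lam (regularLaw d) ↔ (d : ℝ) * lam ^ 2 ≤ 1)) ∧
      (∀ d : ℝ≥0, 0 < d →
        (Reconstruction q lam (poissonLaw d) ↔ 1 < (d : ℝ) * lam ^ 2) ∧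
        (NonReconstruction q lam (poissonLaw d) ↔ (d : ℝ) * lam ^ 2 ≤ 1)) ∧
      (∀ ν : PMF ℕ, 0 ≤ lam → (∃ k, 2 ≤ k ∧ ν k ≠ 0) →
        (Reconstruction q lam ν ↔ 1 < offspringMean ν * ENNReal.ofReal (lam ^ 2)) ∧
        (NonReconstruction q lam ν ↔ offspringMean ν * ENNReal.ofReal (lam ^ 2) ≤ 1)) ∧
      (∀ ν : PMF ℕ, Antitone (reconDist q lam ν)) := by
  intro q lam hq h1
  rcases hq with ⟨rfl, h0⟩ | ⟨rfl, h0⟩
  · obtain ⟨a, b⟩ := three hF3 hP hR hS h0 h1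
    exact ⟨a, b, fun ν hp hν => (threshold_of_cert (by norm_num) hF3 hp h1 hν).symm,
      reconDist_antitone (by norm_num) (by push_cast; linarith) h1⟩
  · exact ⟨fun d hd => (threshold_regular (by norm_num) hF4 h0 h1 hd).symm,
      fun d hd => (threshold_poisson (by norm_num) hF4 h0 h1 hd).symm,
      fun ν hp hν => (threshold_of_cert (by norm_num) hF4 hp h1 hν).symm,
      reconDist_antitone (by norm_num) (by push_cast; linarith) h1⟩

end Vale.Agent.P154.Assembly
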