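import Mathlib

/-!
P154: polynomial lower bounds for inverse powers on `[0, 3]`.
-/

namespace Vale.Agent.P154.Aux3

/-- The lower bound for the inverse in the main inequality. -/
noncomputable def lbM (Z : ℝ) : ℝ :=
  1 - 1 * (Z - 1)
    + (212 / 256) * (Z - 1) ^ 2
    + (-88 / 256) * (Z - 1) ^ 3

/-- The lower bound for the inverse. -/
noncomputable def lb1 (Z : ℝ) : ℝ :=
  1 - 1 * (Z - 1)
    + (984451 / 1048576) * (Z - 1) ^ 2
    + (-1277506 / 1048576) * (Z - 1) ^ 3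
    + (1278144 / 1048576) * (Z - 1) ^ 4
    + (-472614 / 1048576) * (Z - 1) ^ 5

/-- The lower bound for the inverse square. -/
noncomputable def lb2 (Z : ℝ) : ℝ :=
  1 - 2 * (Z - 1)
    + (3144056 / 1048576) * (Z - 1) ^ 2
    + (-4177592 / 1048576) * (Z - 1) ^ 3
    + (4739446 / 1048576) * (Z - 1) ^ 4
    + (-3980820 / 1048576) * (Z - 1) ^ 5
    + (2153971 / 1048576) * (Z - 1) ^ 6
    + (-651587 / 1048576) * (Z - 1) ^ 7
    + (82852 / 1048576) * (Z - 1) ^ 8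

/-- The lower bound for the inverse cube. -/
noncomputable def lb3 (Z : ℝ) : ℝ :=
  1 - 3 * (Z - 1)
    + (6105600 / 1048576) * (Z - 1) ^ 2
    + (-8468087 / 1048576) * (Z - 1) ^ 3
    + (7277255 / 1048576) * (Z - 1) ^ 4
    + (-3275900 / 1048576) * (Z - 1) ^ 5
    + (578070 / 1048576) * (Z - 1) ^ 6

lemma lbM_le {Z : ℝ} (h0 : 0 ≤ Z) (h3 : Z ≤ 3) : Z ^ 1 * lbM Z ≤ 1 := by
  rcases le_total Z (3 / 2 : ℝ) with hb | hb
  · have hx : (0 : ℝ) ≤ Z - (0 : ℝ) := by linarith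
    have hy : (0 : ℝ) ≤ (3 / 2 : ℝ) - Z := by linarith
    have key : ∀ x y : ℝ, 0 ≤ x → 0 ≤ y → 0 ≤
        (4 / 9 : ℝ) * y ^ 2 +
        (31 / 288 : ℝ) * x ^ 1 * y ^ 1 +
        (1 / 144 : ℝ) * x ^ 2 := by
      intros; positivity
    have h := mul_nonneg (sq_nonneg (Z - 1)) (key _ _ hx hy)
    unfold lbM
    linarith
  rcases le_total Z (27 / 16 : ℝ) with hb | hb
  · have hx : (0 : ℝ) ≤ Z - (3 / 2 : ℝ) := by linarith
    have hy : (0 : ℝ) ≤ (27 / 16 : ℝ) - Z := by linarith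
    have key : ∀ x y : ℝ, 0 ≤ x → 0 ≤ y → 0 ≤
        (4 / 9 : ℝ) * y ^ 2 +
        (5 / 36 : ℝ) * x ^ 1 * y ^ 1 +
        (11 / 288 : ℝ) * x ^ 2 := by
      intros; positivity
    have h := mul_nonneg (sq_nonneg (Z - 1)) (key _ _ hx hy)
    unfold lbM
    linarith
  rcases le_total Z (15 / 8 : ℝ) with hb | hb
  · have hx : (0 : ℝ) ≤ Z - (27 / 16 : ℝ) := by linarith
    have hy : (0 : ℝ) ≤ (15 / 8 : ℝ) - Z := by linarith
    have key : ∀ x y : ℝ, 0 ≤ x → 0 ≤ y → 0 ≤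
        (11 / 288 : ℝ) * y ^ 2 +
        (1 / 72 : ℝ) * x ^ 1 * y ^ 1 +
        (23 / 72 : ℝ) * x ^ 2 := by
      intros; positivity
    have h := mul_nonneg (sq_nonneg (Z - 1)) (key _ _ hx hy)
    unfold lbM
    linarith
  rcases le_total Z (9 / 4 : ℝ) with hb | hb
  · have hx : (0 : ℝ) ≤ Z - (15 / 8 : ℝ) := by linarith
    have hy : (0 : ℝ) ≤ (9 / 4 : ℝ) - Z := by linarith
    have key : ∀ x y : ℝ, 0 ≤ x → 0 ≤ y → 0 ≤
        (23 / 288 : ℝ) * y ^ 2 +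
        (17 / 36 : ℝ) * x ^ 1 * y ^ 1 +
        (53 / 72 : ℝ) * x ^ 2 := by
      intros; positivity
    have h := mul_nonneg (sq_nonneg (Z - 1)) (key _ _ hx hy)
    unfold lbM
    linarith
  have hx : (0 : ℝ) ≤ Z - (9 / 4 : ℝ) := by linarith
  have hy : (0 : ℝ) ≤ (3 : ℝ) - Z := by linarith
  have key : ∀ x y : ℝ, 0 ≤ x → 0 ≤ y → 0 ≤
      (53 / 288 : ℝ) * y ^ 2 +
      (125 / 144 : ℝ) * x ^ 1 * y ^ 1 +
      (37 / 36 : ℝ) * x ^ 2 := by
    intros; positivity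
  have h := mul_nonneg (sq_nonneg (Z - 1)) (key _ _ hx hy)
  unfold lbM
  linarith

lemma lb1_le {Z : ℝ} (h0 : 0 ≤ Z) (h3 : Z ≤ 3) : Z ^ 1 * lb1 Z ≤ 1 := by
  rcases le_total Z (3 / 8 : ℝ) with hb | hb
  · have hx : (0 : ℝ) ≤ Z - (0 : ℝ) := by linarith
    have hy : (0 : ℝ) ≤ (3 / 8 : ℝ) - Z := by linarith
    have key : ∀ x y : ℝ, 0 ≤ x → 0 ≤ y → 0 ≤
        (4096 / 81 : ℝ) * y ^ 4 +
        (21516287 / 165888 : ℝ) * x ^ 1 * y ^ 3 +
        (13416869 / 110592 : ℝ) * x ^ 2 * y ^ 2 +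
        (259801885 / 5308416 : ℝ) * x ^ 3 * y ^ 1 +
        (306164075 / 42467328 : ℝ) * x ^ 4 := by
      intros; positivity
    have h := mul_nonneg (sq_nonneg (Z - 1)) (key _ _ hx hy)
    unfold lb1
    linarith
  rcases le_total Z (9 / 16 : ℝ) with hb | hb
  · have hx : (0 : ℝ) ≤ Z - (3 / 8 : ℝ) := by linarith
    have hy : (0 : ℝ) ≤ (9 / 16 : ℝ) - Z := by linarith
    have key : ∀ x y : ℝ, 0 ≤ x → 0 ≤ y → 0 ≤
        (306164075 / 2654208 : ℝ) * y ^ 4 +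
        (398888455 / 1327104 : ℝ) * x ^ 1 * y ^ 3 +
        (496533671 / 1769472 : ℝ) * x ^ 2 * y ^ 2 +
        (588202411 / 5308416 : ℝ) * x ^ 3 * y ^ 1 +
        (673757411 / 42467328 : ℝ) * x ^ 4 := by
      intros; positivity
    have h := mul_nonneg (sq_nonneg (Z - 1)) (key _ _ hx hy)
    unfold lb1
    linarith
  rcases le_total Z (21 / 32 : ℝ) with hb | hb
  · have hx : (0 : ℝ) ≤ Z - (9 / 16 : ℝ) := by linarith
    have hy : (0 : ℝ) ≤ (21 / 32 : ℝ) - Z := by linarith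
    have key : ∀ x y : ℝ, 0 ≤ x → 0 ≤ y → 0 ≤
        (673757411 / 2654208 : ℝ) * y ^ 4 +
        (844867411 / 1327104 : ℝ) * x ^ 1 * y ^ 3 +
        (991522451 / 1769472 : ℝ) * x ^ 2 * y ^ 2 +
        (1112624419 / 5308416 : ℝ) * x ^ 3 * y ^ 1 +
        (1379235971 / 42467328 : ℝ) * x ^ 4 := by
      intros; positivity
    have h := mul_nonneg (sq_nonneg (Z - 1)) (key _ _ hx hy)
    unfold lb1
    linarith
  rcases le_total Z (3 / 4 : ℝ) with hb | hb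
  · have hx : (0 : ℝ) ≤ Z - (21 / 32 : ℝ) := by linarith
    have hy : (0 : ℝ) ≤ (3 / 4 : ℝ) - Z := by linarith
    have key : ∀ x y : ℝ, 0 ≤ x → 0 ≤ y → 0 ≤
        (1379235971 / 42467328 : ℝ) * y ^ 4 +
        (8331611 / 165888 : ℝ) * x ^ 1 * y ^ 3 +
        (9094349 / 110592 : ℝ) * x ^ 2 * y ^ 2 +
        (1336427 / 10368 : ℝ) * x ^ 3 * y ^ 1 +
        (672503 / 10368 : ℝ) * x ^ 4 := by
      intros; positivity
    have h := mul_nonneg (sq_nonneg (Z - 1)) (key _ _ hx hy)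
    unfold lb1
    linarith
  rcases le_total Z (3 / 2 : ℝ) with hb | hb
  · have hx : (0 : ℝ) ≤ Z - (3 / 4 : ℝ) := by linarith
    have hy : (0 : ℝ) ≤ (3 / 2 : ℝ) - Z := by linarith
    have key : ∀ x y : ℝ, 0 ≤ x → 0 ≤ y → 0 ≤
        (672503 / 42467328 : ℝ) * y ^ 4 +
        (3379673 / 10616832 : ℝ) * x ^ 1 * y ^ 3 +
        (1931965 / 884736 : ℝ) * x ^ 2 * y ^ 2 +
        (4911425 / 2654208 : ℝ) * x ^ 3 * y ^ 1 +
        (1114721 / 2654208 : ℝ) * x ^ 4 := by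
      intros; positivity
    have h := mul_nonneg (sq_nonneg (Z - 1)) (key _ _ hx hy)
    unfold lb1
    linarith
  rcases le_total Z (15 / 8 : ℝ) with hb | hb
  · have hx : (0 : ℝ) ≤ Z - (3 / 2 : ℝ) := by linarith
    have hy : (0 : ℝ) ≤ (15 / 8 : ℝ) - Z := by linarith
    have key : ∀ x y : ℝ, 0 ≤ x → 0 ≤ y → 0 ≤
        (1114721 / 165888 : ℝ) * y ^ 4 +
        (8465227 / 331776 : ℝ) * x ^ 1 * y ^ 3 +
        (1815667 / 55296 : ℝ) * x ^ 2 * y ^ 2 +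
        (86847379 / 5308416 : ℝ) * x ^ 3 * y ^ 1 +
        (117668123 / 42467328 : ℝ) * x ^ 4 := by
      intros; positivity
    have h := mul_nonneg (sq_nonneg (Z - 1)) (key _ _ hx hy)
    unfold lb1
    linarith
  rcases le_total Z (33 / 16 : ℝ) with hb | hb
  · have hx : (0 : ℝ) ≤ Z - (15 / 8 : ℝ) := by linarith
    have hy : (0 : ℝ) ≤ (33 / 16 : ℝ) - Z := by linarith
    have key : ∀ x y : ℝ, 0 ≤ x → 0 ≤ y → 0 ≤
        (117668123 / 2654208 : ℝ) * y ^ 4 +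
        (179309611 / 1327104 : ℝ) * x ^ 1 * y ^ 3 +
        (249249935 / 1769472 : ℝ) * x ^ 2 * y ^ 2 +
        (308041975 / 5308416 : ℝ) * x ^ 3 * y ^ 1 +
        (356695811 / 42467328 : ℝ) * x ^ 4 := by
      intros; positivity
    have h := mul_nonneg (sq_nonneg (Z - 1)) (key _ _ hx hy)
    unfold lb1
    linarith
  rcases le_total Z (69 / 32 : ℝ) with hb | hb
  · have hx : (0 : ℝ) ≤ Z - (33 / 16 : ℝ) := by linarith
    have hy : (0 : ℝ) ≤ (69 / 32 : ℝ) - Z := by linarith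
    have key : ∀ x y : ℝ, 0 ≤ x → 0 ≤ y → 0 ≤
        (356695811 / 2654208 : ℝ) * y ^ 4 +
        (454003483 / 1327104 : ℝ) * x ^ 1 * y ^ 3 +
        (510758339 / 1769472 : ℝ) * x ^ 2 * y ^ 2 +
        (535041019 / 5308416 : ℝ) * x ^ 3 * y ^ 1 +
        (862247363 / 42467328 : ℝ) * x ^ 4 := by
      intros; positivity
    have h := mul_nonneg (sq_nonneg (Z - 1)) (key _ _ hx hy)
    unfold lb1
    linarith
  rcases le_total Z (9 / 4 : ℝ) with hb | hb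
  · have hx : (0 : ℝ) ≤ Z - (69 / 32 : ℝ) := by linarith
    have hy : (0 : ℝ) ≤ (9 / 4 : ℝ) - Z := by linarith
    have key : ∀ x y : ℝ, 0 ≤ x → 0 ≤ y → 0 ≤
        (862247363 / 42467328 : ℝ) * y ^ 4 +
        (40900793 / 663552 : ℝ) * x ^ 1 * y ^ 3 +
        (18932729 / 110592 : ℝ) * x ^ 2 * y ^ 2 +
        (327535 / 1296 : ℝ) * x ^ 3 * y ^ 1 +
        (1278575 / 10368 : ℝ) * x ^ 4 := by
      intros; positivity
    have h := mul_nonneg (sq_nonneg (Z - 1)) (key _ _ hx hy)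
    unfold lb1
    linarith
  have hx : (0 : ℝ) ≤ Z - (9 / 4 : ℝ) := by linarith
  have hy : (0 : ℝ) ≤ (3 : ℝ) - Z := by linarith
  have key : ∀ x y : ℝ, 0 ≤ x → 0 ≤ y → 0 ≤
      (1278575 / 42467328 : ℝ) * y ^ 4 +
      (6266615 / 10616832 : ℝ) * x ^ 1 * y ^ 3 +
      (3520903 / 884736 : ℝ) * x ^ 2 * y ^ 2 +
      (11000899 / 1327104 : ℝ) * x ^ 3 * y ^ 1 +
      (1765267 / 331776 : ℝ) * x ^ 4 := by
    intros; positivity
  have h := mul_nonneg (sq_nonneg (Z - 1)) (key _ _ hx hy)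
  unfold lb1
  linarith

lemma lb2_le {Z : ℝ} (h0 : 0 ≤ Z) (h3 : Z ≤ 3) : Z ^ 2 * lb2 Z ≤ 1 := by
  rcases le_total Z (3 / 4 : ℝ) with hb | hb
  · have hx : (0 : ℝ) ≤ Z - (0 : ℝ) := by linarith
    have hy : (0 : ℝ) ≤ (3 / 4 : ℝ) - Z := by linarith
    have key : ∀ x y : ℝ, 0 ≤ x → 0 ≤ y → 0 ≤
        (65536 / 6561 : ℝ) * y ^ 8 +
        (622592 / 6561 : ℝ) * x ^ 1 * y ^ 7 +
        (118887475 / 419904 : ℝ) * x ^ 2 * y ^ 6 +
        (2808262241 / 6718464 : ℝ) * x ^ 3 * y ^ 5 +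
        (4735530539 / 13436928 : ℝ) * x ^ 4 * y ^ 4 +
        (9538146277 / 53747712 : ℝ) * x ^ 5 * y ^ 3 +
        (11302745285 / 214990848 : ℝ) * x ^ 6 * y ^ 2 +
        (14466292505 / 1719926784 : ℝ) * x ^ 7 * y ^ 1 +
        (120266033 / 214990848 : ℝ) * x ^ 8 := by
      intros; positivity
    have h := mul_nonneg (sq_nonneg (Z - 1)) (key _ _ hx hy)
    unfold lb2
    linarith
  rcases le_total Z (15 / 16 : ℝ) with hb | hb
  · have hx : (0 : ℝ) ≤ Z - (3 / 4 : ℝ) := by linarith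
    have hy : (0 : ℝ) ≤ (15 / 16 : ℝ) - Z := by linarith
    have key : ∀ x y : ℝ, 0 ≤ x → 0 ≤ y → 0 ≤
        (240532066 / 6561 : ℝ) * y ^ 8 +
        (24018838055 / 104976 : ℝ) * x ^ 1 * y ^ 7 +
        (257591509405 / 419904 : ℝ) * x ^ 2 * y ^ 6 +
        (1547532470411 / 1679616 : ℝ) * x ^ 3 * y ^ 5 +
        (5686948583017 / 6718464 : ℝ) * x ^ 4 * y ^ 4 +
        (13076076183269 / 26873856 : ℝ) * x ^ 5 * y ^ 3 +
        (18386137595335 / 107495424 : ℝ) * x ^ 6 * y ^ 2 +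
        (14538329003177 / 429981696 : ℝ) * x ^ 7 * y ^ 1 +
        (5034049027819 / 1719926784 : ℝ) * x ^ 8 := by
      intros; positivity
    have h := mul_nonneg (sq_nonneg (Z - 1)) (key _ _ hx hy)
    unfold lb2
    linarith
  rcases le_total Z (9 / 8 : ℝ) with hb | hb
  · have hx : (0 : ℝ) ≤ Z - (15 / 16 : ℝ) := by linarith
    have hy : (0 : ℝ) ≤ (9 / 8 : ℝ) - Z := by linarith
    have key : ∀ x y : ℝ, 0 ≤ x → 0 ≤ y → 0 ≤
        (5034049027819 / 1719926784 : ℝ) * y ^ 8 +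
        (5597867108099 / 429981696 : ℝ) * x ^ 1 * y ^ 7 +
        (5480658557897 / 214990848 : ℝ) * x ^ 2 * y ^ 6 +
        (3977810123159 / 107495424 : ℝ) * x ^ 3 * y ^ 5 +
        (727098430319 / 13436928 : ℝ) * x ^ 4 * y ^ 4 +
        (1736149280345 / 26873856 : ℝ) * x ^ 5 * y ^ 3 +
        (647759558087 / 13436928 : ℝ) * x ^ 6 * y ^ 2 +
        (129467610893 / 6718464 : ℝ) * x ^ 7 * y ^ 1 +
        (21220378237 / 6718464 : ℝ) * x ^ 8 := by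
      intros; positivity
    have h := mul_nonneg (sq_nonneg (Z - 1)) (key _ _ hx hy)
    unfold lb2
    linarith
  rcases le_total Z (3 / 2 : ℝ) with hb | hb
  · have hx : (0 : ℝ) ≤ Z - (9 / 8 : ℝ) := by linarith
    have hy : (0 : ℝ) ≤ (3 / 2 : ℝ) - Z := by linarith
    have key : ∀ x y : ℝ, 0 ≤ x → 0 ≤ y → 0 ≤
        (21220378237 / 1719926784 : ℝ) * y ^ 8 +
        (125176927951 / 859963392 : ℝ) * x ^ 1 * y ^ 7 +
        (150676846799 / 214990848 : ℝ) * x ^ 2 * y ^ 6 +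
        (93546890851 / 53747712 : ℝ) * x ^ 3 * y ^ 5 +
        (33227732279 / 13436928 : ℝ) * x ^ 4 * y ^ 4 +
        (7040692621 / 3359232 : ℝ) * x ^ 5 * y ^ 3 +
        (881980157 / 839808 : ℝ) * x ^ 6 * y ^ 2 +
        (60390721 / 209952 : ℝ) * x ^ 7 * y ^ 1 +
        (1745411 / 52488 : ℝ) * x ^ 8 := by
      intros; positivity
    have h := mul_nonneg (sq_nonneg (Z - 1)) (key _ _ hx hy)
    unfold lb2
    linarith
  rcases le_total Z (9 / 4 : ℝ) with hb | hb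
  · have hx : (0 : ℝ) ≤ Z - (3 / 2 : ℝ) := by linarith
    have hy : (0 : ℝ) ≤ (9 / 4 : ℝ) - Z := by linarith
    have key : ∀ x y : ℝ, 0 ≤ x → 0 ≤ y → 0 ≤
        (1745411 / 13436928 : ℝ) * y ^ 8 +
        (23389007 / 26873856 : ℝ) * x ^ 1 * y ^ 7 +
        (104944163 / 53747712 : ℝ) * x ^ 2 * y ^ 6 +
        (167699411 / 107495424 : ℝ) * x ^ 3 * y ^ 5 +
        (66073589 / 214990848 : ℝ) * x ^ 4 * y ^ 4 +
        (150206381 / 429981696 : ℝ) * x ^ 5 * y ^ 3 +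
        (407075297 / 859963392 : ℝ) * x ^ 6 * y ^ 2 +
        (320368433 / 1719926784 : ℝ) * x ^ 7 * y ^ 1 +
        (20508929 / 859963392 : ℝ) * x ^ 8 := by
      intros; positivity
    have h := mul_nonneg (sq_nonneg (Z - 1)) (key _ _ hx hy)
    unfold lb2
    linarith
  rcases le_total Z (21 / 8 : ℝ) with hb | hb
  · have hx : (0 : ℝ) ≤ Z - (9 / 4 : ℝ) := by linarith
    have hy : (0 : ℝ) ≤ (21 / 8 : ℝ) - Z := by linarith
    have key : ∀ x y : ℝ, 0 ≤ x → 0 ≤ y → 0 ≤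
        (20508929 / 3359232 : ℝ) * y ^ 8 +
        (664060159 / 13436928 : ℝ) * x ^ 1 * y ^ 7 +
        (4422913717 / 26873856 : ℝ) * x ^ 2 * y ^ 6 +
        (15523252627 / 53747712 : ℝ) * x ^ 3 * y ^ 5 +
        (31249621717 / 107495424 : ℝ) * x ^ 4 * y ^ 4 +
        (39153401677 / 214990848 : ℝ) * x ^ 5 * y ^ 3 +
        (37139772607 / 429981696 : ℝ) * x ^ 6 * y ^ 2 +
        (29799376993 / 859963392 : ℝ) * x ^ 7 * y ^ 1 +
        (12313766389 / 1719926784 : ℝ) * x ^ 8 := by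
      intros; positivity
    have h := mul_nonneg (sq_nonneg (Z - 1)) (key _ _ hx hy)
    unfold lb2
    linarith
  have hx : (0 : ℝ) ≤ Z - (21 / 8 : ℝ) := by linarith
  have hy : (0 : ℝ) ≤ (3 : ℝ) - Z := by linarith
  have key : ∀ x y : ℝ, 0 ≤ x → 0 ≤ y → 0 ≤
      (12313766389 / 1719926784 : ℝ) * y ^ 8 +
      (68710754119 / 859963392 : ℝ) * x ^ 1 * y ^ 7 +
      (43332398137 / 107495424 : ℝ) * x ^ 2 * y ^ 6 +
      (15466827181 / 13436928 : ℝ) * x ^ 3 * y ^ 5 +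
      (3305697733 / 1679616 : ℝ) * x ^ 4 * y ^ 4 +
      (26203465 / 13122 : ℝ) * x ^ 5 * y ^ 3 +
      (14605469 / 13122 : ℝ) * x ^ 6 * y ^ 2 +
      (1756160 / 6561 : ℝ) * x ^ 7 * y ^ 1 +
      (26368 / 6561 : ℝ) * x ^ 8 := by
    intros; positivity
  have h := mul_nonneg (sq_nonneg (Z - 1)) (key _ _ hx hy)
  unfold lb2
  linarith

lemma lb3_le {Z : ℝ} (h0 : 0 ≤ Z) (h3 : Z ≤ 3) : Z ^ 3 * lb3 Z ≤ 1 := by
  rcases le_total Z (3 / 4 : ℝ) with hb | hb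
  · have hx : (0 : ℝ) ≤ Z - (0 : ℝ) := by linarith
    have hy : (0 : ℝ) ≤ (3 / 4 : ℝ) - Z := by linarith
    have key : ∀ x y : ℝ, 0 ≤ x → 0 ≤ y → 0 ≤
        (16384 / 2187 : ℝ) * y ^ 7 +
        (139264 / 2187 : ℝ) * x ^ 1 * y ^ 6 +
        (173056 / 729 : ℝ) * x ^ 2 * y ^ 5 +
        (233184881 / 559872 : ℝ) * x ^ 3 * y ^ 4 +
        (13721799713 / 35831808 : ℝ) * x ^ 4 * y ^ 3 +
        (9126241813 / 47775744 : ℝ) * x ^ 5 * y ^ 2 +
        (7019288287 / 143327232 : ℝ) * x ^ 6 * y ^ 1 +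
        (5796380711 / 1146617856 : ℝ) * x ^ 7 := by
      intros; positivity
    have h := mul_nonneg (sq_nonneg (Z - 1)) (key _ _ hx hy)
    unfold lb3
    linarith
  rcases le_total Z (9 / 8 : ℝ) with hb | hb
  · have hx : (0 : ℝ) ≤ Z - (3 / 4 : ℝ) := by linarith
    have hy : (0 : ℝ) ≤ (9 / 8 : ℝ) - Z := by linarith
    have key : ∀ x y : ℝ, 0 ≤ x → 0 ≤ y → 0 ≤
        (5796380711 / 8957952 : ℝ) * y ^ 7 +
        (65569688635 / 17915904 : ℝ) * x ^ 1 * y ^ 6 +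
        (101256081521 / 11943936 : ℝ) * x ^ 2 * y ^ 5 +
        (743097883799 / 71663616 : ℝ) * x ^ 3 * y ^ 4 +
        (1030487778421 / 143327232 : ℝ) * x ^ 4 * y ^ 3 +
        (268031945659 / 95551488 : ℝ) * x ^ 5 * y ^ 2 +
        (324527112401 / 573308928 : ℝ) * x ^ 6 * y ^ 1 +
        (52435328317 / 1146617856 : ℝ) * x ^ 7 := by
      intros; positivity
    have h := mul_nonneg (sq_nonneg (Z - 1)) (key _ _ hx hy)
    unfold lb3
    linarith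
  rcases le_total Z (39 / 32 : ℝ) with hb | hb
  · have hx : (0 : ℝ) ≤ Z - (9 / 8 : ℝ) := by linarith
    have hy : (0 : ℝ) ≤ (39 / 32 : ℝ) - Z := by linarith
    have key : ∀ x y : ℝ, 0 ≤ x → 0 ≤ y → 0 ≤
        (52435328317 / 69984 : ℝ) * y ^ 7 +
        (1186182266293 / 279936 : ℝ) * x ^ 1 * y ^ 6 +
        (3757767990091 / 373248 : ℝ) * x ^ 2 * y ^ 5 +
        (58174908556457 / 4478976 : ℝ) * x ^ 3 * y ^ 4 +
        (175494603499799 / 17915904 : ℝ) * x ^ 4 * y ^ 3 +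
        (102900607449973 / 23887872 : ℝ) * x ^ 5 * y ^ 2 +
        (293302250534155 / 286654464 : ℝ) * x ^ 6 * y ^ 1 +
        (117218367921667 / 1146617856 : ℝ) * x ^ 7 := by
      intros; positivity
    have h := mul_nonneg (sq_nonneg (Z - 1)) (key _ _ hx hy)
    unfold lb3
    linarith
  rcases le_total Z (21 / 16 : ℝ) with hb | hb
  · have hx : (0 : ℝ) ≤ Z - (39 / 32 : ℝ) := by linarith
    have hy : (0 : ℝ) ≤ (21 / 16 : ℝ) - Z := by linarith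
    have key : ∀ x y : ℝ, 0 ≤ x → 0 ≤ y → 0 ≤
        (117218367921667 / 1146617856 : ℝ) * y ^ 7 +
        (233924074383359 / 573308928 : ℝ) * x ^ 1 * y ^ 6 +
        (58922003114941 / 95551488 : ℝ) * x ^ 2 * y ^ 5 +
        (73654980233683 / 143327232 : ℝ) * x ^ 3 * y ^ 4 +
        (33596974798649 / 71663616 : ℝ) * x ^ 4 * y ^ 3 +
        (6166673332655 / 11943936 : ℝ) * x ^ 5 * y ^ 2 +
        (5930525701837 / 17915904 : ℝ) * x ^ 6 * y ^ 1 +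
        (721081127393 / 8957952 : ℝ) * x ^ 7 := by
      intros; positivity
    have h := mul_nonneg (sq_nonneg (Z - 1)) (key _ _ hx hy)
    unfold lb3
    linarith
  rcases le_total Z (3 / 2 : ℝ) with hb | hb
  · have hx : (0 : ℝ) ≤ Z - (21 / 16 : ℝ) := by linarith
    have hy : (0 : ℝ) ≤ (3 / 2 : ℝ) - Z := by linarith
    have key : ∀ x y : ℝ, 0 ≤ x → 0 ≤ y → 0 ≤
        (721081127393 / 1146617856 : ℝ) * y ^ 7 +
        (1151522246677 / 143327232 : ℝ) * x ^ 1 * y ^ 6 +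
        (250181721053 / 5971968 : ℝ) * x ^ 2 * y ^ 5 +
        (243562540643 / 2239488 : ℝ) * x ^ 3 * y ^ 4 +
        (43279833895 / 279936 : ℝ) * x ^ 4 * y ^ 3 +
        (1434182113 / 11664 : ℝ) * x ^ 5 * y ^ 2 +
        (225135137 / 4374 : ℝ) * x ^ 6 * y ^ 1 +
        (19350676 / 2187 : ℝ) * x ^ 7 := by
      intros; positivity
    have h := mul_nonneg (sq_nonneg (Z - 1)) (key _ _ hx hy)
    unfold lb3
    linarith
  rcases le_total Z (15 / 8 : ℝ) with hb | hb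
  · have hx : (0 : ℝ) ≤ Z - (3 / 2 : ℝ) := by linarith
    have hy : (0 : ℝ) ≤ (15 / 8 : ℝ) - Z := by linarith
    have key : ∀ x y : ℝ, 0 ≤ x → 0 ≤ y → 0 ≤
        (4837669 / 69984 : ℝ) * y ^ 7 +
        (181229059 / 279936 : ℝ) * x ^ 1 * y ^ 6 +
        (907309177 / 373248 : ℝ) * x ^ 2 * y ^ 5 +
        (21163271645 / 4478976 : ℝ) * x ^ 3 * y ^ 4 +
        (92113560563 / 17915904 : ℝ) * x ^ 4 * y ^ 3 +
        (75000481639 / 23887872 : ℝ) * x ^ 5 * y ^ 2 +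
        (286705593085 / 286654464 : ℝ) * x ^ 6 * y ^ 1 +
        (147837404011 / 1146617856 : ℝ) * x ^ 7 := by
      intros; positivity
    have h := mul_nonneg (sq_nonneg (Z - 1)) (key _ _ hx hy)
    unfold lb3
    linarith
  rcases le_total Z (9 / 4 : ℝ) with hb | hb
  · have hx : (0 : ℝ) ≤ Z - (15 / 8 : ℝ) := by linarith
    have hy : (0 : ℝ) ≤ (9 / 4 : ℝ) - Z := by linarith
    have key : ∀ x y : ℝ, 0 ≤ x → 0 ≤ y → 0 ≤
        (147837404011 / 1146617856 : ℝ) * y ^ 7 +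
        (461450641907 / 573308928 : ℝ) * x ^ 1 * y ^ 6 +
        (188041382293 / 95551488 : ℝ) * x ^ 2 * y ^ 5 +
        (336261761671 / 143327232 : ℝ) * x ^ 3 * y ^ 4 +
        (97121621969 / 71663616 : ℝ) * x ^ 4 * y ^ 3 +
        (3586646435 / 11943936 : ℝ) * x ^ 5 * y ^ 2 +
        (22008133 / 17915904 : ℝ) * x ^ 6 * y ^ 1 +
        (13616477 / 8957952 : ℝ) * x ^ 7 := by
      intros; positivity
    have h := mul_nonneg (sq_nonneg (Z - 1)) (key _ _ hx hy)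
    unfold lb3
    linarith
  have hx : (0 : ℝ) ≤ Z - (9 / 4 : ℝ) := by linarith
  have hy : (0 : ℝ) ≤ (3 : ℝ) - Z := by linarith
  have key : ∀ x y : ℝ, 0 ≤ x → 0 ≤ y → 0 ≤
      (13616477 / 1146617856 : ℝ) * y ^ 7 +
      (65984471 / 286654464 : ℝ) * x ^ 1 * y ^ 6 +
      (539054461 / 47775744 : ℝ) * x ^ 2 * y ^ 5 +
      (1158967819 / 17915904 : ℝ) * x ^ 3 * y ^ 4 +
      (324053039 / 2239488 : ℝ) * x ^ 4 * y ^ 3 +
      (53903885 / 373248 : ℝ) * x ^ 5 * y ^ 2 +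
      (30180955 / 559872 : ℝ) * x ^ 6 * y ^ 1 +
      (851 / 69984 : ℝ) * x ^ 7 := by
    intros; positivity
  have h := mul_nonneg (sq_nonneg (Z - 1)) (key _ _ hx hy)
  unfold lb3
  linarith

end Vale.Agent.P154.Aux3
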