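import Vale.Agent.P154.Aux3Data

/-!
P154: the computations for the two certificates with three states.
-/

namespace Vale.Agent.P154.Aux3

theorem bern_main : Bern.check cfgMain polyMain covMain = true := by decide +kernel

theorem bern_aux : Bern.check cfgAux polyAux covAux = true := by decide +kernel

theorem scale_main : scaleOK 4 2 (toTerms polyMain) = true := by decide +kernel

theorem scale_aux : scaleOK 10 6 (toTerms polyAux) = true := by decide +kernel

theorem ident_main : Kron.zeroOK layMain (idPoly Kron.kOps idMain layMain.var) = true := by
  decide +kernel

theorem ident_aux : Kron.zeroOK layAux (idPoly Kron.kOps idAux layAux.var) = true := by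
  decide +kernel

end Vale.Agent.P154.Aux3
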