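import Vale.Agent.P154.ListTools

/-!
P154: a checker for nonnegativity on the product of two fundamental triangles of polynomials
in the four invariants.
-/

namespace Vale.Agent.P154.Bern

open Lst

/-- The quadratic invariant on the segment at distance one. -/
noncomputable def Tv (v : ℝ) : ℝ := (3 * v ^ 2 - 6 * v + 4) / 4

/-- The cubic invariant on the segment at distance one. -/
noncomputable def Kv (v : ℝ) : ℝ := (9 * v ^ 2 - 18 * v + 8) / 8

/-- Data: the exponents occurring for the second point, and for each pair of exponents of the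
first point the list of coefficients. -/
structure Poly where
  pks : List (ℕ × ℕ)
  rows : List ((ℕ × ℕ) × List ℤ)

/-- The sum along one row. -/
def rowEval {R : Type} [CommRing R] : List (ℕ × ℕ) → List ℤ → R → R → R
  | p :: ps, c :: cs, X, Y => (c : R) * X ^ p.1 * Y ^ p.2 + rowEval ps cs X Y
  | _, _, _, _ => 0

/-- The polynomial in the four invariants. -/
def Poly.eval {R : Type} [CommRing R] (P : Poly) (x : Fin 4 → R) : R :=
  (P.rows.map fun r => x 0 ^ r.1.1 * x 1 ^ r.1.2 * rowEval P.pks r.2 (x 2) (x 3)).sum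

/-- A dyadic interval. -/
structure Ax where
  lo : ℤ
  hi : ℤ
  m : ℕ

/-- Powers of a binary form. -/
def pw (L : List ℤ) : ℕ → List ℤ
  | 0 => [1]
  | n + 1 => conv L (pw L n)

/-- The coordinate itself. -/
def Ax.lin (a : Ax) : List ℤ := [a.lo, a.hi]

/-- The constant one, scaled. -/
def Ax.one (a : Ax) : List ℤ := [2 ^ a.m, 2 ^ a.m]

/-- The form of `Tv`. -/
def Ax.tq (a : Ax) : List ℤ :=
  let M : ℤ := 2 ^ a.m
  [3 * a.lo * a.lo - 6 * M * a.lo + 4 * M * M,
    6 * a.lo * a.hi - 6 * M * (a.lo + a.hi) + 8 * M * M,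
    3 * a.hi * a.hi - 6 * M * a.hi + 4 * M * M]

/-- The form of `Kv`. -/
def Ax.kq (a : Ax) : List ℤ :=
  let M : ℤ := 2 ^ a.m
  [9 * a.lo * a.lo - 18 * M * a.lo + 8 * M * M,
    18 * a.lo * a.hi - 18 * M * (a.lo + a.hi) + 16 * M * M,
    9 * a.hi * a.hi - 18 * M * a.hi + 8 * M * M]

/-- A radial monomial of degree at most `N`. -/
def radV (a : Ax) (N n : ℕ) : List ℤ := conv (pw a.lin n) (pw a.one (N - n))

/-- An angular monomial of degree at most `N`. -/
def angV (a : Ax) (N i j : ℕ) : List ℤ :=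
  conv (conv (pw a.tq i) (pw a.kq j)) (pw a.one (N - (2 * i + 2 * j)))

/-- Degree bounds, exponent cap and slot width. -/
structure Cfg where
  N0 : ℕ
  N1 : ℕ
  N2 : ℕ
  N3 : ℕ
  cap : ℕ
  W : ℕ

/-- A box. -/
structure Box where
  a0 : Ax
  a1 : Ax
  a2 : Ax
  a3 : Ax

/-- Packed vectors of the second point, and their norms. -/
def pTable (c : Cfg) (b : Box) : List (ℕ × ℕ) → List (ℤ × ℕ)
  | [] => []
  | (k, l) :: ps =>
    let g := radV b.a2 c.N2 (2 * k + 3 * l - 2)
    let h := angV b.a3 c.N3 k l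
    (2 ^ (c.cap - (2 * k + 3 * l)) * (pack (c.W * (c.N3 + 1)) g * pack c.W h),
      2 ^ (c.cap - (2 * k + 3 * l)) * (absSum g * absSum h)) :: pTable c b ps

/-- Combining a table with one row. -/
def combine : List (ℤ × ℕ) → List ℤ → ℤ × ℕ
  | (v, n) :: T, c :: cs => let r := combine T cs; (c * v + r.1, c.natAbs * n + r.2)
  | _, _ => (0, 0)

/-- The packed rows of the tensor and the norm bound. -/
def accum (c : Cfg) (b : Box) (T : List (ℤ × ℕ)) : List ((ℕ × ℕ) × List ℤ) → List ℤ × ℕ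
  | [] => (List.replicate ((c.N0 + 1) * (c.N1 + 1)) 0, 0)
  | r :: rs =>
    let g := combine T r.2
    let a := scale (2 ^ (c.cap - (2 * r.1.1 + 3 * r.1.2)))
      (outer (radV b.a0 c.N0 (2 * r.1.1 + 3 * r.1.2)) (angV b.a1 c.N1 r.1.1 r.1.2))
    let rest := accum c b T rs
    (add (scale g.1 a) rest.1, absSum a * g.2 + rest.2)

/-- The check on one box. -/
def boxOK (c : Cfg) (P : Poly) (b : Box) : Bool :=
  decide (b.a0.lo < b.a0.hi) && decide (b.a1.lo < b.a1.hi) && decide (b.a2.lo < b.a2.hi) &&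
    decide (b.a3.lo < b.a3.hi) &&
    (let r := accum c b (pTable c b P.pks) P.rows
     decide (2 * r.2 < 2 ^ c.W) && r.1.all (slotsOK c.W ((c.N2 + 1) * (c.N3 + 1))))

/-- A subdivision. -/
inductive Cover where
  | leaf
  | split (axis : ℕ) (l r : Cover)

/-- Lower half. -/
def Ax.left (a : Ax) : Ax := ⟨2 * a.lo, a.lo + a.hi, a.m + 1⟩

/-- Upper half. -/
def Ax.right (a : Ax) : Ax := ⟨a.lo + a.hi, 2 * a.hi, a.m + 1⟩

/-- Halving one side. -/
def Box.cut (b : Box) (axis : ℕ) (f : Ax → Ax) : Box :=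
  match axis with
  | 0 => { b with a0 := f b.a0 }
  | 1 => { b with a1 := f b.a1 }
  | 2 => { b with a2 := f b.a2 }
  | _ => { b with a3 := f b.a3 }

/-- The unit box. -/
def unitBox : Box := ⟨⟨0, 1, 0⟩, ⟨0, 1, 0⟩, ⟨0, 1, 0⟩, ⟨0, 1, 0⟩⟩

/-- The check on a subdivision. -/
def coverOK (c : Cfg) (P : Poly) : Cover → Box → Bool
  | .leaf, b => boxOK c P b
  | .split ax l r, b => coverOK c P l (b.cut ax Ax.left) && coverOK c P r (b.cut ax Ax.right)

/-- The side conditions on exponents. -/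
def shapeOK (c : Cfg) (P : Poly) : Bool :=
  decide (0 < c.W) &&
  P.pks.all (fun p => decide (2 ≤ 2 * p.1 + 3 * p.2) && decide (2 * p.1 + 3 * p.2 - 2 ≤ c.N2) &&
    decide (2 * p.1 + 2 * p.2 ≤ c.N3) && decide (2 * p.1 + 3 * p.2 ≤ c.cap)) &&
  P.rows.all (fun r => decide (2 * r.1.1 + 3 * r.1.2 ≤ c.N0) &&
    decide (2 * r.1.1 + 2 * r.1.2 ≤ c.N1) && decide (2 * r.1.1 + 3 * r.1.2 ≤ c.cap) &&
    decide (r.2.length = P.pks.length))

/-- The checker. -/
def check (c : Cfg) (P : Poly) (cv : Cover) : Bool := shapeOK c P && coverOK c P cv unitBox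

/-- Membership of an interval. -/
def Ax.Mem (a : Ax) (x : ℝ) : Prop := (a.lo : ℝ) ≤ 2 ^ a.m * x ∧ 2 ^ a.m * x ≤ (a.hi : ℝ)

/-- The relative coordinate. -/
noncomputable def Ax.u (a : Ax) (x : ℝ) : ℝ := (2 ^ a.m * x - a.lo) / ((a.hi : ℝ) - a.lo)

variable {a : Ax} {x : ℝ}

lemma u_range (h : a.lo < a.hi) (hx : a.Mem x) : 0 ≤ a.u x ∧ a.u x ≤ 1 := by
  have hd : (0 : ℝ) < (a.hi : ℝ) - a.lo := by
    have : (a.lo : ℝ) < a.hi := by exact_mod_cast h
    linarith
  obtain ⟨h1, h2⟩ := hx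
  exact ⟨div_nonneg (by linarith) hd.le, by rw [Ax.u, div_le_one hd]; linarith⟩

lemma u_eq (h : a.lo < a.hi) :
    (a.lo : ℝ) + a.u x * ((a.hi : ℝ) - a.lo) = 2 ^ a.m * x := by
  have hd : ((a.hi : ℝ) - a.lo) ≠ 0 := by
    have : (a.lo : ℝ) < a.hi := by exact_mod_cast h
    linarith
  rw [Ax.u, div_mul_cancel₀ _ hd]; ring

lemma pw_length (L : List ℤ) (hL : L ≠ []) : ∀ n, (pw L n).length = n * (L.length - 1) + 1
  | 0 => by simp [pw]
  | n + 1 => by
      have hl : 0 < L.length := List.length_pos_of_ne_nil hL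
      rw [pw, conv_length _ _ hL, pw_length L hL n]
      rw [Nat.succ_mul]; omega

lemma ne_nil_of_length {L : List ℤ} {n : ℕ} (h : L.length = n + 1) : L ≠ [] := by
  intro hh; simp [hh] at h

lemma hv_pw (L : List ℤ) (hL : L ≠ []) (u v : ℝ) : ∀ n, hv (pw L n) u v = hv L u v ^ n
  | 0 => by simp [pw, hv]
  | n + 1 => by
      rw [pw, hv_conv _ _ (ne_nil_of_length (pw_length L hL n)), hv_pw L hL u v n]; ring

lemma radV_length {N n : ℕ} (h : n ≤ N) : (radV a N n).length = N + 1 := by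
  have h1 := pw_length a.lin (by simp [Ax.lin]) n
  rw [radV, conv_length _ _ (ne_nil_of_length h1), h1,
    pw_length a.one (by simp [Ax.one]) (N - n)]
  simp [Ax.lin, Ax.one]; omega

lemma angV_length {N i j : ℕ} (h : 2 * i + 2 * j ≤ N) : (angV a N i j).length = N + 1 := by
  have h1 := pw_length a.tq (by simp [Ax.tq]) i
  have h2 := pw_length a.kq (by simp [Ax.kq]) j
  have h3 := pw_length a.one (by simp [Ax.one]) (N - (2 * i + 2 * j))
  have h12 : (conv (pw a.tq i) (pw a.kq j)).length = 2 * i + 2 * j + 1 := by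
    rw [conv_length _ _ (ne_nil_of_length h1), h1, h2]
    simp [Ax.tq, Ax.kq]; omega
  rw [angV, conv_length _ _ (ne_nil_of_length h12), h12, h3]
  simp [Ax.one]; omega

lemma radV_val (h : a.lo < a.hi) {N n : ℕ} (hn : n ≤ N) :
    hv (radV a N n) (a.u x) (1 - a.u x) = 2 ^ (a.m * N) * x ^ n := by
  have e1 : hv a.lin (a.u x) (1 - a.u x) = 2 ^ a.m * x := by
    rw [← u_eq h]; simp [Ax.lin, hv]; ring
  have e2 : hv a.one (a.u x) (1 - a.u x) = 2 ^ a.m := by simp [Ax.one, hv]; ring
  rw [radV, hv_conv _ _ (ne_nil_of_length (pw_length _ (by simp [Ax.one]) _)),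
    hv_pw _ (by simp [Ax.lin]), hv_pw _ (by simp [Ax.one]), e1, e2]
  rw [mul_pow, mul_right_comm, ← pow_add, Nat.add_sub_cancel' hn, ← pow_mul]

lemma angV_val (h : a.lo < a.hi) {N i j : ℕ} (hn : 2 * i + 2 * j ≤ N) :
    hv (angV a N i j) (a.u x) (1 - a.u x) =
      2 ^ (a.m * N) * ((4 * Tv x) ^ i * (8 * Kv x) ^ j) := by
  have hu := u_eq (a := a) (x := x) h
  set M : ℝ := 2 ^ a.m with hM
  set u := a.u x
  have e1 : hv a.tq u (1 - u) = M ^ 2 * (4 * Tv x) := by
    calc hv a.tq u (1 - u)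
        = 3 * ((a.lo : ℝ) + u * (a.hi - a.lo)) ^ 2 - 6 * M * ((a.lo : ℝ) + u * (a.hi - a.lo))
          + 4 * M ^ 2 := by simp [Ax.tq, hv, hM]; ring
      _ = _ := by rw [hu, Tv]; ring
  have e2 : hv a.kq u (1 - u) = M ^ 2 * (8 * Kv x) := by
    calc hv a.kq u (1 - u)
        = 9 * ((a.lo : ℝ) + u * (a.hi - a.lo)) ^ 2 - 18 * M * ((a.lo : ℝ) + u * (a.hi - a.lo))
          + 8 * M ^ 2 := by simp [Ax.kq, hv, hM]; ring
      _ = _ := by rw [hu, Kv]; ring
  have e3 : hv a.one u (1 - u) = M := by simp [Ax.one, hv, hM]; ring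
  rw [angV, hv_conv _ _ (ne_nil_of_length (pw_length _ (by simp [Ax.one]) _)),
    hv_conv _ _ (ne_nil_of_length (pw_length _ (by simp [Ax.kq]) _)),
    hv_pw _ (by simp [Ax.tq]), hv_pw _ (by simp [Ax.kq]), hv_pw _ (by simp [Ax.one]), e1, e2, e3]
  obtain ⟨r, rfl⟩ : ∃ r, N = 2 * i + 2 * j + r := ⟨N - (2 * i + 2 * j), by omega⟩
  rw [Nat.add_sub_cancel_left, pow_mul (2 : ℝ), ← hM]
  simp only [mul_pow, ← pow_mul, pow_add]
  ring

/-- Weighted sum of a list of slot lists. -/
noncomputable def dot2 : List (List ℤ) → List ℝ → List ℝ → ℝ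
  | e :: E, w :: ws, v => dot e v * w + dot2 E ws v
  | _, _, _ => 0

lemma dot2_nonneg : ∀ (E : List (List ℤ)) (ws v : List ℝ), (∀ e ∈ E, ∀ z ∈ e, 0 ≤ z) →
    (∀ w ∈ ws, 0 ≤ w) → (∀ w ∈ v, 0 ≤ w) → 0 ≤ dot2 E ws v
  | [], _, _, _, _, _ => by simp [dot2]
  | _ :: _, [], _, _, _, _ => by simp [dot2]
  | e :: E, w :: ws, v, hE, hw, hv => by
      have h1 := dot_nonneg e v (hE e (by simp)) hv
      have h2 := dot2_nonneg E ws v (fun z hz => hE z (by simp [hz]))
        (fun z hz => hw z (by simp [hz])) hv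
      have h3 := hw w (by simp)
      simp only [dot2]; positivity

/-- Sum of norms. -/
def norm2 : List (List ℤ) → ℕ
  | [] => 0
  | e :: E => absSum e + norm2 E

lemma absSum_le_norm2 {E : List (List ℤ)} {e : List ℤ} (h : e ∈ E) : absSum e ≤ norm2 E := by
  induction E with
  | nil => simp at h
  | cons z E ih =>
      simp only [List.mem_cons] at h
      rcases h with rfl | h
      · simp [norm2]
      · have := ih h; simp [norm2]; omega

/-- A packed list of vectors with a given value and norm. -/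
def Rep (W n : ℕ) (ws v : List ℝ) (A : List ℤ) (N : ℕ) (val : ℝ) : Prop :=
  ∃ E : List (List ℤ), E.length = ws.length ∧ (∀ e ∈ E, e.length = n) ∧ E.map (pack W) = A ∧
    norm2 E ≤ N ∧ dot2 E ws v = val

lemma rep_zero (W n : ℕ) (v : List ℝ) : ∀ ws : List ℝ,
    Rep W n ws v (List.replicate ws.length 0) 0 0
  | [] => ⟨[], rfl, by simp, rfl, le_rfl, rfl⟩
  | w :: ws => by
      obtain ⟨E, h1, h2, h3, h4, h5⟩ := rep_zero W n v ws
      refine ⟨List.replicate n 0 :: E, by simp [h1], ?_, ?_, ?_, ?_⟩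
      · intro e he; simp at he; rcases he with rfl | he
        · simp
        · exact h2 e he
      · have : ∀ k, pack W (List.replicate k 0) = 0 := fun k => by
          induction k with
          | zero => rfl
          | succ k ih => simp [List.replicate_succ, pack, ih]
        simp [List.replicate_succ, h3, this]
      · have : ∀ k, absSum (List.replicate k 0) = 0 := fun k => by
          induction k with
          | zero => rfl
          | succ k ih => simp [List.replicate_succ, absSum, ih]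
        simpa [norm2, this] using h4
      · have : ∀ (k : ℕ) (v : List ℝ), dot (List.replicate k 0) v = 0 := fun k => by
          induction k with
          | zero => simp [dot]
          | succ k ih => intro v; cases v <;> simp [List.replicate_succ, dot, ih]
        simp [dot2, this, h5]

lemma rep_add (W n : ℕ) (g : List ℤ) (hg : g.length = n) (v : List ℝ) :
    ∀ (ws : List ℝ) (a A : List ℤ) (N : ℕ) (val : ℝ), a.length = ws.length →
    Rep W n ws v A N val →
    Rep W n ws v (add (scale (pack W g) a) A) (absSum a * absSum g + N)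
      (dot a ws * dot g v + val)
  | [], [], A, N, val, _, h => by
      obtain ⟨E, h1, _, h3, _, h5⟩ := h
      have : E = [] := List.length_eq_zero_iff.1 (by simpa using h1)
      subst this
      exact ⟨[], rfl, by simp, by simp [scale, add], Nat.zero_le _, by simp [dot, ← h5, dot2]⟩
  | [], _ :: _, _, _, _, h, _ => by simp at h
  | _ :: _, [], _, _, _, h, _ => by simp at h
  | w :: ws, z :: a, A, N, val, hl, h => by
      obtain ⟨E, h1, h2, h3, h4, h5⟩ := h
      cases E with
      | nil => simp at h1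
      | cons e E =>
          simp only [List.length_cons, add_left_inj] at h1 hl
          subst h3
          have he : e.length = n := h2 e (by simp)
          obtain ⟨E', f1, f2, f3, f4, f5⟩ := rep_add W n g hg v ws a (E.map (pack W)) (norm2 E)
            (dot2 E ws v) hl ⟨E, h1, fun q hq => h2 q (by simp [hq]), rfl, le_rfl, rfl⟩
          refine ⟨add (scale z g) e :: E', by simp [f1], ?_, ?_, ?_, ?_⟩
          · intro q hq; simp at hq; rcases hq with rfl | hq
            · simp [hg, he]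
            · exact f2 q hq
          · simp only [List.map_cons, f3]
            rw [pack_add _ _ _ (by simp [hg, he]), pack_scale]
            simp [scale, add, mul_comm]
          · have := absSum_add (scale z g) e
            rw [absSum_scale] at this
            simp only [norm2, absSum, Nat.add_mul] at h4 f4 ⊢
            omega
          · subst h5
            simp only [dot2, f5, dot, dot_add _ _ _ (show (scale z g).length = e.length by simp [hg, he]),
              dot_scale]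
            ring

/-- Inclusion of a point in a box. -/
def Box.Mem (b : Box) (r v s w : ℝ) : Prop :=
  b.a0.Mem r ∧ b.a1.Mem v ∧ b.a2.Mem s ∧ b.a3.Mem w

lemma combine_spec (c : Cfg) (b : Box) (s w : ℝ) (h2 : b.a2.lo < b.a2.hi)
    (h3 : b.a3.lo < b.a3.hi) :
    ∀ (ps : List (ℕ × ℕ)) (cs : List ℤ), cs.length = ps.length →
    (∀ p ∈ ps, 2 ≤ 2 * p.1 + 3 * p.2 ∧ 2 * p.1 + 3 * p.2 - 2 ≤ c.N2 ∧
      2 * p.1 + 2 * p.2 ≤ c.N3 ∧ 2 * p.1 + 3 * p.2 ≤ c.cap) →
    ∃ g : List ℤ, g.length = (c.N2 + 1) * (c.N3 + 1) ∧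
      pack c.W g = (combine (pTable c b ps) cs).1 ∧
      absSum g ≤ (combine (pTable c b ps) cs).2 ∧
      s ^ 2 * dot g (outerW (basis (b.a2.u s) (1 - b.a2.u s) (c.N2 + 1))
          (basis (b.a3.u w) (1 - b.a3.u w) (c.N3 + 1))) =
        2 ^ (b.a2.m * c.N2 + b.a3.m * c.N3 + c.cap) *
          rowEval ps cs (s ^ 2 * Tv w) (s ^ 3 * Kv w)
  | [], [], _, _ => by
      refine ⟨List.replicate ((c.N2 + 1) * (c.N3 + 1)) 0, by simp, ?_, ?_, ?_⟩
      · have : ∀ k, pack c.W (List.replicate k 0) = 0 := fun k => by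
          induction k with
          | zero => rfl
          | succ k ih => simp [List.replicate_succ, pack, ih]
        simp [this, pTable, combine]
      · have : ∀ k, absSum (List.replicate k 0) = 0 := fun k => by
          induction k with
          | zero => rfl
          | succ k ih => simp [List.replicate_succ, absSum, ih]
        simp [this]
      · have : ∀ (k : ℕ) (v : List ℝ), dot (List.replicate k 0) v = 0 := fun k => by
          induction k with
          | zero => simp [dot]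
          | succ k ih => intro v; cases v <;> simp [List.replicate_succ, dot, ih]
        simp [this, rowEval]
  | [], _ :: _, h, _ => by simp at h
  | _ :: _, [], h, _ => by simp at h
  | (k, l) :: ps, z :: cs, h, hp => by
      simp only [List.length_cons, add_left_inj] at h
      obtain ⟨hk, hkN, hk3, hkc⟩ := hp (k, l) (by simp)
      simp only at hk hkN hk3 hkc
      obtain ⟨g, g1, g2, g3, g4⟩ := combine_spec c b s w h2 h3 ps cs h
        (fun p hp' => hp p (by simp [hp']))
      set A := radV b.a2 c.N2 (2 * k + 3 * l - 2) with hA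
      set B := angV b.a3 c.N3 k l with hB
      have lA : A.length = c.N2 + 1 := radV_length hkN
      have lB : B.length = c.N3 + 1 := angV_length hk3
      set o := scale (z * 2 ^ (c.cap - (2 * k + 3 * l))) (outer A B) with ho
      refine ⟨add o g, by simp [ho, g1, lA, lB], ?_, ?_, ?_⟩
      · rw [pack_add _ _ _ (by simp [ho, g1, lA, lB]), ho, pack_scale, pack_outer, g2, lB]
        simp only [pTable, combine, ← hA, ← hB]; ring
      · have := absSum_add o g
        rw [ho, absSum_scale, absSum_outer, Int.natAbs_mul, Int.natAbs_pow] at this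
        simp only [pTable, combine, ← hA, ← hB, ← ho] at this ⊢
        have e : (2 : ℤ).natAbs = 2 := rfl
        rw [e, Nat.mul_assoc] at this
        omega
      · rw [dot_add _ _ _ (by simp [ho, g1, lA, lB]), ho, dot_scale,
          dot_outer _ _ _ _ (by rw [basis_length, lA]) (by rw [basis_length, lB]), mul_add, g4,
          ← lA, ← lB, ← hv_eq_dot, ← hv_eq_dot, hA, hB, radV_val h2 hkN, angV_val h3 hk3]
        simp only [rowEval]
        obtain ⟨e, he⟩ : ∃ e, c.cap = 2 * k + 3 * l + e := ⟨c.cap - (2 * k + 3 * l), by omega⟩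
        obtain ⟨f, hf⟩ : ∃ f, 2 * k + 3 * l = 2 + f := ⟨2 * k + 3 * l - 2, by omega⟩
        have es : s ^ 2 * s ^ (2 * k + 3 * l - 2) = (s ^ 2) ^ k * (s ^ 3) ^ l := by
          rw [← pow_add, ← pow_mul, ← pow_mul, ← pow_add]; congr 1; omega
        have e4 : ((4 : ℝ) ^ k * 8 ^ l) * 2 ^ e = 2 ^ c.cap := by
          rw [he, pow_add, pow_add, pow_mul, pow_mul]; norm_num
        rw [show c.cap - (2 * k + 3 * l) = e by omega]
        push_cast
        simp only [mul_pow]
        rw [pow_add (2 : ℝ) (b.a2.m * c.N2 + b.a3.m * c.N3), pow_add (2 : ℝ) (b.a2.m * c.N2), ← e4]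
        linear_combination (z : ℝ) * 2 ^ (b.a2.m * c.N2) * 2 ^ (b.a3.m * c.N3) * 2 ^ e *
          4 ^ k * 8 ^ l * Tv w ^ k * Kv w ^ l * es

lemma accum_spec (c : Cfg) (b : Box) (ps : List (ℕ × ℕ)) (r v s w : ℝ)
    (h0 : b.a0.lo < b.a0.hi) (h1 : b.a1.lo < b.a1.hi) (h2 : b.a2.lo < b.a2.hi)
    (h3 : b.a3.lo < b.a3.hi)
    (hp : ∀ p ∈ ps, 2 ≤ 2 * p.1 + 3 * p.2 ∧ 2 * p.1 + 3 * p.2 - 2 ≤ c.N2 ∧
      2 * p.1 + 2 * p.2 ≤ c.N3 ∧ 2 * p.1 + 3 * p.2 ≤ c.cap) :
    ∀ rs : List ((ℕ × ℕ) × List ℤ),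
    (∀ q ∈ rs, 2 * q.1.1 + 3 * q.1.2 ≤ c.N0 ∧ 2 * q.1.1 + 2 * q.1.2 ≤ c.N1 ∧
      2 * q.1.1 + 3 * q.1.2 ≤ c.cap ∧ q.2.length = ps.length) →
    ∃ val : ℝ,
      Rep c.W ((c.N2 + 1) * (c.N3 + 1))
        (outerW (basis (b.a0.u r) (1 - b.a0.u r) (c.N0 + 1))
          (basis (b.a1.u v) (1 - b.a1.u v) (c.N1 + 1)))
        (outerW (basis (b.a2.u s) (1 - b.a2.u s) (c.N2 + 1))
          (basis (b.a3.u w) (1 - b.a3.u w) (c.N3 + 1)))
        (accum c b (pTable c b ps) rs).1 (accum c b (pTable c b ps) rs).2 val ∧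
      s ^ 2 * val = 2 ^ (b.a0.m * c.N0 + b.a1.m * c.N1 + b.a2.m * c.N2 + b.a3.m * c.N3
          + c.cap + c.cap) *
        Poly.eval ⟨ps, rs⟩ ![r ^ 2 * Tv v, r ^ 3 * Kv v, s ^ 2 * Tv w, s ^ 3 * Kv w]
  | [], _ => by
      refine ⟨0, ?_, by simp [Poly.eval]⟩
      have hw : (outerW (basis (b.a0.u r) (1 - b.a0.u r) (c.N0 + 1))
          (basis (b.a1.u v) (1 - b.a1.u v) (c.N1 + 1))).length = (c.N0 + 1) * (c.N1 + 1) := by
        have : ∀ A B : List ℝ, (outerW A B).length = A.length * B.length := fun A B => by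
          induction A with
          | nil => simp [outerW]
          | cons a A ih => simp [outerW, ih]; ring
        rw [this, basis_length, basis_length]
      simp only [accum]
      rw [← hw]
      exact rep_zero _ _ _ _
  | ((i, j), cs) :: rs, hr => by
      obtain ⟨hi0, hi1, hic, hlen⟩ := hr ((i, j), cs) (by simp)
      simp only at hi0 hi1 hic hlen
      obtain ⟨val, hrep, hval⟩ := accum_spec c b ps r v s w h0 h1 h2 h3 hp rs
        (fun q hq => hr q (by simp [hq]))
      obtain ⟨g, g1, g2, g3, g4⟩ := combine_spec c b s w h2 h3 ps cs hlen hp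
      set A := radV b.a0 c.N0 (2 * i + 3 * j) with hA
      set B := angV b.a1 c.N1 i j with hB
      have lA : A.length = c.N0 + 1 := radV_length hi0
      have lB : B.length = c.N1 + 1 := angV_length hi1
      have hlenW : ∀ A B : List ℝ, (outerW A B).length = A.length * B.length := fun A B => by
        induction A with
        | nil => simp [outerW]
        | cons a A ih => simp [outerW, ih]; ring
      set a := scale (2 ^ (c.cap - (2 * i + 3 * j))) (outer A B) with ha
      have := rep_add c.W _ g g1 _ _ a _ _ val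
        (by rw [ha, scale_length, outer_length, hlenW, basis_length, basis_length, lA, lB]) hrep
      refine ⟨dot a (outerW (basis (b.a0.u r) (1 - b.a0.u r) (c.N0 + 1))
          (basis (b.a1.u v) (1 - b.a1.u v) (c.N1 + 1))) * dot g
        (outerW (basis (b.a2.u s) (1 - b.a2.u s) (c.N2 + 1))
          (basis (b.a3.u w) (1 - b.a3.u w) (c.N3 + 1))) + val, ?_, ?_⟩
      · obtain ⟨E, e1, e2, e3, e4, e5⟩ := this
        refine ⟨E, e1, e2, ?_, ?_, e5⟩
        · simp only [accum, ← hA, ← hB, ← ha, ← g2]; exact e3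
        · simp only [accum, ← hA, ← hB, ← ha]
          have := Nat.mul_le_mul_left (absSum a) g3
          omega
      · have ea : dot a (outerW (basis (b.a0.u r) (1 - b.a0.u r) (c.N0 + 1))
            (basis (b.a1.u v) (1 - b.a1.u v) (c.N1 + 1))) =
            2 ^ (c.cap - (2 * i + 3 * j)) * (2 ^ (b.a0.m * c.N0) * r ^ (2 * i + 3 * j)) *
              (2 ^ (b.a1.m * c.N1) * ((4 * Tv v) ^ i * (8 * Kv v) ^ j)) := by
          rw [ha, dot_scale, dot_outer _ _ _ _ (by rw [basis_length, lA]) (by rw [basis_length, lB]),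
            ← lA, ← lB, ← hv_eq_dot, ← hv_eq_dot, hA, hB, radV_val h0 hi0, angV_val h1 hi1]
          push_cast; ring
        rw [mul_add, hval, mul_left_comm, g4, ea]
        obtain ⟨e, he⟩ : ∃ e, c.cap = 2 * i + 3 * j + e := ⟨c.cap - (2 * i + 3 * j), by omega⟩
        rw [show c.cap - (2 * i + 3 * j) = e by omega]
        have e4 : ((4 : ℝ) ^ i * 8 ^ j) * 2 ^ e = 2 ^ c.cap := by
          rw [he, pow_add, pow_add, pow_mul, pow_mul]; norm_num
        simp only [Poly.eval, List.map_cons, List.sum_cons, Matrix.cons_val_zero,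
          Matrix.cons_val_one, Matrix.cons_val]
        simp only [pow_add, mul_pow, ← pow_mul r] at *
        rw [← e4]
        ring

lemma boxOK_sound {c : Cfg} {P : Poly} (hs : shapeOK c P = true) {b : Box}
    (hb : boxOK c P b = true) {r v s w : ℝ} (hm : b.Mem r v s w) :
    0 ≤ P.eval ![r ^ 2 * Tv v, r ^ 3 * Kv v, s ^ 2 * Tv w, s ^ 3 * Kv w] := by
  simp only [boxOK, Bool.and_eq_true, decide_eq_true_eq, List.all_eq_true] at hb
  obtain ⟨⟨⟨⟨h0, h1⟩, h2⟩, h3⟩, hn, hall⟩ := hb
  simp only [shapeOK, Bool.and_eq_true, decide_eq_true_eq, List.all_eq_true] at hs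
  obtain ⟨⟨hW, hp⟩, hr⟩ := hs
  obtain ⟨val, ⟨E, e1, e2, e3, e4, e5⟩, hval⟩ := accum_spec c b P.pks r v s w h0 h1 h2 h3
    (fun p hp' => by have := hp p hp'; tauto) P.rows (fun q hq => by have := hr q hq; tauto)
  obtain ⟨u0, u0'⟩ := u_range h0 hm.1
  obtain ⟨u1, u1'⟩ := u_range h1 hm.2.1
  obtain ⟨u2, u2'⟩ := u_range h2 hm.2.2.1
  obtain ⟨u3, u3'⟩ := u_range h3 hm.2.2.2
  have hnn : 0 ≤ val := by
    rw [← e5]
    refine dot2_nonneg _ _ _ (fun e he => ?_)
      (outerW_nonneg (basis_nonneg u0 (by linarith) _) (basis_nonneg u1 (by linarith) _))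
      (outerW_nonneg (basis_nonneg u2 (by linarith) _) (basis_nonneg u3 (by linarith) _))
    refine slotsOK_sound hW ?_ ?_
    · have := absSum_le_norm2 he; omega
    · have := hall (pack c.W e) (e3 ▸ List.mem_map_of_mem he)
      rwa [e2 e he]
  have : 0 ≤ s ^ 2 * val := by positivity
  rw [hval] at this
  exact nonneg_of_mul_nonneg_right this (by positivity)

lemma cut_mem {b : Box} {ax : ℕ} {r v s w : ℝ} (hm : b.Mem r v s w) :
    (b.cut ax Ax.left).Mem r v s w ∨ (b.cut ax Ax.right).Mem r v s w := by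
  have key : ∀ (a : Ax) (x : ℝ), a.Mem x → a.left.Mem x ∨ a.right.Mem x := by
    intro a x ⟨p, q⟩
    simp only [Ax.Mem, Ax.left, Ax.right, pow_succ]
    push_cast
    rcases le_total (2 ^ a.m * 2 * x) ((a.lo : ℝ) + a.hi) with h | h
    · exact Or.inl ⟨by linarith, h⟩
    · exact Or.inr ⟨h, by linarith⟩
  obtain ⟨m0, m1, m2, m3⟩ := hm
  match ax with
  | 0 => rcases key _ _ m0 with h | h
         · exact Or.inl ⟨h, m1, m2, m3⟩
         · exact Or.inr ⟨h, m1, m2, m3⟩
  | 1 => rcases key _ _ m1 with h | h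
         · exact Or.inl ⟨m0, h, m2, m3⟩
         · exact Or.inr ⟨m0, h, m2, m3⟩
  | 2 => rcases key _ _ m2 with h | h
         · exact Or.inl ⟨m0, m1, h, m3⟩
         · exact Or.inr ⟨m0, m1, h, m3⟩
  | _ + 3 => rcases key _ _ m3 with h | h
             · exact Or.inl ⟨m0, m1, m2, h⟩
             · exact Or.inr ⟨m0, m1, m2, h⟩

lemma coverOK_sound {c : Cfg} {P : Poly} (hs : shapeOK c P = true) :
    ∀ (cv : Cover) (b : Box), coverOK c P cv b = true → ∀ r v s w : ℝ, b.Mem r v s w →
      0 ≤ P.eval ![r ^ 2 * Tv v, r ^ 3 * Kv v, s ^ 2 * Tv w, s ^ 3 * Kv w]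
  | .leaf, _, h, _, _, _, _, hm => boxOK_sound hs h hm
  | .split ax l r, b, h, _, _, _, _, hm => by
      simp only [coverOK, Bool.and_eq_true] at h
      rcases cut_mem (ax := ax) hm with hm | hm
      · exact coverOK_sound hs l _ h.1 _ _ _ _ hm
      · exact coverOK_sound hs r _ h.2 _ _ _ _ hm

/-- Soundness of the checker. -/
theorem check_sound {c : Cfg} {P : Poly} {cv : Cover} (h : check c P cv = true) {r v s w : ℝ}
    (hr : r ∈ Set.Icc (0 : ℝ) 1) (hv : v ∈ Set.Icc (0 : ℝ) 1) (hs : s ∈ Set.Icc (0 : ℝ) 1)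
    (hw : w ∈ Set.Icc (0 : ℝ) 1) :
    0 ≤ P.eval ![r ^ 2 * Tv v, r ^ 3 * Kv v, s ^ 2 * Tv w, s ^ 3 * Kv w] := by
  simp only [check, Bool.and_eq_true] at h
  refine coverOK_sound h.1 cv unitBox h.2 r v s w ?_
  simp only [Set.mem_Icc] at hr hv hs hw
  simp [Box.Mem, Ax.Mem, unitBox, hr, hv, hs, hw]

end Vale.Agent.P154.Bern
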