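import Vale.Agent.P154.Kron
import Vale.Agent.P154.Bern

/-!
P154: generic evaluation of lists of terms, for the polynomial identity behind the three state
certificates.
-/

namespace Vale.Agent.P154.Aux3

open Kron

variable {α : Type}

/-- Powers. -/
def powO (o : Ops α) (x : α) : ℕ → α
  | 0 => o.cst 1
  | n + 1 => o.mul x (powO o x n)

/-- Evaluation of a list of terms. -/
def evO (o : Ops α) : List Term → (Fin 4 → α) → α
  | [], _ => o.cst 0
  | t :: T, x =>
    o.add
      (o.mul (o.cst t.1)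
        (o.mul (o.mul (powO o (x 0) t.2.1) (powO o (x 1) t.2.2.1))
          (o.mul (powO o (x 2) t.2.2.2.1) (powO o (x 3) t.2.2.2.2))))
      (evO o T x)

/-- The terms of a polynomial given by rows. -/
def toTerms (P : Bern.Poly) : List Term :=
  P.rows.flatMap fun r =>
    (P.pks.zip r.2).map fun pc => (pc.2, r.1.1, r.1.2, pc.1.1, pc.1.2)

/-- The terms after scaling the even variables by `U` and the odd ones by `V`. -/
def scaleT (U V : ℤ) (I J : ℕ) (T : List Term) : List Term :=
  T.map fun t =>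
    (t.1 * U ^ (I - (t.2.1 + t.2.2.2.1)) * V ^ (J - (t.2.2.1 + t.2.2.2.2)), t.2)

/-- Exponents within the bounds of a scaling. -/
def scaleOK (I J : ℕ) (T : List Term) : Bool :=
  T.all fun t => decide (t.2.1 + t.2.2.2.1 ≤ I) && decide (t.2.2.1 + t.2.2.2.2 ≤ J)

/-- A centred coordinate. -/
def ctr (o : Ops α) (a : α) : α := o.add a (o.cst (-1))

/-- The three coordinates of a vector with total three. -/
def three (o : Ops α) (a b : α) : α × α × α :=
  (a, b, o.add (o.cst 3) (o.mul (o.cst (-1)) (o.add a b)))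

/-- The sum of squares of the centred coordinates. -/
def sq3 (o : Ops α) (z : α × α × α) : α :=
  o.add (o.mul (ctr o z.1) (ctr o z.1))
    (o.add (o.mul (ctr o z.2.1) (ctr o z.2.1)) (o.mul (ctr o z.2.2) (ctr o z.2.2)))

/-- The product of the centred coordinates. -/
def cu3 (o : Ops α) (z : α × α × α) : α :=
  o.mul (ctr o z.1) (o.mul (ctr o z.2.1) (ctr o z.2.2))

/-- The invariants of the two vectors. -/
def invs (o : Ops α) (z y : α × α × α) : Fin 4 → α := ![sq3 o z, cu3 o z, sq3 o y, cu3 o y]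

/-- The symmetric functions of the product of two vectors. -/
def prods (o : Ops α) (z y : α × α × α) : Fin 4 → α :=
  let m0 := o.mul z.1 y.1
  let m1 := o.mul z.2.1 y.2.1
  let m2 := o.mul z.2.2 y.2.2
  ![o.add m0 (o.add m1 m2), o.add (o.mul m0 m1) (o.add (o.mul m1 m2) (o.mul m2 m0)),
    o.mul m0 (o.mul m1 m2), o.cst 0]

/-- The sum over the six relabellings. -/
def six (o : Ops α) (G : List Term) (z y : α × α × α) : α :=
  let a := y.1
  let b := y.2.1
  let c := y.2.2
  o.add (o.add (evO o G (prods o z (a, b, c))) (evO o G (prods o z (a, c, b))))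
    (o.add (o.add (evO o G (prods o z (b, a, c))) (evO o G (prods o z (b, c, a))))
      (o.add (evO o G (prods o z (c, a, b))) (evO o G (prods o z (c, b, a)))))

/-- Data of one identity. -/
structure IdData where
  R : List Term
  G : List Term
  B : List Term
  k : ℤ

/-- The polynomial which vanishes identically. -/
def idPoly (o : Ops α) (D : IdData) (x : Fin 4 → α) : α :=
  let z := three o (x 0) (x 1)
  let y := three o (x 2) (x 3)
  o.add (evO o D.R (invs o z y))
    (o.mul (o.cst (-1)) (o.add (six o D.G z y) (o.mul (o.cst D.k) (evO o D.B (invs o z y)))))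

lemma powO_r (x : ℝ) : ∀ n, powO rOps x n = x ^ n
  | 0 => by simp [powO, rOps]
  | n + 1 => by rw [powO, powO_r x n, pow_succ']; rfl

lemma evO_r : ∀ (T : List Term) (x : Fin 4 → ℝ), evO rOps T x = evalT T x
  | [], x => by simp [evO, evalT, rOps]
  | t :: T, x => by
      rw [evO, evO_r T x]
      simp only [powO_r]
      simp only [evalT, List.map_cons, List.sum_cons, termVal, rOps]
      ring

lemma evalT_append (S T : List Term) (x : Fin 4 → ℝ) :
    evalT (S ++ T) x = evalT S x + evalT T x := by simp [evalT]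

lemma evalT_row (i j : ℕ) (x : Fin 4 → ℝ) : ∀ (ps : List (ℕ × ℕ)) (cs : List ℤ),
    evalT ((ps.zip cs).map fun pc => (pc.2, i, j, pc.1.1, pc.1.2)) x =
      x 0 ^ i * x 1 ^ j * Bern.rowEval ps cs (x 2) (x 3)
  | [], cs => by simp [evalT, Bern.rowEval]
  | _ :: _, [] => by simp [evalT, Bern.rowEval]
  | p :: ps, c :: cs => by
      have := evalT_row i j x ps cs
      simp only [evalT] at this
      simp only [evalT, List.zip_cons_cons, List.map_cons, List.sum_cons, termVal, Bern.rowEval,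
        this]
      ring

lemma evalT_toTerms (P : Bern.Poly) (x : Fin 4 → ℝ) : evalT (toTerms P) x = P.eval x := by
  rcases P with ⟨pks, rows⟩
  induction rows with
  | nil => simp [toTerms, evalT, Bern.Poly.eval]
  | cons r rows ih =>
      simp only [toTerms, Bern.Poly.eval] at ih ⊢
      rw [List.flatMap_cons, evalT_append, evalT_row, ih, List.map_cons, List.sum_cons]

lemma evalT_scale (U V : ℤ) (I J : ℕ) (x : Fin 4 → ℝ) : ∀ T : List Term, scaleOK I J T = true →
    evalT (scaleT U V I J T) ![(U : ℝ) * x 0, V * x 1, U * x 2, V * x 3] =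
      (U : ℝ) ^ I * (V : ℝ) ^ J * evalT T x
  | [], _ => by simp [scaleT, evalT]
  | (z, a, b, c, d) :: T, h => by
      simp only [scaleOK, List.all_cons, Bool.and_eq_true, decide_eq_true_eq] at h
      have ih := evalT_scale U V I J x T h.2
      obtain ⟨u, hu⟩ : ∃ u, I = a + c + u := ⟨I - (a + c), by omega⟩
      obtain ⟨v, hv⟩ : ∃ v, J = b + d + v := ⟨J - (b + d), by omega⟩
      simp only [evalT, scaleT] at ih
      simp only [evalT, scaleT, List.map_cons, List.sum_cons, termVal]
      rw [ih, show I - (a + c) = u by omega, show J - (b + d) = v by omega]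
      simp only [hu, hv, Matrix.cons_val_zero, Matrix.cons_val_one, Matrix.cons_val]
      push_cast
      ring

variable {L : Lay}

lemma rel_powO {f : (Fin 4 → ℝ) → ℝ} {v : KV} (h : Rel L f v) :
    ∀ n, Rel L (fun x => powO rOps (f x) n) (powO kOps v n)
  | 0 => rel_cst L 1
  | n + 1 => rel_mul h (rel_powO h n)

lemma rel_evO {F : (Fin 4 → ℝ) → Fin 4 → ℝ} {V : Fin 4 → KV}
    (h : ∀ i, Rel L (fun x => F x i) (V i)) :
    ∀ T : List Term, Rel L (fun x => evO rOps T (F x)) (evO kOps T V)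
  | [] => rel_cst L 0
  | t :: T =>
    rel_add
      (rel_mul (rel_cst L t.1)
        (rel_mul (rel_mul (rel_powO (h 0) _) (rel_powO (h 1) _))
          (rel_mul (rel_powO (h 2) _) (rel_powO (h 3) _))))
      (rel_evO h T)

/-- Relatedness of three coordinates. -/
def Rel3 (L : Lay) (f : (Fin 4 → ℝ) → ℝ × ℝ × ℝ) (v : KV × KV × KV) : Prop :=
  Rel L (fun x => (f x).1) v.1 ∧ Rel L (fun x => (f x).2.1) v.2.1 ∧ Rel L (fun x => (f x).2.2) v.2.2

lemma rel_three {f g : (Fin 4 → ℝ) → ℝ} {p q : KV} (hf : Rel L f p) (hg : Rel L g q) :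
    Rel3 L (fun x => three rOps (f x) (g x)) (three kOps p q) :=
  ⟨hf, hg, rel_add (rel_cst L 3) (rel_mul (rel_cst L (-1)) (rel_add hf hg))⟩

variable {z y : (Fin 4 → ℝ) → ℝ × ℝ × ℝ} {u w : KV × KV × KV}

lemma rel_ctr {f : (Fin 4 → ℝ) → ℝ} {v : KV} (h : Rel L f v) :
    Rel L (fun x => ctr rOps (f x)) (ctr kOps v) := rel_add h (rel_cst L (-1))

lemma rel_sq3 (h : Rel3 L z u) : Rel L (fun x => sq3 rOps (z x)) (sq3 kOps u) :=
  rel_add (rel_mul (rel_ctr h.1) (rel_ctr h.1))
    (rel_add (rel_mul (rel_ctr h.2.1) (rel_ctr h.2.1)) (rel_mul (rel_ctr h.2.2) (rel_ctr h.2.2)))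

lemma rel_cu3 (h : Rel3 L z u) : Rel L (fun x => cu3 rOps (z x)) (cu3 kOps u) :=
  rel_mul (rel_ctr h.1) (rel_mul (rel_ctr h.2.1) (rel_ctr h.2.2))

lemma rel_invs (hz : Rel3 L z u) (hy : Rel3 L y w) (i : Fin 4) :
    Rel L (fun x => invs rOps (z x) (y x) i) (invs kOps u w i) := by
  fin_cases i
  · exact rel_sq3 hz
  · exact rel_cu3 hz
  · exact rel_sq3 hy
  · exact rel_cu3 hy

lemma rel_prods (hz : Rel3 L z u) (hy : Rel3 L y w) (i : Fin 4) :
    Rel L (fun x => prods rOps (z x) (y x) i) (prods kOps u w i) := by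
  fin_cases i
  · exact rel_add (rel_mul hz.1 hy.1) (rel_add (rel_mul hz.2.1 hy.2.1) (rel_mul hz.2.2 hy.2.2))
  · exact rel_add (rel_mul (rel_mul hz.1 hy.1) (rel_mul hz.2.1 hy.2.1))
      (rel_add (rel_mul (rel_mul hz.2.1 hy.2.1) (rel_mul hz.2.2 hy.2.2))
        (rel_mul (rel_mul hz.2.2 hy.2.2) (rel_mul hz.1 hy.1)))
  · exact rel_mul (rel_mul hz.1 hy.1) (rel_mul (rel_mul hz.2.1 hy.2.1) (rel_mul hz.2.2 hy.2.2))
  · exact rel_cst L 0

lemma rel_six (G : List Term) (hz : Rel3 L z u) (hy : Rel3 L y w) :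
    Rel L (fun x => six rOps G (z x) (y x)) (six kOps G u w) := by
  obtain ⟨a, b, c⟩ := hy
  exact rel_add
    (rel_add (rel_evO (rel_prods hz ⟨a, b, c⟩) G)
      (rel_evO (rel_prods (y := fun x => ((y x).1, (y x).2.2, (y x).2.1))
          (w := (w.1, w.2.2, w.2.1)) hz ⟨a, c, b⟩) G))
    (rel_add
      (rel_add
        (rel_evO (rel_prods (y := fun x => ((y x).2.1, (y x).1, (y x).2.2))
          (w := (w.2.1, w.1, w.2.2)) hz ⟨b, a, c⟩) G)
        (rel_evO (rel_prods (y := fun x => ((y x).2.1, (y x).2.2, (y x).1))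
          (w := (w.2.1, w.2.2, w.1)) hz ⟨b, c, a⟩) G))
      (rel_add
        (rel_evO (rel_prods (y := fun x => ((y x).2.2, (y x).1, (y x).2.1))
          (w := (w.2.2, w.1, w.2.1)) hz ⟨c, a, b⟩) G)
        (rel_evO (rel_prods (y := fun x => ((y x).2.2, (y x).2.1, (y x).1))
          (w := (w.2.2, w.2.1, w.1)) hz ⟨c, b, a⟩) G)))

/-- A checked identity holds at every point. -/
theorem idPoly_zero (D : IdData) (h : zeroOK L (idPoly kOps D L.var) = true) (x : Fin 4 → ℝ) :
    idPoly rOps D x = 0 := by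
  have hz := rel_three (rel_var L 0) (rel_var L 1)
  have hy := rel_three (rel_var L 2) (rel_var L 3)
  exact rel_zero (f := fun x => idPoly rOps D x)
    (rel_add (rel_evO (rel_invs hz hy) D.R) (rel_mul (rel_cst L (-1))
      (rel_add (rel_six D.G hz hy) (rel_mul (rel_cst L D.k) (rel_evO (rel_invs hz hy) D.B))))) h x

end Vale.Agent.P154.Aux3
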