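import Vale.Agent.P154.Potential
import Vale.Agent.P154.Aux3Defs

/-!
P154: points of the triangle in the coordinates of the checkers, and the relabellings of three
points.
-/

namespace Vale.Agent.P154.Aux3

open scoped BigOperators

lemma perm_three : (Finset.univ : Finset (Equiv.Perm (Fin 3))) =
    {Equiv.refl (Fin 3), Equiv.subLeft 0, Equiv.subLeft 1, Equiv.addRight 1, Equiv.addRight 2,
      Equiv.subLeft 2} := by decide

/-- A point of the triangle in the two coordinates of the checker. -/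
lemma param {p : Fin 3 → ℝ} (hp : p ∈ stdSimplex ℝ (Fin 3)) :
    ∃ r v : ℝ, r ∈ Set.Icc (0 : ℝ) 1 ∧ v ∈ Set.Icc (0 : ℝ) 1 ∧
      tI p = r ^ 2 * Bern.Tv v ∧ cI p = r ^ 3 * Bern.Kv v := by
  have hsum : p 0 + p 1 + p 2 = 1 := by simpa [Fin.sum_univ_three] using hp.2
  have key : ∀ m j k : ℝ, 0 ≤ m → m ≤ j → j ≤ k → m + j + k = 1 →
      ∃ r v : ℝ, r ∈ Set.Icc (0 : ℝ) 1 ∧ v ∈ Set.Icc (0 : ℝ) 1 ∧
        3 / 2 * ((m - 1 / 3) ^ 2 + (j - 1 / 3) ^ 2 + (k - 1 / 3) ^ 2) = r ^ 2 * Bern.Tv v ∧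
        27 / 2 * ((m - 1 / 3) * (j - 1 / 3) * (k - 1 / 3)) = r ^ 3 * Bern.Kv v := by
    intro m j k h0 hmj hjk hs
    obtain rfl : k = 1 - m - j := by linarith
    rcases (show m ≤ 1 / 3 by linarith).eq_or_lt with h | h
    · obtain rfl : j = 1 / 3 := by linarith
      refine ⟨0, 0, by simp, by simp, ?_, ?_⟩ <;> subst h <;> norm_num
    · have hr : 0 < 1 - 3 * m := by linarith
      obtain ⟨w, hw⟩ : ∃ w, w = 2 * (j - m) / (1 - 3 * m) := ⟨_, rfl⟩
      have hw0 : 0 ≤ w := hw ▸ div_nonneg (by linarith) hr.le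
      have hw1 : w ≤ 1 := by rw [hw, div_le_one hr]; linarith
      have ej : j = m + w * (1 - 3 * m) / 2 := by
        rw [hw, div_mul_cancel₀ _ hr.ne']
        ring
      refine ⟨1 - 3 * m, w, ⟨hr.le, by linarith⟩, ⟨hw0, hw1⟩, ?_, ?_⟩ <;>
        (simp only [Bern.Tv, Bern.Kv]; rw [ej]; ring)
  have h0 := hp.1 0
  have h1 := hp.1 1
  have h2 := hp.1 2
  simp only [tI, cI, Fin.sum_univ_three, Fin.prod_univ_three]
  rcases le_total (p 0) (p 1) with a | a
  · rcases le_total (p 1) (p 2) with b | b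
    · obtain ⟨r, v, hr, hv, e1, e2⟩ := key (p 0) (p 1) (p 2) h0
        (by linarith) (by linarith) (by linarith)
      exact ⟨r, v, hr, hv, by linear_combination e1, by linear_combination e2⟩
    · rcases le_total (p 0) (p 2) with c | c
      · obtain ⟨r, v, hr, hv, e1, e2⟩ := key (p 0) (p 2) (p 1) h0
          (by linarith) (by linarith) (by linarith)
        exact ⟨r, v, hr, hv, by linear_combination e1, by linear_combination e2⟩
      · obtain ⟨r, v, hr, hv, e1, e2⟩ := key (p 2) (p 0) (p 1) h2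
          (by linarith) (by linarith) (by linarith)
        exact ⟨r, v, hr, hv, by linear_combination e1, by linear_combination e2⟩
  · rcases le_total (p 0) (p 2) with b | b
    · obtain ⟨r, v, hr, hv, e1, e2⟩ := key (p 1) (p 0) (p 2) h1
        (by linarith) (by linarith) (by linarith)
      exact ⟨r, v, hr, hv, by linear_combination e1, by linear_combination e2⟩
    · rcases le_total (p 1) (p 2) with c | c
      · obtain ⟨r, v, hr, hv, e1, e2⟩ := key (p 1) (p 2) (p 0) h1
          (by linarith) (by linarith) (by linarith)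
        exact ⟨r, v, hr, hv, by linear_combination e1, by linear_combination e2⟩
      · obtain ⟨r, v, hr, hv, e1, e2⟩ := key (p 2) (p 1) (p 0) h2
          (by linarith) (by linarith) (by linarith)
        exact ⟨r, v, hr, hv, by linear_combination e1, by linear_combination e2⟩

lemma mem_simplex_comp {p : Fin 3 → ℝ} (hp : p ∈ stdSimplex ℝ (Fin 3))
    (σ : Equiv.Perm (Fin 3)) : p ∘ σ ∈ stdSimplex ℝ (Fin 3) :=
  ⟨fun i => hp.1 (σ i), by simpa [Function.comp] using (Equiv.sum_comp σ p).trans hp.2⟩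

/-- The symmetric functions of the scaled product. -/
noncomputable def prodVec (s u : Fin 3 → ℝ) : Fin 4 → ℝ :=
  let m : Fin 3 → ℝ := fun i => 9 * (s i * u i)
  ![m 0 + m 1 + m 2, m 0 * m 1 + m 1 * m 2 + m 2 * m 0, m 0 * m 1 * m 2, 0]

lemma card_three : (Fintype.card (Equiv.Perm (Fin 3)) : ℝ) = 6 := by
  simp [Fintype.card_perm, Nat.factorial]

end Vale.Agent.P154.Aux3
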