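import Vale.Agent.P154.Step

/-!
P154: polynomial potentials for three states and the certificate interfaces.
-/

namespace Vale.Agent.P154

open scoped BigOperators

/-- The quadratic invariant of a point of the triangle. -/
noncomputable def tI (p : Fin 3 → ℝ) : ℝ := 3 / 2 * ∑ i, (p i - 1 / 3) ^ 2

/-- The cubic invariant of a point of the triangle. -/
noncomputable def cI (p : Fin 3 → ℝ) : ℝ := 27 / 2 * ∏ i, (p i - 1 / 3)

/-- The potential given by a function of the two invariants. -/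
noncomputable def phiOf (P : ℝ → ℝ → ℝ) (p : Fin 3 → ℝ) : ℝ := P (tI p) (cI p)

/-- Shrinking towards the uniform point. -/
noncomputable def shrink (r : ℝ) (p : Fin 3 → ℝ) : Fin 3 → ℝ := fun i => 1 / 3 + r * (p i - 1 / 3)

/-- The left side of the pairwise inequality, without the gain. -/
noncomputable def nodeAvg (P : ℝ → ℝ → ℝ) (l : ℝ) (s p : Fin 3 → ℝ) : ℝ :=
  3 / 2 * ∑ σ : Equiv.Perm (Fin 3), hom (phiOf P) (fun i => s i * chanMap l p (σ i))

/-- Properties of a potential used at the root. -/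
structure Good (P : ℝ → ℝ → ℝ) : Prop where
  ge_t : ∀ p ∈ stdSimplex ℝ (Fin 3), tI p ≤ phiOf P p
  le_t : ∃ M : ℝ, ∀ p ∈ stdSimplex ℝ (Fin 3), phiOf P p ≤ M * tI p
  radial : ∀ c : ℝ, 0 ≤ c → c ≤ 1 → ∀ p ∈ stdSimplex ℝ (Fin 3),
    phiOf P (shrink c p) ≤ c ^ 2 * phiOf P p

/-- A certificate at `l0` for every offspring law. -/
def SingleCert (l0 : ℝ) : Prop :=
  ∃ P : ℝ → ℝ → ℝ, ∃ eps : ℝ, 0 < eps ∧ Good P ∧
    ∀ s ∈ stdSimplex ℝ (Fin 3), ∀ p ∈ stdSimplex ℝ (Fin 3),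
      nodeAvg P l0 s p + eps * (tI s * tI p) ≤ phiOf P s + l0 ^ 2 * phiOf P p

/-- A certificate at `l0` for the binary tree: both arguments are children, the first one is
already seen through the channel. -/
def BinCert (l0 : ℝ) : Prop :=
  ∃ P : ℝ → ℝ → ℝ, ∃ eps : ℝ, 0 < eps ∧ Good P ∧
    ∀ s ∈ stdSimplex ℝ (Fin 3), ∀ p ∈ stdSimplex ℝ (Fin 3),
      nodeAvg P l0 (shrink l0 s) p + eps * (tI s * tI p) ≤
        l0 ^ 2 * (phiOf P s + phiOf P p)

/-- A certificate at `l0` for the ternary tree; two merged children lie in the triangle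
shrunk by `r`. -/
def TerCert (l0 r : ℝ) : Prop :=
  ∃ P P2 : ℝ → ℝ → ℝ, ∃ eps : ℝ, 0 < eps ∧ Good P ∧
    (∀ s ∈ stdSimplex ℝ (Fin 3), ∀ p ∈ stdSimplex ℝ (Fin 3),
      nodeAvg P2 l0 (shrink l0 s) p + eps * (tI s * tI p) ≤
        l0 ^ 2 * (phiOf P s + phiOf P p)) ∧
    ∀ s ∈ stdSimplex ℝ (Fin 3), ∀ p ∈ stdSimplex ℝ (Fin 3),
      nodeAvg P l0 (shrink r s) p ≤ phiOf P2 (shrink r s) + l0 ^ 2 * phiOf P p

end Vale.Agent.P154
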