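import Vale.Agent.P154.AuxFinal
import Vale.Agent.P154.Potential
import Vale.Agent.P154.Aux3Model
import Vale.Agent.P154.Aux3Bounds
import Vale.Agent.P154.Aux3Check

/-!
P154: the two merge inequalities for three states, with the auxiliary functional
`T - Q ^ 2 / 4`.
-/

namespace Vale.Agent.P154.Aux3

open scoped BigOperators
open Kron

/-- The invariants, in the variables of the identities. -/
noncomputable def invVec (s u : Fin 3 → ℝ) : Fin 4 → ℝ :=
  ![3 * cmom 2 s, cmom 3 s, 3 * cmom 2 u, cmom 3 u]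

lemma cmom_two_three {p : Fin 3 → ℝ} (hp : p ∈ stdSimplex ℝ (Fin 3)) :
    3 * cmom 2 p = 6 * tI p ∧ cmom 3 p = 2 * cI p := by
  have hsum : p 0 + p 1 + p 2 = 1 := by simpa [Fin.sum_univ_three] using hp.2
  simp only [cmom, tI, cI, Fin.sum_univ_three, Fin.prod_univ_three,
    show p 2 = 1 - p 0 - p 1 by linarith]
  constructor <;> push_cast <;> ring

/-- The inequality contained in a checked identity and a checked certificate. -/
lemma nodeSum_le {L : Lay} {R G : List Term} {P : Bern.Poly} {c : Bern.Cfg} {cv : Bern.Cover}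
    {I J : ℕ} {k : ℤ} (hk : 0 ≤ k) (hs : scaleOK I J (toTerms P) = true)
    (hid : zeroOK L (idPoly kOps ⟨R, G, scaleT 6 2 I J (toTerms P), k⟩ L.var) = true)
    (hb : Bern.check c P cv = true) {s u : Fin 3 → ℝ} (hs' : s ∈ stdSimplex ℝ (Fin 3))
    (hu : u ∈ stdSimplex ℝ (Fin 3)) :
    ∑ σ : Equiv.Perm (Fin 3), evalT G (prodVec s (u ∘ σ)) ≤ evalT R (invVec s u) := by
  have hs3 : s 0 + s 1 + s 2 = 1 := by simpa [Fin.sum_univ_three] using hs'.2
  have hu3 : u 0 + u 1 + u 2 = 1 := by simpa [Fin.sum_univ_three] using hu.2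
  have key := idPoly_zero _ hid ![3 * s 0, 3 * s 1, 3 * u 0, 3 * u 1]
  have et : ∀ p : Fin 3 → ℝ, p 0 + p 1 + p 2 = 1 →
      three rOps (3 * p 0) (3 * p 1) = (3 * p 0, 3 * p 1, 3 * p 2) := by
    intro p hp
    simp only [three, rOps, Prod.mk.injEq, true_and]
    push_cast
    linarith
  obtain ⟨r, v, hr, hv, e1, e2⟩ := param hs'
  obtain ⟨r', v', hr', hv', e3, e4⟩ := param hu
  have hP := Bern.check_sound hb hr hv hr' hv'
  rw [← e1, ← e2, ← e3, ← e4] at hP
  have hsc := evalT_scale 6 2 I J ![tI s, cI s, tI u, cI u] _ hs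
  simp only [Matrix.cons_val_zero, Matrix.cons_val_one, Matrix.cons_val, evalT_toTerms] at hsc
  push_cast at hsc
  have einv : invs rOps (3 * s 0, 3 * s 1, 3 * s 2) (3 * u 0, 3 * u 1, 3 * u 2) = invVec s u := by
    funext i
    fin_cases i <;>
      (simp [invs, invVec, sq3, cu3, ctr, rOps, cmom, Fin.sum_univ_three]
       first
         | (rw [show s 2 = 1 - s 0 - s 1 by linarith]; ring)
         | (rw [show u 2 = 1 - u 0 - u 1 by linarith]; ring))
  have epr : ∀ w : Fin 3 → ℝ,
      prods rOps (3 * s 0, 3 * s 1, 3 * s 2) (3 * w 0, 3 * w 1, 3 * w 2) = prodVec s w := by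
    intro w
    funext i
    fin_cases i <;> simp [prods, prodVec, rOps] <;> ring
  have esum : six rOps G (3 * s 0, 3 * s 1, 3 * s 2) (3 * u 0, 3 * u 1, 3 * u 2) =
      ∑ σ : Equiv.Perm (Fin 3), evalT G (prodVec s (u ∘ σ)) := by
    rw [perm_three, Finset.sum_insert (by decide), Finset.sum_insert (by decide),
      Finset.sum_insert (by decide), Finset.sum_insert (by decide), Finset.sum_insert (by decide),
      Finset.sum_singleton]
    have e : ∀ (σ : Equiv.Perm (Fin 3)) (i j k : Fin 3), σ 0 = i → σ 1 = j → σ 2 = k →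
        prodVec s (u ∘ σ) =
          prods rOps (3 * s 0, 3 * s 1, 3 * s 2) (3 * u i, 3 * u j, 3 * u k) := by
      rintro σ _ _ _ rfl rfl rfl
      exact (epr (u ∘ σ)).symm
    rw [e (Equiv.refl _) 0 1 2 rfl rfl rfl,
      e (Equiv.subLeft 0) 0 2 1 (by decide) (by decide) (by decide),
      e (Equiv.subLeft 1) 1 0 2 (by decide) (by decide) (by decide),
      e (Equiv.addRight 1) 1 2 0 (by decide) (by decide) (by decide),
      e (Equiv.addRight 2) 2 0 1 (by decide) (by decide) (by decide),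
      e (Equiv.subLeft 2) 2 1 0 (by decide) (by decide) (by decide)]
    simp only [six, evO_r]
    change (_ + _) + ((_ + _) + (_ + _)) = _
    ring
  simp only [idPoly, Matrix.cons_val_zero, Matrix.cons_val_one, Matrix.cons_val, et s hs3,
    et u hu3, esum, einv, evO_r] at key
  simp only [rOps] at key
  push_cast at key
  have eB : invVec s u = ![6 * tI s, 2 * cI s, 6 * tI u, 2 * cI u] := by
    simp [invVec, (cmom_two_three hs').1, (cmom_two_three hs').2, (cmom_two_three hu).1,
      (cmom_two_three hu).2]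
  rw [eB, hsc, ← eB] at key
  have : 0 ≤ (k : ℝ) * ((6 : ℝ) ^ I * 2 ^ J * P.eval ![tI s, cI s, tI u, cI u]) := by
    have : (0 : ℝ) ≤ k := by exact_mod_cast hk
    positivity
  linarith

/-- Facts on the power means of the scaled product. -/
lemma pow_facts {s u : Fin 3 → ℝ} (hs : s ∈ stdSimplex ℝ (Fin 3))
    (hu : u ∈ stdSimplex ℝ (Fin 3)) :
    0 ≤ mergePow 1 s u ∧ mergePow 1 s u ≤ 3 ∧ 0 ≤ mergePow 2 s u ∧
      mergePow 2 s u ≤ 3 * mergePow 1 s u ^ 2 ∧ 0 ≤ mergePow 3 s u := by
  have hs3 : s 0 + s 1 + s 2 = 1 := by simpa [Fin.sum_univ_three] using hs.2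
  have hu3 : u 0 + u 1 + u 2 = 1 := by simpa [Fin.sum_univ_three] using hu.2
  have a0 := hs.1 0
  have a1 := hs.1 1
  have a2 := hs.1 2
  have b0 := hu.1 0
  have b1 := hu.1 1
  have b2 := hu.1 2
  simp only [mergePow, Fin.sum_univ_three, pow_one]
  push_cast
  refine ⟨by positivity, ?_, by positivity, ?_, by positivity⟩
  · nlinarith [mul_nonneg a0 b1, mul_nonneg a0 b2, mul_nonneg a1 b0, mul_nonneg a1 b2,
      mul_nonneg a2 b0, mul_nonneg a2 b1]
  · nlinarith [mul_nonneg (mul_nonneg a0 b0) (mul_nonneg a1 b1),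
      mul_nonneg (mul_nonneg a1 b1) (mul_nonneg a2 b2),
      mul_nonneg (mul_nonneg a0 b0) (mul_nonneg a2 b2)]

/-- The parameters of the auxiliary functional. -/
noncomputable def psi3 : (Fin 3 → ℝ) → ℝ := psiOf (1 / 4) 0 0 0

lemma psi3_eq (p : Fin 3 → ℝ) : psi3 p = cmom 3 p - 1 / 4 * cmom 2 p ^ 2 := by
  simp [psi3, psiOf]

/-- One relabelling in the main inequality. -/
lemma node_main {s u : Fin 3 → ℝ} (hs : s ∈ stdSimplex ℝ (Fin 3))
    (hu : u ∈ stdSimplex ℝ (Fin 3)) :
    331776 * (mergePow 1 s u * potQ (fun i => s i * u i / ∑ j, s j * u j)) ≤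
      evalT nodeMain (prodVec s u) := by
  obtain ⟨h0, h3, hE0, hE, -⟩ := pow_facts hs hu
  have e : evalT nodeMain (prodVec s u) = 331776 *
      (3 * mergePow 1 s u - (3 * mergePow 1 s u ^ 2 - mergePow 2 s u) * lbM (mergePow 1 s u)
        - mergePow 1 s u) := by
    simp only [evalT, termVal, nodeMain, prodVec, lbM, mergePow, Fin.sum_univ_three, List.map_cons,
      List.map_nil, List.sum_cons, List.sum_nil, Matrix.cons_val_zero, Matrix.cons_val_one,
      Matrix.cons_val, pow_one]
    push_cast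
    ring
  rw [e]
  refine mul_le_mul_of_nonneg_left ?_ (by norm_num)
  rcases h0.eq_or_lt with h | h
  · rw [← h] at hE ⊢
    have hE' : mergePow 2 s u = 0 := by linarith
    simp [hE']
  · have hl := lbM_le h0 h3
    rw [potQ, (cmom_normalized h.ne').1]
    generalize mergePow 1 s u = Z at *
    generalize mergePow 2 s u = E at *
    have e1 : Z * (E / Z ^ 2 - 1) = E / Z - Z := by field_simp
    have hm : lbM Z ≤ 1 / Z := by
      rw [le_div_iff₀ h]
      linarith
    have := mul_le_mul_of_nonneg_left hm (sub_nonneg.mpr hE)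
    have e2 : (3 * Z ^ 2 - E) * (1 / Z) = 3 * Z - E / Z := by field_simp
    linarith

/-- One relabelling in the auxiliary inequality. -/
lemma node_aux {s u : Fin 3 → ℝ} (hs : s ∈ stdSimplex ℝ (Fin 3))
    (hu : u ∈ stdSimplex ℝ (Fin 3)) :
    -(338151365148672 * (mergePow 1 s u * psi3 (fun i => s i * u i / ∑ j, s j * u j))) ≤
      evalT nodeAux (prodVec s u) := by
  obtain ⟨h0, h3, hE0, hE, hC⟩ := pow_facts hs hu
  have e : evalT nodeAux (prodVec s u) = -(338151365148672 *
      (mergePow 3 s u * lb2 (mergePow 1 s u)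
        - 5 / 2 * (3 * mergePow 1 s u
            - (3 * mergePow 1 s u ^ 2 - mergePow 2 s u) * lb1 (mergePow 1 s u))
        + 7 / 4 * mergePow 1 s u
        - 1 / 4 * (9 * mergePow 1 s u
            - (9 * mergePow 1 s u ^ 4 - mergePow 2 s u ^ 2) * lb3 (mergePow 1 s u)))) := by
    simp only [evalT, termVal, nodeAux, prodVec, lb1, lb2, lb3, mergePow, Fin.sum_univ_three,
      List.map_cons, List.map_nil, List.sum_cons, List.sum_nil, Matrix.cons_val_zero,
      Matrix.cons_val_one, Matrix.cons_val, pow_one]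
    push_cast
    ring
  rw [e, neg_le_neg_iff]
  refine mul_le_mul_of_nonneg_left ?_ (by norm_num)
  rw [psi3_eq]
  rcases h0.eq_or_lt with h | h
  · have hC' : mergePow 3 s u = 0 := by
      have hm : ∀ i, s i * u i = 0 := by
        intro i
        have h' : ∑ i, s i * u i = 0 := by
          have := h.symm
          simp only [mergePow, pow_one, ← Finset.mul_sum] at this
          norm_num at this
          exact this
        exact (Finset.sum_eq_zero_iff_of_nonneg fun i _ => mul_nonneg (hs.1 i) (hu.1 i)).mp h' i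
          (Finset.mem_univ i)
      simp [mergePow, hm]
    rw [← h] at hE ⊢
    have hE' : mergePow 2 s u = 0 := by linarith
    simp [hE', hC']
  · have l1 := lb1_le h0 h3
    have l2 := lb2_le h0 h3
    have l3 := lb3_le h0 h3
    obtain ⟨q2, q3, -⟩ := cmom_normalized (s := s) (u := u) h.ne'
    rw [q2, q3]
    generalize mergePow 1 s u = Z at *
    generalize mergePow 2 s u = E at *
    generalize mergePow 3 s u = C at *
    have a1 := mul_le_mul_of_nonneg_left
      (show lb1 Z ≤ 1 / Z by rw [le_div_iff₀ h]; linarith) (sub_nonneg.mpr hE)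
    have a2 := mul_le_mul_of_nonneg_left
      (show lb2 Z ≤ 1 / Z ^ 2 by rw [le_div_iff₀ (by positivity)]; linarith) hC
    have hE2 : E ^ 2 ≤ 9 * Z ^ 4 := by nlinarith [mul_le_mul hE hE hE0 (by positivity)]
    have a3 := mul_le_mul_of_nonneg_left
      (show lb3 Z ≤ 1 / Z ^ 3 by rw [le_div_iff₀ (by positivity)]; linarith)
      (sub_nonneg.mpr hE2)
    have e1 : Z * (C / Z ^ 3 - 3 * (E / Z ^ 2) + 2 - 1 / 4 * (E / Z ^ 2 - 1) ^ 2) =
        C * (1 / Z ^ 2) - 5 / 2 * (3 * Z - (3 * Z ^ 2 - E) * (1 / Z)) + 7 / 4 * Z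
          - 1 / 4 * (9 * Z - (9 * Z ^ 4 - E ^ 2) * (1 / Z ^ 3)) := by
      field_simp
      ring
    rw [e1]
    linarith

/-- The multiplier of the main inequality. -/
noncomputable def mulG (p : Fin 3 → ℝ) : ℝ :=
  potQ p * ((205 - 10 * potQ p - 90 * cmom 3 p) / 256)

/-- The multiplier of the auxiliary inequality. -/
noncomputable def mulA (p : Fin 3 → ℝ) : ℝ := 1 - 3 / 2 * potQ p + cmom 3 p

lemma mulA_nonneg {p : Fin 3 → ℝ} (hp : p ∈ stdSimplex ℝ (Fin 3)) : 0 ≤ mulA p := by
  have hsum : p 0 + p 1 + p 2 = 1 := by simpa [Fin.sum_univ_three] using hp.2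
  have e : mulA p = 27 * (p 0 * p 1 * p 2) := by
    simp only [mulA, potQ, cmom, Fin.sum_univ_three, show p 2 = 1 - p 0 - p 1 by linarith]
    push_cast
    ring
  rw [e]
  have := hp.1 0
  have := hp.1 1
  have := hp.1 2
  positivity

lemma mulG_nonneg {p : Fin 3 → ℝ} (hp : p ∈ stdSimplex ℝ (Fin 3)) : 0 ≤ mulG p := by
  have hsum : p 0 + p 1 + p 2 = 1 := by simpa [Fin.sum_univ_three] using hp.2
  have hT : cmom 3 p ≤ 2 := by
    have e : cmom 3 p = 2 - 9 * (p 0 * p 1 * (1 - p 2) + p 1 * p 2 * (1 - p 0)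
        + p 2 * p 0 * (1 - p 1)) := by
      simp only [cmom, Fin.sum_univ_three, show p 2 = 1 - p 0 - p 1 by linarith]
      push_cast
      ring
    have h : ∀ i, 0 ≤ 1 - p i := fun i =>
      sub_nonneg.mpr (hp.2 ▸ Finset.single_le_sum (fun j _ => hp.1 j) (Finset.mem_univ i))
    nlinarith [mul_nonneg (mul_nonneg (hp.1 0) (hp.1 1)) (h 2),
      mul_nonneg (mul_nonneg (hp.1 1) (hp.1 2)) (h 0),
      mul_nonneg (mul_nonneg (hp.1 2) (hp.1 0)) (h 1)]
  have hQ := potQ_le hp
  push_cast at hQ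
  exact mul_nonneg (potQ_nonneg p) (div_nonneg (by linarith) (by norm_num))

/-- The inductive inequality. -/
theorem auxIneq_three : AuxIneq 3 psi3 := by
  refine ⟨mulA, mulA, 0, le_rfl, fun p hp => ⟨mulA_nonneg hp, mulA_nonneg hp⟩, fun s hs u hu => ?_⟩
  have h := nodeSum_le (by norm_num) scale_aux ident_aux bern_aux hs hu
  have hn := Finset.sum_le_sum fun (σ : Equiv.Perm (Fin 3)) (_ : σ ∈ Finset.univ) =>
    node_aux hs (mem_simplex_comp hu σ)
  rw [Finset.sum_neg_distrib, ← Finset.mul_sum] at hn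
  rw [mergeAvg_eq, card_three]
  have e : evalT restAux (invVec s u) =
      -(2028908190892032 * (mulA u * psi3 s + mulA s * psi3 u)) := by
    simp only [evalT, termVal, restAux, invVec, psi3_eq, mulA, potQ, List.map_cons, List.map_nil,
      List.sum_cons, List.sum_nil, Matrix.cons_val_zero, Matrix.cons_val_one, Matrix.cons_val]
    push_cast
    ring
  rw [e] at h
  simp only [Function.comp] at hn h ⊢
  linarith

/-- The main inequality. -/
theorem mainIneq_three : MainIneq 3 potQ psi3 := by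
  refine ⟨mulG, mulG, 1 / 256, by norm_num, fun p hp => ⟨mulG_nonneg hp, mulG_nonneg hp⟩,
    fun s hs u hu => ?_⟩
  have h := nodeSum_le (by norm_num) scale_main ident_main bern_main hs hu
  have hn := Finset.sum_le_sum fun (σ : Equiv.Perm (Fin 3)) (_ : σ ∈ Finset.univ) =>
    node_main hs (mem_simplex_comp hu σ)
  rw [← Finset.mul_sum] at hn
  rw [mergeAvg_eq, card_three]
  have e : evalT restMain (invVec s u) = 1990656 *
      (potQ s + potQ u - mulG u * psi3 s - mulG s * psi3 u - 1 / 64 * (potQ s * potQ u)) := by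
    simp only [evalT, termVal, restMain, invVec, psi3_eq, mulG, potQ, List.map_cons, List.map_nil,
      List.sum_cons, List.sum_nil, Matrix.cons_val_zero, Matrix.cons_val_one, Matrix.cons_val]
    push_cast
    ring
  rw [e] at h
  have hgain : potQ s * potQ u * (potQ s + potQ u) ≤ 4 * (potQ s * potQ u) := by
    have h1 := potQ_le hs
    have h2 := potQ_le hu
    push_cast at h1 h2
    nlinarith [mul_nonneg (potQ_nonneg s) (potQ_nonneg u)]
  simp only [Function.comp] at hn h ⊢
  linarith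

/-- The certificate for three states. -/
theorem ferroCert_three : FerroCert 3 := by
  refine ⟨⟨1 / 4, 0, 0, 0, le_rfl, le_rfl, ?_, ?_, auxIneq_three, mainIneq_three⟩⟩ <;> norm_num

end Vale.Agent.P154.Aux3
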