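import Vale.Agent.P154.Aux3Defs

/-!
P154: data of the two certificates for three states.
-/

namespace Vale.Agent.P154.Aux3

/-- The part of the Main identity which is invariant. -/
noncomputable def restMain : List Kron.Term :=
  [(663552, 1, 0, 0, 0), (663552, 0, 0, 1, 0), (-531360, 0, 1, 1, 0),
   (14760, 2, 0, 1, 0), (8640, 0, 1, 2, 0), (-480, 2, 0, 2, 0),
   (233280, 0, 1, 1, 1), (-6480, 2, 0, 1, 1), (-531360, 1, 0, 0, 1),
   (14760, 1, 0, 2, 0), (8640, 2, 0, 0, 1), (233280, 1, 1, 0, 1),
   (-6480, 1, 1, 2, 0), (-3456, 1, 0, 1, 0)]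

/-- The part of the Main identity for one relabelling. -/
noncomputable def nodeMain : List Kron.Term :=
  [(221184, 1, 0, 0, 0), (-701568, 0, 1, 0, 0), (271872, 1, 1, 0, 0),
   (-45696, 2, 1, 0, 0), (2816, 3, 1, 0, 0)]

/-- The certified polynomial of the Main inequality. -/
noncomputable def polyMain : Bern.Poly where
  pks := [(0, 1), (1, 0), (1, 1), (2, 0)]
  rows :=
  [((0, 1), [-264, 102, 536, -384]),
   ((1, 0), [102, 160, 0, -219]),
   ((1, 1), [536, 0, -704, 348]),
   ((2, 0), [-384, -219, 348, 280])]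

/-- The data of the Main identity. -/
noncomputable def idMain : Aux3.IdData :=
  ⟨restMain, nodeMain, Aux3.scaleT 6 2 4 2 (Aux3.toTerms polyMain), 3⟩

/-- The degrees for the Main inequality. -/
noncomputable def cfgMain : Bern.Cfg := ⟨5, 4, 3, 4, 5, 256⟩

/-- The subdivision for the Main inequality. -/
noncomputable def covMain : Bern.Cover :=
  (.split 3 (.split 2 (.split 1 (.split 0 .leaf .leaf) (.split 0 .leaf .leaf)) (.split 1 (.split 0 .leaf .leaf) (.split 0 .leaf .leaf))) (.split 2 (.split 1 (.split 0 .leaf .leaf) (.split 0 .leaf .leaf)) (.split 1 (.split 0 .leaf .leaf) (.split 0 .leaf .leaf))))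

/-- The layout for the Main identity. -/
noncomputable def layMain : Kron.Lay := ⟨40, 6, 6, 6, 6⟩

/-- The part of the Aux identity which is invariant. -/
noncomputable def restAux : List Kron.Term :=
  [(-2028908190892032, 0, 1, 0, 0), (56358560858112, 2, 0, 0, 0), (1014454095446016, 0, 1, 1, 0),
   (-28179280429056, 2, 0, 1, 0), (-4057816381784064, 0, 1, 0, 1), (56358560858112, 2, 0, 0, 1),
   (-2028908190892032, 0, 0, 0, 1), (56358560858112, 0, 0, 2, 0), (1014454095446016, 1, 0, 0, 1),
   (-28179280429056, 1, 0, 2, 0), (56358560858112, 0, 1, 2, 0)]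

/-- The part of the Aux identity for one relabelling. -/
noncomputable def nodeAux : List Kron.Term :=
  [(-2373074569986048, 3, 0, 0, 0), (2792289488486400, 4, 0, 0, 0), (-1579399879458816, 5, 0, 0, 0),
   (531378757287936, 6, 0, 0, 0), (-113544756854784, 7, 0, 0, 0), (15583600558080, 8, 0, 0, 0),
   (-1332255522816, 9, 0, 0, 0), (64605536256, 10, 0, 0, 0), (-1357447168, 11, 0, 0, 0),
   (9685791978061824, 1, 1, 0, 0), (-10476104952250368, 2, 1, 0, 0), (6031072969408512, 3, 1, 0, 0),
   (-2082532299079680, 4, 1, 0, 0), (450366126243840, 5, 1, 0, 0), (-61051588116480, 6, 1, 0, 0),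
   (4991257018368, 7, 1, 0, 0), (-222229905408, 8, 1, 0, 0), (4072341504, 9, 1, 0, 0),
   (-7119223709958144, 0, 0, 1, 0), (8376868465459200, 1, 0, 1, 0), (-4738199638376448, 2, 0, 1, 0),
   (1594136271863808, 3, 0, 1, 0), (-340634270564352, 4, 0, 1, 0), (46750801674240, 5, 0, 1, 0),
   (-3996766568448, 6, 0, 1, 0), (193816608768, 7, 0, 1, 0), (-4072341504, 8, 0, 1, 0),
   (901736973729792, 1, 0, 0, 0), (-3283913718743040, 0, 1, 0, 0), (1071342967062528, 0, 2, 0, 0),
   (-1071587590815744, 1, 2, 0, 0), (464234678894592, 2, 2, 0, 0), (-108686509129728, 3, 2, 0, 0),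
   (14300786442240, 4, 2, 0, 0), (-994490449920, 5, 2, 0, 0), (28413296640, 6, 2, 0, 0)]

/-- The certified polynomial of the Aux inequality. -/
noncomputable def polyAux : Bern.Poly where
  pks := [(0, 1), (0, 2), (0, 3), (1, 0), (1, 1), (1, 2), (1, 3), (2, 0), (2, 1), (2, 2), (3, 0), (3, 1), (4, 0), (4, 1), (5, 0)]
  rows :=
  [((0, 1), [-826409, -8355184, 0, -5242880, -44375, 0, 0, 17268649, 8468087, 0, -12211200, 0, 0, 0, 0]),
   ((0, 2), [-8355184, 21945556, 17231768, 0, 63376470, -70621116, 0, -12211200, -45457678, -2312280, 14544386, 4487716, 20756048, 0, 1156140]),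
   ((0, 3), [0, 17231768, -87519264, 0, 0, 64185304, 11930688, 0, 13103600, -45573480, -8615884, 69630772, -32092652, -8948016, 22786740]),
   ((1, 0), [-5242880, 0, 0, 3500295, 12579568, 0, 0, -3173567, 0, 0, -6105600, 0, 0, 0, 0]),
   ((1, 1), [-44375, 63376470, 0, 12579568, -43742749, -68917220, 0, -71952717, 78117264, 0, 96063699, 16379500, -43663530, 0, 0]),
   ((1, 2), [0, -70621116, 64185304, 0, -68917220, 308500468, 5302528, 0, -30901212, -199496832, -22907482, 140958180, -128540434, -2651264, 92811576]),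
   ((1, 3), [0, 0, 11930688, 0, 0, 5302528, 22535744, 0, 0, 37780512, 0, -8948016, -2651264, -14250544, -18890256]),
   ((2, 0), [17268649, -12211200, 0, -3173567, -71952717, 0, 0, 3786361, 79245198, 0, -3505437, 0, -21831765, 0, 0]),
   ((2, 1), [8468087, -45457678, 13103600, 0, 78117264, -30901212, 0, 79245198, -510661953, -41240334, -151733997, 433685877, -85437624, 0, -10405260]),
   ((2, 2), [0, -2312280, -45573480, 0, 0, -199496832, 37780512, 0, -41240334, 126847308, 1156140, -216607968, 82406316, 21375816, -90790308]),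
   ((3, 0), [-12211200, 14544386, -8615884, -6105600, 96063699, -22907482, 0, -3505437, -151733997, 1156140, 258902254, 106353562, -245148854, 0, -6358770]),
   ((3, 1), [0, 4487716, 69630772, 0, 16379500, 140958180, -8948016, 0, 433685877, -216607968, 106353562, -457299048, 355436210, 69347124, -187002495]),
   ((4, 0), [0, 20756048, -32092652, 0, -43663530, -128540434, -2651264, -21831765, -85437624, 82406316, -245148854, 355436210, 510614962, 7125272, -268940973]),
   ((4, 1), [0, 0, -8948016, 0, 0, -2651264, -14250544, 0, 0, 21375816, 0, 69347124, 7125272, 83597668, 65867340]),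
   ((5, 0), [0, 1156140, 22786740, 0, 0, 92811576, -18890256, 0, -10405260, -90790308, -6358770, -187002495, -268940973, 65867340, 105956667])]

/-- The data of the Aux identity. -/
noncomputable def idAux : Aux3.IdData :=
  ⟨restAux, nodeAux, Aux3.scaleT 6 2 10 6 (Aux3.toTerms polyAux), 1⟩

/-- The degrees for the Aux inequality. -/
noncomputable def cfgAux : Bern.Cfg := ⟨11, 10, 9, 10, 11, 256⟩

/-- The subdivision for the Aux inequality. -/
noncomputable def covAux : Bern.Cover :=
  (.split 0 (.split 1 (.split 2 .leaf .leaf) .leaf) (.split 1 (.split 2 .leaf (.split 3 (.split 0 .leaf (.split 1 (.split 2 .leaf .leaf) .leaf)) .leaf)) .leaf))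

/-- The layout for the Aux identity. -/
noncomputable def layAux : Kron.Lay := ⟨93, 12, 12, 12, 12⟩

end Vale.Agent.P154.Aux3
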