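import Vale.Agent.P154.Aux4CertISide
import Vale.Agent.P154.Aux4CertIPart0
import Vale.Agent.P154.Aux4CertIPart1
import Vale.Agent.P154.Aux4CertIPart2
import Vale.Agent.P154.Aux4CertIPart3

/-!
P154: assembly of the computations for the inductive inequality with four states.
-/

namespace Vale.Agent.P154.Aux4.CertI

theorem terms_ok : termsOK 15 terms = true := by decide +kernel

theorem mk_edge : edgeZero (mk 15 terms) = true := by decide +kernel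

theorem mk_eq : (mk 15 terms).tail.map List.tail = mat := by decide +kernel

theorem cov_ok : covOK (pSide ⟨mons15.tail, 6, 8, 2⟩) (pSide ⟨mons15.tail, 6, 8, 2⟩) 190
    mat mat cov (pSide ⟨mons15.tail, 6, 8, 2⟩).root (pSide ⟨mons15.tail, 6, 8, 2⟩).root = true := by
  obtain ⟨h0_0, h0_1, h0_2, h0_3, h0_4⟩ := part0_ok
  obtain ⟨h1_0, h1_1, h1_2, h1_3, h1_4⟩ := part1_ok
  obtain ⟨h2_0, h2_1, h2_2, h2_3, h2_4⟩ := part2_ok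
  obtain ⟨h3_0, h3_1, h3_2, h3_3, h3_4, h3_5⟩ := part3_ok
  simp only [covOK, cov, Bool.and_eq_true] at *
  exact ⟨⟨⟨h0_0, ⟨h0_1, h0_2⟩⟩, ⟨⟨h0_3, h0_4⟩, ⟨h1_0, h1_1⟩⟩⟩, ⟨⟨⟨h1_2, h1_3⟩, ⟨h1_4, h2_0⟩⟩, ⟨⟨h2_1, h2_2⟩, ⟨h2_3, ⟨⟨⟨h2_4, h3_0⟩, ⟨⟨h3_1, h3_2⟩, h3_3⟩⟩, ⟨h3_4, h3_5⟩⟩⟩⟩⟩⟩

end Vale.Agent.P154.Aux4.CertI
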