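import Vale.Agent.P154.Aux4DataII

/-!
P154: part 3 of the computation for the main inequality with four states, one cell pair at a time.
-/

namespace Vale.Agent.P154.Aux4.CertII

theorem part3_ok :
    covOK (pSide ⟨mons15.tail, 6, 8, 2⟩) (pSide ⟨mons15.tail, 6, 8, 2⟩) 160 mat mat' (.leaf false)
      (pcut 0 (pcut 3 (pcut 0 (pSide ⟨mons15.tail, 6, 8, 2⟩).root).2).2).1
      (pcut 3 (pcut 0 (pSide ⟨mons15.tail, 6, 8, 2⟩).root).2).1 = true ∧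
    covOK (pSide ⟨mons15.tail, 6, 8, 2⟩) (pSide ⟨mons15.tail, 6, 8, 2⟩) 160 mat mat' (.leaf false)
      (pcut 0 (pcut 3 (pcut 0 (pSide ⟨mons15.tail, 6, 8, 2⟩).root).2).2).2
      (pcut 3 (pcut 0 (pSide ⟨mons15.tail, 6, 8, 2⟩).root).2).1 = true ∧
    covOK (pSide ⟨mons15.tail, 6, 8, 2⟩) (pSide ⟨mons15.tail, 6, 8, 2⟩) 160 mat mat' (.leaf false)
      (pcut 3 (pcut 0 (pSide ⟨mons15.tail, 6, 8, 2⟩).root).2).1
      (pcut 0 (pcut 3 (pcut 0 (pSide ⟨mons15.tail, 6, 8, 2⟩).root).2).2).1 = true ∧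
    covOK (pSide ⟨mons15.tail, 6, 8, 2⟩) (pSide ⟨mons15.tail, 6, 8, 2⟩) 160 mat mat' (.leaf false)
      (pcut 3 (pcut 0 (pSide ⟨mons15.tail, 6, 8, 2⟩).root).2).1
      (pcut 0 (pcut 3 (pcut 0 (pSide ⟨mons15.tail, 6, 8, 2⟩).root).2).2).2 = true ∧
    covOK (pSide ⟨mons15.tail, 6, 8, 2⟩) (pSide ⟨mons15.tail, 6, 8, 2⟩) 160 mat mat' (.leaf false)
      (pcut 3 (pcut 0 (pSide ⟨mons15.tail, 6, 8, 2⟩).root).2).2
      (pcut 3 (pcut 0 (pSide ⟨mons15.tail, 6, 8, 2⟩).root).2).2 = true :=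
  ⟨by decide +kernel, by decide +kernel, by decide +kernel, by decide +kernel, by decide +kernel⟩

end Vale.Agent.P154.Aux4.CertII
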