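import Vale.Agent.P154.AuxFinal
import Vale.Agent.P154.Aux4CertI
import Vale.Agent.P154.Aux4CertII

/-!
P154: the two merge inequalities for four states, with the auxiliary functional
`T - (23/32) Q ^ 2 + (15/128) Q T - F / 64`.
-/

namespace Vale.Agent.P154.Aux4

open scoped BigOperators
open Kron Lst

/-- The monomials of weight at most eight. -/
abbrev mons15 : List Mono := CertI.mons15

/-- The monomials of the slack. -/
abbrev mons6 : List Mono := [(0, 0, 0), (1, 0, 0), (0, 1, 0), (0, 0, 1), (2, 0, 0), (1, 1, 0)]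

/-- The monomials of weight at most six. -/
abbrev mons9 : List Mono :=
  [(0, 0, 0), (1, 0, 0), (0, 1, 0), (0, 0, 1), (2, 0, 0), (1, 1, 0), (0, 2, 0), (1, 0, 1),
   (3, 0, 0)]

/-- The values of monomials at a point. -/
noncomputable def phi (M : List Mono) (p : Fin 4 → ℝ) : List ℝ :=
  monVals M (cS 2 p) (cS 3 p) (cS 4 p)

lemma cmom_eq (k : ℕ) (p : Fin 4 → ℝ) : cmom k p = cS k p / 4 := by
  simp only [cmom, cS, Fin.sum_univ_four]
  push_cast
  ring

lemma total {p : Fin 4 → ℝ} (hp : p ∈ stdSimplex ℝ (Fin 4)) : p 0 + p 1 + p 2 + p 3 = 1 := by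
  simpa [Fin.sum_univ_four] using hp.2

/-- Every point of the simplex is a point of the ordered chamber, up to relabelling. -/
lemma exists_point {p : Fin 4 → ℝ} (hp : p ∈ stdSimplex ℝ (Fin 4)) :
    ∃ x : PX, (∀ g, PMem (pSide g).root x) ∧ 0 ≤ x.rho ∧ ∀ k, 1 ≤ k →
      cS k p = x.rho ^ k * x.ps k := by
  set σ := Tuple.sort p with hσ
  have hm : Monotone (p ∘ σ) := Tuple.monotone_sort p
  obtain ⟨a, ha⟩ : ∃ a, a = p (σ 0) := ⟨_, rfl⟩
  obtain ⟨b, hb⟩ : ∃ b, b = p (σ 1) := ⟨_, rfl⟩
  obtain ⟨c, hc⟩ : ∃ c, c = p (σ 2) := ⟨_, rfl⟩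
  obtain ⟨d, hd⟩ : ∃ d, d = p (σ 3) := ⟨_, rfl⟩
  have hab : a ≤ b := ha ▸ hb ▸ hm (show (0 : Fin 4) ≤ 1 by decide)
  have hbc : b ≤ c := hb ▸ hc ▸ hm (show (1 : Fin 4) ≤ 2 by decide)
  have hcd : c ≤ d := hc ▸ hd ▸ hm (show (2 : Fin 4) ≤ 3 by decide)
  have h0 : 0 ≤ a := ha ▸ hp.1 _
  have hsum : a + b + c + d = 1 := by
    have := (Equiv.sum_comp σ p).trans hp.2
    simpa [Fin.sum_univ_four, ← ha, ← hb, ← hc, ← hd] using this
  have hS : ∀ k, cS k p = (4 * d - 1) ^ k + (4 * c - 1) ^ k + ((4 * b - 1) ^ k + (4 * a - 1) ^ k) := by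
    intro k
    have := Equiv.sum_comp σ fun i => (4 * p i - 1) ^ k
    simp only [Fin.sum_univ_four, ← ha, ← hb, ← hc, ← hd] at this
    simp only [cS]
    linarith
  have root : ∀ r u v w : ℝ, 0 ≤ r → r ≤ 1 → 0 ≤ u → 0 ≤ v → 0 ≤ w → u + v + w = 1 →
      ∀ g, PMem (pSide g).root ⟨r, u, v, w⟩ := by
    intro r u v w r0 r1 hu hv hw hs g
    refine ⟨(zero_lt_one : (0 : ℤ) < 1), ?_, u, v, w, hu, hv, hw, hs, ?_, ?_, ?_⟩ <;>
      simp [pSide, Bern.Ax.Mem, r0, r1]
  rcases (show 0 ≤ 1 - 4 * a by linarith).eq_or_lt with h | h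
  · refine ⟨⟨0, 1, 0, 0⟩, root 0 1 0 0 le_rfl zero_le_one zero_le_one le_rfl le_rfl (by norm_num),
      le_rfl, fun k hk => ?_⟩
    have e : a = 1 / 4 ∧ b = 1 / 4 ∧ c = 1 / 4 ∧ d = 1 / 4 :=
      ⟨by linarith, by linarith, by linarith, by linarith⟩
    obtain ⟨e1, e2, e3, e4⟩ := e
    have hk0 : k ≠ 0 := by omega
    rw [hS, e1, e2, e3, e4]
    norm_num [zero_pow hk0]
  · refine ⟨⟨1 - 4 * a, (d - c) / (1 - 4 * a), 2 * (c - b) / (1 - 4 * a),
      3 * (b - a) / (1 - 4 * a)⟩, root _ _ _ _ h.le (by linarith)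
        (div_nonneg (by linarith) h.le) (div_nonneg (by linarith) h.le)
        (div_nonneg (by linarith) h.le) ?_, h.le, fun k _ => ?_⟩
    · rw [← add_div, ← add_div, div_eq_one_iff_eq h.ne']
      linarith
    · have e : ∀ i, (1 - 4 * a) * PX.dir ⟨1 - 4 * a, (d - c) / (1 - 4 * a),
          2 * (c - b) / (1 - 4 * a), 3 * (b - a) / (1 - 4 * a)⟩ i =
          ((d - c) * (corner i).1 + 2 * (c - b) * (corner i).2.1
            + 3 * (b - a) * (corner i).2.2) / 3 := by
        intro i
        simp only [PX.dir]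
        field_simp
      rw [hS, PX.ps, mul_add, mul_add, mul_add, ← mul_pow, ← mul_pow, ← mul_pow, ← mul_pow,
        e 0, e 1, e 2, e 3]
      simp only [corner, Matrix.cons_val_zero, Matrix.cons_val_one, Matrix.cons_val]
      push_cast
      rw [show 4 * d - 1 = ((d - c) * 9 + 2 * (c - b) * 3 + 3 * (b - a) * 1) / 3 by linarith,
        show 4 * c - 1 = ((d - c) * (-3) + 2 * (c - b) * 3 + 3 * (b - a) * 1) / 3 by linarith,
        show 4 * b - 1 = ((d - c) * (-3) + 2 * (c - b) * (-3) + 3 * (b - a) * 1) / 3 by linarith,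
        show 4 * a - 1 = ((d - c) * (-3) + 2 * (c - b) * (-3) + 3 * (b - a) * (-3)) / 3 by
          linarith]
      ring

/-- The values of monomials through radial and angular coordinates. -/
lemma phi_eq (g : PCfg) (hg : g.ok = true) {p : Fin 4 → ℝ} {x : PX}
    (hx : ∀ k, 1 ≤ k → cS k p = x.rho ^ k * x.ps k) :
    phi g.mons p = (pval g x).map (x.rho ^ g.sh * ·) := by
  simp only [PCfg.ok, List.all_eq_true, Bool.and_eq_true, decide_eq_true_eq] at hg
  simp only [phi, monVals, pval, List.map_map]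
  refine List.map_congr_left fun e he => ?_
  obtain ⟨r, hr⟩ : ∃ r, wt e = g.sh + r := ⟨wt e - g.sh, by have := (hg e he).1.1; omega⟩
  simp only [Function.comp, hx 2 (by omega), hx 3 (by omega), hx 4 (by omega),
    show wt e - g.sh = r by omega, mul_pow, ← pow_mul]
  rw [← mul_assoc (x.rho ^ g.sh), ← pow_add, ← hr, wt, pow_add, pow_add]
  ring

/-- The configuration of the certified matrix. -/
abbrev cfgMat : PCfg := ⟨mons15.tail, 6, 8, 2⟩

/-- A checked matrix is nonnegative on the simplex. -/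
lemma mat_nonneg {w : ℕ} {C0 C1 : List (List ℤ)} {cv : Cov}
    (h : covOK (pSide cfgMat) (pSide cfgMat) w C0 C1 cv (pSide cfgMat).root (pSide cfgMat).root =
      true)
    {s u : Fin 4 → ℝ} (hs : s ∈ stdSimplex ℝ (Fin 4)) (hu : u ∈ stdSimplex ℝ (Fin 4)) :
    0 ≤ bil C0 (phi mons15.tail s) (phi mons15.tail u) ∨
      0 ≤ bil C1 (phi mons15.tail s) (phi mons15.tail u) := by
  obtain ⟨x, x1, x2, x3⟩ := exists_point hs
  obtain ⟨y, y1, y2, y3⟩ := exists_point hu
  have hok : cfgMat.ok = true := by decide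
  have := covOK_sound (pSide_ok _ hok) (pSide_ok _ hok) w C0 C1 cv _ _ h x y (x1 _) (y1 _)
  rw [show mons15.tail = cfgMat.mons from rfl, phi_eq _ hok x3, phi_eq _ hok y3, bil_smul,
    bil_smul]
  rcases this with h | h
  · exact Or.inl (mul_nonneg (by positivity) h)
  · exact Or.inr (mul_nonneg (by positivity) h)

/-- A checked multiplier is nonnegative on the simplex. -/
lemma mult_nonneg {w : ℕ} {l : List ℤ} {cv : Cov}
    (h : covOK oneSide (pSide ⟨mons9, 6, 6, 0⟩) w [l] [l] cv oneSide.root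
      (pSide ⟨mons9, 6, 6, 0⟩).root = true)
    {p : Fin 4 → ℝ} (hp : p ∈ stdSimplex ℝ (Fin 4)) : 0 ≤ dot l (phi mons9 p) := by
  obtain ⟨y, y1, y2, y3⟩ := exists_point hp
  have hok : (PCfg.mk mons9 6 6 0).ok = true := by decide
  have := covOK_sound oneSide_ok (pSide_ok _ hok) w _ _ cv _ _ h () y trivial (y1 _)
  rw [show mons9 = (PCfg.mk mons9 6 6 0).mons from rfl, phi_eq _ hok y3, dot_map]
  simp only [bil, or_self, one_mul, add_zero] at this
  exact mul_nonneg (by positivity) this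

/-- A checked slack is nonnegative. -/
lemma slack_nonneg {w : ℕ} {C : List (List ℤ)} {cv : Cov}
    (h : covOK (wSide (-1) 3 5) (pSide ⟨mons6, 5, 5, 0⟩) w C C cv (wSide (-1) 3 5).root
      (pSide ⟨mons6, 5, 5, 0⟩).root = true)
    {x : ℝ} (hx0 : -1 ≤ x) (hx1 : x ≤ 3) {p : Fin 4 → ℝ} (hp : p ∈ stdSimplex ℝ (Fin 4)) :
    0 ≤ bil C ((List.range 6).map fun k => x ^ k) (phi mons6 p) := by
  obtain ⟨y, y1, y2, y3⟩ := exists_point hp
  have hok : (PCfg.mk mons6 5 5 0).ok = true := by decide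
  have := covOK_sound (wSide_ok _ _ _) (pSide_ok _ hok) w C C cv _ _ h x y
    ⟨(by norm_num : (-1 : ℤ) < 3), by simp [wSide, Bern.Ax.Mem, hx0, hx1]⟩ (y1 _)
  rw [show mons6 = (PCfg.mk mons6 5 5 0).mons from rfl, phi_eq _ hok y3]
  simpa [pow_zero] using this

/-- The scaled product of two points. -/
def prodV (s u : Fin 4 → ℝ) : Fin 4 → ℝ := fun i => 16 * (s i * u i)

/-- Variables of one relabelling through the normalised product. -/
lemma node_point {s u : Fin 4 → ℝ} (hs : s ∈ stdSimplex ℝ (Fin 4))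
    (hu : u ∈ stdSimplex ℝ (Fin 4)) :
    (mergePow 1 s u = 0 ∧ nodeVars rOps (prodV s u) = ![0, 0, 0, 0]) ∨
    (0 < mergePow 1 s u ∧ mergePow 1 s u ≤ 4 ∧
      (fun i => s i * u i / ∑ j, s j * u j) ∈ stdSimplex ℝ (Fin 4) ∧
      nodeVars rOps (prodV s u) = ![4 * mergePow 1 s u,
        (4 * mergePow 1 s u) ^ 2 * cS 2 (fun i => s i * u i / ∑ j, s j * u j),
        (4 * mergePow 1 s u) ^ 3 * cS 3 (fun i => s i * u i / ∑ j, s j * u j),
        (4 * mergePow 1 s u) ^ 4 * cS 4 (fun i => s i * u i / ∑ j, s j * u j)]) := by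
  have hn : ∀ i, 0 ≤ s i * u i := fun i => mul_nonneg (hs.1 i) (hu.1 i)
  have hZ : mergePow 1 s u = 4 * ∑ j, s j * u j := by
    simp only [mergePow, Fin.sum_univ_four]
    push_cast
    ring
  have hle : ∑ j, s j * u j ≤ 1 := by
    refine (Finset.sum_le_sum fun j _ => ?_).trans_eq hs.2
    exact mul_le_of_le_one_right (hs.1 j)
      (hu.2 ▸ Finset.single_le_sum (fun i _ => hu.1 i) (Finset.mem_univ j))
  have e4 : ∀ k : ℕ → ℝ, nodeVars rOps (prodV s u) = ![16 * ∑ j, s j * u j,
      k 2, k 3, k 4] ↔ (∀ m : ℕ, m = 2 ∨ m = 3 ∨ m = 4 →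
        pw4 rOps (ctrMean rOps (prodV s u)) m = k m) := by
    intro k
    have hp : sum4 rOps (prodV s u) = 16 * ∑ j, s j * u j := by
      simp only [sum4, rOps, prodV, Fin.sum_univ_four]
      ring
    constructor
    · intro h m hm
      rcases hm with rfl | rfl | rfl
      · exact congrFun h 1
      · exact congrFun h 2
      · exact congrFun h 3
    · intro h
      simp only [nodeVars, hp, h 2 (by simp), h 3 (by simp), h 4 (by simp)]
  have hpw : ∀ m, pw4 rOps (ctrMean rOps (prodV s u)) m =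
      (4 * (16 * (s 0 * u 0)) - 16 * ∑ j, s j * u j) ^ m
        + (4 * (16 * (s 1 * u 1)) - 16 * ∑ j, s j * u j) ^ m
        + ((4 * (16 * (s 2 * u 2)) - 16 * ∑ j, s j * u j) ^ m
          + (4 * (16 * (s 3 * u 3)) - 16 * ∑ j, s j * u j) ^ m) := by
    intro m
    simp only [pw4, sum4, ctrMean, Aux3.powO_r]
    simp only [rOps, prodV, Fin.sum_univ_four]
    push_cast
    ring
  rcases (Finset.sum_nonneg fun i (_ : i ∈ Finset.univ) => hn i).eq_or_lt with h | h
  · refine Or.inl ⟨by rw [hZ, ← h]; ring, ?_⟩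
    have h0 : ∀ i, s i * u i = 0 := fun i =>
      (Finset.sum_eq_zero_iff_of_nonneg fun j _ => hn j).mp h.symm i (Finset.mem_univ i)
    have := (e4 fun _ => 0).2 fun m hm => by
      rw [hpw, h0, h0, h0, h0, ← h]
      rcases hm with rfl | rfl | rfl <;> norm_num
    rw [this, ← h]
    norm_num
  · refine Or.inr ⟨by linarith, by linarith, ⟨fun i => div_nonneg (hn i) h.le,
      by rw [← Finset.sum_div, div_self h.ne']⟩, ?_⟩
    rw [show 4 * mergePow 1 s u = 16 * ∑ j, s j * u j by rw [hZ]; ring]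
    refine (e4 fun m => (16 * ∑ j, s j * u j) ^ m * cS m (fun i => s i * u i / ∑ j, s j * u j)).2
      fun m _ => ?_
    rw [hpw, cS, mul_add, mul_add, mul_add, ← mul_pow, ← mul_pow, ← mul_pow, ← mul_pow]
    have e : ∀ i, 4 * (16 * (s i * u i)) - 16 * ∑ j, s j * u j =
        16 * (∑ j, s j * u j) * (4 * (s i * u i / ∑ j, s j * u j) - 1) := by
      intro i
      field_simp
    rw [e, e, e, e]

/-- The auxiliary functional. -/
noncomputable def psi4 : (Fin 4 → ℝ) → ℝ := psiOf (23 / 32) 0 (15 / 128) (-(1 / 64))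

/-- One relabelling in the inductive inequality. -/
lemma node_aux {s u : Fin 4 → ℝ} (hs : s ∈ stdSimplex ℝ (Fin 4))
    (hu : u ∈ stdSimplex ℝ (Fin 4)) :
    evalT CertI.node (nodeVars rOps (prodV s u)) ≤
      34359738368 * (mergePow 1 s u * psi4 (fun i => s i * u i / ∑ j, s j * u j)) := by
  rcases node_point hs hu with ⟨h0, hv⟩ | ⟨h0, h4, hq, hv⟩
  · rw [h0, hv]
    simp [evalT, termVal, CertI.node]
  · have hS := slack_nonneg CertI.slack_ok (x := mergePow 1 s u - 1) (by linarith) (by linarith) hq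
    rw [hv]
    have key : 34359738368 * (mergePow 1 s u * psi4 (fun i => s i * u i / ∑ j, s j * u j)) =
        evalT CertI.node ![4 * mergePow 1 s u,
          (4 * mergePow 1 s u) ^ 2 * cS 2 (fun i => s i * u i / ∑ j, s j * u j),
          (4 * mergePow 1 s u) ^ 3 * cS 3 (fun i => s i * u i / ∑ j, s j * u j),
          (4 * mergePow 1 s u) ^ 4 * cS 4 (fun i => s i * u i / ∑ j, s j * u j)]
        + 32768 * mergePow 1 s u * (mergePow 1 s u - 1) ^ 2 *
          bil CertI.slack ((List.range 6).map fun k => (mergePow 1 s u - 1) ^ k)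
            (phi mons6 (fun i => s i * u i / ∑ j, s j * u j)) := by
      simp only [evalT, termVal, CertI.node, CertI.slack, psi4, psiOf, cmom_eq, phi, monVals, bil,
        dot, List.range_succ, List.range_zero, List.nil_append, List.cons_append, List.map_cons,
        List.map_nil, List.sum_cons, List.sum_nil, Matrix.cons_val_zero, Matrix.cons_val_one,
        Matrix.cons_val]
      push_cast
      ring
    rw [key]
    have : 0 ≤ 32768 * mergePow 1 s u * (mergePow 1 s u - 1) ^ 2 := by positivity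
    nlinarith [mul_nonneg this hS]

/-- One relabelling in the main inequality. -/
lemma node_main {s u : Fin 4 → ℝ} (hs : s ∈ stdSimplex ℝ (Fin 4))
    (hu : u ∈ stdSimplex ℝ (Fin 4)) :
    34359738368 * (mergePow 1 s u * potQ (fun i => s i * u i / ∑ j, s j * u j)) ≤
      -evalT CertII.node (nodeVars rOps (prodV s u)) := by
  rcases node_point hs hu with ⟨h0, hv⟩ | ⟨h0, h4, hq, hv⟩
  · rw [h0, hv]
    simp [evalT, termVal, CertII.node]
  · have hS := slack_nonneg CertII.slack_ok (x := mergePow 1 s u - 1) (by linarith) (by linarith) hq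
    rw [hv]
    have key : -(34359738368 * (mergePow 1 s u * potQ (fun i => s i * u i / ∑ j, s j * u j))) =
        evalT CertII.node ![4 * mergePow 1 s u,
          (4 * mergePow 1 s u) ^ 2 * cS 2 (fun i => s i * u i / ∑ j, s j * u j),
          (4 * mergePow 1 s u) ^ 3 * cS 3 (fun i => s i * u i / ∑ j, s j * u j),
          (4 * mergePow 1 s u) ^ 4 * cS 4 (fun i => s i * u i / ∑ j, s j * u j)]
        + 32768 * mergePow 1 s u * (mergePow 1 s u - 1) ^ 2 *
          bil CertII.slack ((List.range 6).map fun k => (mergePow 1 s u - 1) ^ k)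
            (phi mons6 (fun i => s i * u i / ∑ j, s j * u j)) := by
      simp only [evalT, termVal, CertII.node, CertII.slack, potQ, cmom_eq, phi, monVals, bil,
        dot, List.range_succ, List.range_zero, List.nil_append, List.cons_append, List.map_cons,
        List.map_nil, List.sum_cons, List.sum_nil, Matrix.cons_val_zero, Matrix.cons_val_one,
        Matrix.cons_val]
      push_cast
      ring
    have : 0 ≤ 32768 * mergePow 1 s u * (mergePow 1 s u - 1) ^ 2 := by positivity
    nlinarith [mul_nonneg this hS]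

lemma mem_simplex_comp {p : Fin 4 → ℝ} (hp : p ∈ stdSimplex ℝ (Fin 4))
    (σ : Equiv.Perm (Fin 4)) : p ∘ σ ∈ stdSimplex ℝ (Fin 4) :=
  ⟨fun i => hp.1 (σ i), by simpa [Function.comp] using (Equiv.sum_comp σ p).trans hp.2⟩

/-- The sum over relabellings as a bilinear expression. -/
lemma sum_node {L1 L2 : Lay} {R : List Term} {sym : List (ℤ × Expo × List ℤ)}
    (h1 : zeroOK L1 (nodeId kOps R 3 (sym.map fun e => (e.1, e.2.1)) L1.var) = true)
    (h2 : sym.all (fun e => zeroOK L2 (rowId kOps mons15 72 e.2.1 e.2.2 L2.var)) = true)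
    {s u : Fin 4 → ℝ} (hs : s ∈ stdSimplex ℝ (Fin 4)) (hu : u ∈ stdSimplex ℝ (Fin 4)) :
    (sym.map fun e => (e.1 : ℝ) * dot e.2.2 (phi mons15 s) * dot e.2.2 (phi mons15 u)).sum =
      15552 * ∑ σ : Equiv.Perm (Fin 4), evalT R (nodeVars rOps (prodV s (u ∘ σ))) := by
  simp only [List.all_eq_true] at h2
  have hsum := fun σ : Equiv.Perm (Fin 4) => node_expand h1 (prodV s (u ∘ σ))
  have e : ∑ σ : Equiv.Perm (Fin 4), (3 : ℝ) * evalT R (nodeVars rOps (prodV s (u ∘ σ))) =
      (sym.map fun e => (e.1 : ℝ) * (symR e.2.1 (fun i => 4 * s i) *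
        symR e.2.1 (fun i => 4 * u i))).sum := by
    simp only [Int.cast_ofNat] at hsum
    simp only [hsum, List.map_map]
    have hv : ∀ σ : Equiv.Perm (Fin 4), prodV s (u ∘ σ) = fun i => 4 * s i * (4 * u (σ i)) := by
      intro σ
      funext i
      simp only [prodV, Function.comp]
      ring
    simp only [hv]
    clear h1 h2 hsum hv
    induction sym with
    | nil => simp
    | cons e l ih =>
        simp only [List.map_cons, List.sum_cons, Finset.sum_add_distrib, Function.comp, ih]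
        rw [← Finset.mul_sum, symR_mul e.2.1 (fun i => 4 * s i) (fun i => 4 * u i)]
  rw [← Finset.mul_sum] at e
  have e2 : (sym.map fun e => (e.1 : ℝ) * dot e.2.2 (phi mons15 s) * dot e.2.2 (phi mons15 u)) =
      sym.map fun e => 5184 * ((e.1 : ℝ) * (symR e.2.1 (fun i => 4 * s i) *
        symR e.2.1 (fun i => 4 * u i))) := by
    refine List.map_congr_left fun a ha => ?_
    have r1 := row_expand (h2 a ha) (total hs)
    have r2 := row_expand (h2 a ha) (total hu)
    simp only [phi]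
    rw [← r1, ← r2]
    push_cast
    ring
  rw [e2, List.sum_map_mul_left, ← e]
  ring

/-- The certified bilinear expression. -/
lemma bil_terms {T : List BTerm} {C : List (List ℤ)} (hT : termsOK 15 T = true)
    (he : edgeZero (mk 15 T) = true) (hC : (mk 15 T).tail.map List.tail = C) (s u : Fin 4 → ℝ) :
    bil C (phi mons15.tail s) (phi mons15.tail u) =
      (T.map fun t => (t.1 : ℝ) * dot t.2.1 (phi mons15 s) * dot t.2.2 (phi mons15 u)).sum := by
  rw [← (mk_spec 15 (phi mons15 s) (phi mons15 u) (by simp [phi, monVals, CertI.mons15]) T hT).2.2,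
    ← hC, show phi mons15 s = 1 :: phi mons15.tail s by simp [phi, monVals, CertI.mons15],
    show phi mons15 u = 1 :: phi mons15.tail u by simp [phi, monVals, CertI.mons15],
    bil_drop he]

lemma card_four : (Fintype.card (Equiv.Perm (Fin 4)) : ℝ) = 24 := by
  simp [Fintype.card_perm, Nat.factorial]

/-- The multiplier of the inductive inequality. -/
noncomputable def mulA (p : Fin 4 → ℝ) : ℝ := dot CertI.mult (phi mons9 p) / 4194304

/-- The multiplier of the main inequality. -/
noncomputable def mulG (p : Fin 4 → ℝ) : ℝ :=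
  potQ p * (dot CertII.mult (phi mons9 p) / 12582912)

/-- The inductive inequality. -/
theorem auxIneq_four : AuxIneq 4 psi4 := by
  refine ⟨mulA, mulA, 0, le_rfl, fun p hp => ?_, fun s hs u hu => ?_⟩
  · have := mult_nonneg CertI.mult_ok hp
    exact ⟨div_nonneg this (by norm_num), div_nonneg this (by norm_num)⟩
  have h : 0 ≤ bil CertI.mat (phi mons15.tail s) (phi mons15.tail u) := by
    rcases mat_nonneg CertI.cov_ok hs hu with h | h <;> exact h
  rw [bil_terms CertI.terms_ok CertI.mk_edge CertI.mk_eq, CertI.terms, List.map_append,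
    List.map_map, List.sum_append] at h
  have hsym : (CertI.sym.map ((fun t : BTerm => (t.1 : ℝ) * dot t.2.1 (phi mons15 s) *
      dot t.2.2 (phi mons15 u)) ∘ fun e => (1 * e.1, e.2.2, e.2.2))).sum =
      15552 * ∑ σ : Equiv.Perm (Fin 4), evalT CertI.node (nodeVars rOps (prodV s (u ∘ σ))) := by
    rw [← sum_node CertI.node_ok CertI.sym_ok hs hu]
    simp only [Function.comp_def, one_mul]
  rw [hsym] at h
  have hn := Finset.sum_le_sum fun (σ : Equiv.Perm (Fin 4)) (_ : σ ∈ Finset.univ) =>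
    node_aux hs (mem_simplex_comp hu σ)
  rw [← Finset.mul_sum] at hn
  rw [mergeAvg_eq, card_four]
  simp only [List.map_cons, List.map_nil, List.sum_cons, List.sum_nil, add_zero, dot, phi,
    monVals, CertI.mons15] at h
  simp only [mulA, CertI.mult, dot, phi, monVals, List.map_cons, List.map_nil]
  push_cast at h ⊢
  simp only [psi4, psiOf, cmom_eq, Function.comp] at hn h ⊢
  linear_combination (1 / 12824703626379264 : ℝ) * h + (1 / 824633720832 : ℝ) * hn

/-- The cubic invariants are dominated. -/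
lemma cubic_le {p : Fin 4 → ℝ} (hp : p ∈ stdSimplex ℝ (Fin 4)) :
    3 * cS 3 p ^ 2 ≤ cS 2 p ^ 3 := by
  obtain ⟨a, ha⟩ : ∃ a, a = p 0 + p 1 - 1 / 2 := ⟨_, rfl⟩
  obtain ⟨b, hb⟩ : ∃ b, b = p 0 + p 2 - 1 / 2 := ⟨_, rfl⟩
  obtain ⟨c, hc⟩ : ∃ c, c = p 0 + p 3 - 1 / 2 := ⟨_, rfl⟩
  have h := total hp
  have e : ∀ k, cS k p = (2 * (a + b + c)) ^ k + (2 * (a - b - c)) ^ k +
      ((2 * (-a + b - c)) ^ k + (2 * (-a - b + c)) ^ k) := by
    intro k
    simp only [cS]
    rw [show 4 * p 0 - 1 = 2 * (a + b + c) by linarith,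
      show 4 * p 1 - 1 = 2 * (a - b - c) by linarith,
      show 4 * p 2 - 1 = 2 * (-a + b - c) by linarith,
      show 4 * p 3 - 1 = 2 * (-a - b + c) by linarith]
  rw [e, e]
  have key : 27 * (a ^ 2 * b ^ 2 * c ^ 2) ≤ (a ^ 2 + b ^ 2 + c ^ 2) ^ 3 := by
    have x := sq_nonneg a
    have y := sq_nonneg b
    have z := sq_nonneg c
    generalize a ^ 2 = A at *
    generalize b ^ 2 = B at *
    generalize c ^ 2 = C at *
    nlinarith [mul_nonneg x (sq_nonneg (B - C)), mul_nonneg y (sq_nonneg (A - C)),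
      mul_nonneg z (sq_nonneg (A - B)),
      mul_nonneg (add_nonneg (add_nonneg x y) z) (sq_nonneg (A - B)),
      mul_nonneg (add_nonneg (add_nonneg x y) z) (sq_nonneg (B - C)),
      mul_nonneg (add_nonneg (add_nonneg x y) z) (sq_nonneg (A - C))]
  linear_combination 4096 * key

/-- The cross term of the cubic invariants is absorbed. -/
lemma cross_le {s u : Fin 4 → ℝ} (hs : s ∈ stdSimplex ℝ (Fin 4))
    (hu : u ∈ stdSimplex ℝ (Fin 4)) :
    6 * (cS 3 s * cS 3 u) ≤ cS 2 s ^ 2 * cS 2 u + cS 2 s * cS 2 u ^ 2 := by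
  have h1 := cubic_le hs
  have h2 := cubic_le hu
  have n : ∀ p : Fin 4 → ℝ, 0 ≤ cS 2 p := fun p => by simp only [cS]; positivity
  have a := n s
  have b := n u
  generalize cS 2 s = A at *
  generalize cS 2 u = B at *
  generalize cS 3 s = X at *
  generalize cS 3 u = Y at *
  have h3 := mul_le_mul h1 h2 (by positivity) (by positivity)
  have h4 : (A * B) ^ 3 * 4 ≤ (A ^ 2 * B + A * B ^ 2) ^ 2 := by
    nlinarith [mul_nonneg (sq_nonneg (A * B)) (sq_nonneg (A - B))]
  by_contra hlt
  push Not at hlt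
  have h5 := mul_self_lt_mul_self (by positivity) hlt
  nlinarith

/-- The main inequality. -/
theorem mainIneq_four : MainIneq 4 potQ psi4 := by
  refine ⟨mulG, mulG, 1 / 2048, by norm_num, fun p hp => ?_, fun s hs u hu => ?_⟩
  · have := mult_nonneg CertII.mult_ok hp
    exact ⟨mul_nonneg (potQ_nonneg p) (div_nonneg this (by norm_num)),
      mul_nonneg (potQ_nonneg p) (div_nonneg this (by norm_num))⟩
  have h : 0 ≤ bil CertII.mat (phi mons15.tail s) (phi mons15.tail u) := by
    rcases mat_nonneg CertII.cov_ok hs hu with h | h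
    · exact h
    · refine h.trans ?_
      simp only [CertII.mat, CertII.mat', bil, dot, phi, monVals, CertI.mons15, List.tail_cons,
        List.map_cons, List.map_nil]
      push_cast
      linear_combination (23385568444416 : ℝ) * cross_le hs hu
  rw [bil_terms CertII.terms_ok CertII.mk_edge CertII.mk_eq, CertII.terms, List.map_append,
    List.map_map, List.sum_append] at h
  have hsym : (CertII.sym.map ((fun t : BTerm => (t.1 : ℝ) * dot t.2.1 (phi mons15 s) *
      dot t.2.2 (phi mons15 u)) ∘ fun e => (1 * e.1, e.2.2, e.2.2))).sum =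
      15552 * ∑ σ : Equiv.Perm (Fin 4), evalT CertII.node (nodeVars rOps (prodV s (u ∘ σ))) := by
    rw [← sum_node CertII.node_ok CertII.sym_ok hs hu]
    simp only [Function.comp_def, one_mul]
  rw [hsym] at h
  have hn := Finset.sum_le_sum fun (σ : Equiv.Perm (Fin 4)) (_ : σ ∈ Finset.univ) =>
    node_main hs (mem_simplex_comp hu σ)
  rw [← Finset.mul_sum, Finset.sum_neg_distrib] at hn
  rw [mergeAvg_eq, card_four]
  simp only [List.map_cons, List.map_nil, List.sum_cons, List.sum_nil, add_zero, dot, phi,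
    monVals, CertI.mons15] at h
  simp only [mulG, CertII.mult, dot, phi, monVals, List.map_cons, List.map_nil]
  push_cast at h ⊢
  simp only [psi4, psiOf, potQ, cmom_eq, Function.comp] at hn h ⊢
  linear_combination (1 / 12824703626379264 : ℝ) * h + (1 / 824633720832 : ℝ) * hn

/-- The certificate for four states. -/
theorem ferroCert_four : FerroCert 4 := by
  refine ⟨⟨23 / 32, 0, 15 / 128, -(1 / 64), le_rfl, by norm_num, ?_, ?_, auxIneq_four,
    mainIneq_four⟩⟩ <;> norm_num

end Vale.Agent.P154.Aux4
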