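import Vale.Agent.P154.Aux4DataI

/-!
P154: one-point part of the computations for the inductive inequality with four states.
-/

namespace Vale.Agent.P154.Aux4.CertI

open Kron

theorem node_ok : zeroOK ⟨128, 9, 9, 9, 9⟩
    (nodeId kOps node 3 (sym.map fun e => (e.1, e.2.1)) (Lay.var ⟨128, 9, 9, 9, 9⟩)) = true := by
  decide +kernel

theorem sym_ok : sym.all (fun e => zeroOK ⟨96, 9, 9, 9, 1⟩
    (rowId kOps mons15 72 e.2.1 e.2.2 (Lay.var ⟨96, 9, 9, 9, 1⟩))) = true := by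
  decide +kernel

theorem slack_ok : covOK (wSide (-1) 3 5)
    (pSide ⟨[(0, 0, 0), (1, 0, 0), (0, 1, 0), (0, 0, 1), (2, 0, 0), (1, 1, 0)], 5, 5, 0⟩) 171
    slack slack covSlack (wSide (-1) 3 5).root
    (pSide ⟨[(0, 0, 0), (1, 0, 0), (0, 1, 0), (0, 0, 1), (2, 0, 0), (1, 1, 0)], 5, 5, 0⟩).root = true := by
  decide +kernel

theorem mult_ok : covOK oneSide
    (pSide ⟨[(0, 0, 0), (1, 0, 0), (0, 1, 0), (0, 0, 1), (2, 0, 0), (1, 1, 0), (0, 2, 0), (1, 0, 1), (3, 0, 0)], 6, 6, 0⟩) 103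
    [mult] [mult] covMult oneSide.root
    (pSide ⟨[(0, 0, 0), (1, 0, 0), (0, 1, 0), (0, 0, 1), (2, 0, 0), (1, 1, 0), (0, 2, 0), (1, 0, 1), (3, 0, 0)], 6, 6, 0⟩).root = true := by
  decide +kernel

end Vale.Agent.P154.Aux4.CertI
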