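import Vale.Agent.P154.ListTools

/-!
P154: ternary forms as triangular lists of binary forms.
-/

namespace Vale.Agent.P154.Aux4

open Lst

/-- Value of a form: row `k` is the coefficient of `z ^ k`. -/
def tv {R : Type} [CommRing R] : List (List ℤ) → R → R → R → R
  | [], _, _, _ => 0
  | r :: T, x, y, z => hv r x y + z * tv T x y z

/-- Shifted triangular shape. -/
def Sh (e : ℕ) : List (List ℤ) → Prop
  | [] => True
  | r :: T => r.length = e + T.length + 1 ∧ Sh e T

/-- Sum, where the shorter form is padded. -/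
def add2 : List (List ℤ) → List (List ℤ) → List (List ℤ)
  | [], B => B
  | a :: A, [] => a :: A
  | a :: A, b :: B => Lst.add a b :: add2 A B

/-- Product. -/
def conv2 : List (List ℤ) → List (List ℤ) → List (List ℤ)
  | [], _ => []
  | r :: A, B =>
    match B.map (conv r) with
    | [] => []
    | h :: t => h :: add2 t (conv2 A B)

/-- Powers. -/
def pow2 (L : List (List ℤ)) : ℕ → List (List ℤ)
  | 0 => [[1]]
  | n + 1 => conv2 L (pow2 L n)

/-- The linear form with the given coefficients of `x`, `y`, `z`. -/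
def lin3 (a b c : ℤ) : List (List ℤ) := [[b, a], [c]]

/-- The weights of the coefficients. -/
def wT (x y z : ℝ) : ℕ → List ℝ
  | 0 => []
  | n + 1 => basis x y (n + 1) ++ (wT x y z n).map (z * ·)

lemma tv_add2 {R : Type} [CommRing R] (x y z : R) : ∀ (A B : List (List ℤ)) (e : ℕ),
    Sh e A → Sh 0 B → B.length = A.length + e ∨ A = [] →
    tv (add2 A B) x y z = tv A x y z + tv B x y z ∧ Sh 0 (add2 A B) ∧
      (add2 A B).length = B.length
  | [], B, _, _, hB, _ => by simp [add2, tv, hB]
  | a :: A, [], e, _, _, h => by simp at h; omega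
  | a :: A, b :: B, e, hA, hB, h => by
      obtain ⟨a1, a2⟩ := hA
      obtain ⟨b1, b2⟩ := hB
      simp only [List.length_cons, reduceCtorEq, or_false] at h
      have hl : a.length = b.length := by omega
      obtain ⟨i1, i2, i3⟩ := tv_add2 x y z A B e a2 b2 (Or.inl (by omega))
      refine ⟨?_, ⟨by simp [i3, hl, b1], i2⟩, by simp [add2, i3]⟩
      simp only [add2, tv, hv_add a b hl, i1]
      ring

lemma map_conv {R : Type} [CommRing R] (x y z : R) (r : List ℤ) (k : ℕ) (hr : r.length = k + 1) :
    ∀ (B : List (List ℤ)) (e : ℕ), Sh e B →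
      tv (B.map (conv r)) x y z = hv r x y * tv B x y z ∧ Sh (e + k) (B.map (conv r))
  | [], _, _ => by simp [tv, Sh]
  | b :: B, e, hB => by
      obtain ⟨b1, b2⟩ := hB
      have hb : b ≠ [] := fun h => by simp [h] at b1
      have hr' : r ≠ [] := fun h => by simp [h] at hr
      obtain ⟨i1, i2⟩ := map_conv x y z r k hr B e b2
      refine ⟨?_, ⟨?_, i2⟩⟩
      · simp only [List.map_cons, tv, hv_conv r b hb, i1]
        ring
      · rw [conv_length r b hr', b1, hr, List.length_map]
        omega

lemma tv_conv2 {R : Type} [CommRing R] (x y z : R) : ∀ (A B : List (List ℤ)),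
    Sh 0 A → Sh 0 B → A ≠ [] → B ≠ [] →
    tv (conv2 A B) x y z = tv A x y z * tv B x y z ∧ Sh 0 (conv2 A B) ∧
      (conv2 A B).length + 1 = A.length + B.length
  | [], _, _, _, h, _ => absurd rfl h
  | [r], b :: B, hA, hB, _, _ => by
      obtain ⟨i1, i2⟩ := map_conv x y z r 0 (by simpa using hA.1) (b :: B) 0 hB
      have ea : add2 (B.map (conv r)) [] = B.map (conv r) := by
        cases B <;> simp [add2]
      simp only [List.map_cons] at i1 i2
      simp only [conv2, List.map_cons, ea]
      refine ⟨?_, i2, by simp; omega⟩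
      rw [i1]
      simp [tv]
  | [_], [], _, _, _, h => absurd rfl h
  | r :: r' :: A, [], _, _, _, h => absurd rfl h
  | r :: r' :: A, b :: B, hA, hB, _, hb => by
      obtain ⟨a1, a2⟩ := hA
      obtain ⟨i1, i2⟩ := map_conv x y z r (r' :: A).length (by omega) (b :: B) 0 hB
      obtain ⟨j1, j2, j3⟩ := tv_conv2 x y z (r' :: A) (b :: B) a2 hB (by simp) hb
      simp only [List.map_cons] at i1 i2
      obtain ⟨h1, h2⟩ := i2
      simp only [List.length_cons, List.length_map, Nat.zero_add] at h1 h2 j3
      obtain ⟨k1, k2, k3⟩ := tv_add2 x y z (B.map (conv r)) (conv2 (r' :: A) (b :: B))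
        (A.length + 1) h2 j2 (Or.inl (by simp; omega))
      have e : conv2 (r :: r' :: A) (b :: B) =
          conv r b :: add2 (B.map (conv r)) (conv2 (r' :: A) (b :: B)) := by
        conv_lhs => rw [conv2, List.map_cons]
      rw [e]
      refine ⟨?_, ⟨by rw [k3]; omega, k2⟩, by simp [k3]; omega⟩
      simp only [tv, k1, j1] at i1 ⊢
      linear_combination i1

/-- A form of degree `n` with value `v`. -/
structure Val (T : List (List ℤ)) (n : ℕ) (x y z v : ℝ) : Prop where
  sh : Sh 0 T
  len : T.length = n + 1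
  val : tv T x y z = v

lemma val_one (x y z : ℝ) : Val [[1]] 0 x y z 1 := ⟨⟨rfl, trivial⟩, rfl, by simp [tv, hv]⟩

lemma val_mul {A B : List (List ℤ)} {n m : ℕ} {x y z a b : ℝ} (hA : Val A n x y z a)
    (hB : Val B m x y z b) : Val (conv2 A B) (n + m) x y z (a * b) := by
  obtain ⟨h1, h2, h3⟩ := tv_conv2 x y z A B hA.sh hB.sh
    (fun h => by simpa [h] using hA.len) (fun h => by simpa [h] using hB.len)
  exact ⟨h2, by have := hA.len; have := hB.len; omega, by rw [h1, hA.val, hB.val]⟩

lemma val_pow {A : List (List ℤ)} {n : ℕ} {x y z a : ℝ} (hA : Val A n x y z a) :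
    ∀ k, Val (pow2 A k) (n * k) x y z (a ^ k)
  | 0 => by simpa [pow2] using val_one x y z
  | k + 1 => by
      rw [pow_succ', show n * (k + 1) = n + n * k by ring]
      exact val_mul hA (val_pow hA k)

lemma val_lin (a b c : ℤ) (x y z : ℝ) : Val (lin3 a b c) 1 x y z (a * x + b * y + c * z) :=
  ⟨⟨rfl, rfl, trivial⟩, rfl, by simp [lin3, tv, hv]; ring⟩

lemma val_add {A B : List (List ℤ)} {n : ℕ} {x y z a b : ℝ} (hA : Val A n x y z a)
    (hB : Val B n x y z b) : Val (add2 A B) n x y z (a + b) := by
  obtain ⟨h1, h2, h3⟩ := tv_add2 x y z A B 0 hA.sh hB.sh (Or.inl (by simp [hA.len, hB.len]))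
  exact ⟨h2, h3.trans hB.len, by rw [h1, hA.val, hB.val]⟩

lemma wT_nonneg {x y z : ℝ} (hx : 0 ≤ x) (hy : 0 ≤ y) (hz : 0 ≤ z) :
    ∀ n, ∀ v ∈ wT x y z n, 0 ≤ v
  | 0 => by simp [wT]
  | n + 1 => by
      intro v hv
      simp only [wT, List.mem_append, List.mem_map] at hv
      rcases hv with h | ⟨u, hu, rfl⟩
      · exact basis_nonneg hx hy _ v h
      · exact mul_nonneg hz (wT_nonneg hx hy hz n u hu)

lemma flatten_val {x y z : ℝ} : ∀ T : List (List ℤ), Sh 0 T →
    T.flatten.length = (wT x y z T.length).length ∧ dot T.flatten (wT x y z T.length) = tv T x y z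
  | [], _ => by simp [wT, tv, dot]
  | r :: T, h => by
      obtain ⟨r1, r2⟩ := h
      rw [Nat.zero_add] at r1
      obtain ⟨i1, i2⟩ := flatten_val (x := x) (y := y) (z := z) T r2
      constructor
      · simp [wT, i1, r1, basis_length]
      · simp only [List.flatten_cons, List.length_cons, wT, tv]
        rw [dot_append _ _ _ _ (by rw [basis_length, r1]), dot_map, i2, ← r1, ← hv_eq_dot]

end Vale.Agent.P154.Aux4
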