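import Vale.Agent.P154.Bern
import Vale.Agent.P154.Aux4Form

/-!
P154: a checker for nonnegativity of a bilinear expression in two lists of functions.
-/

namespace Vale.Agent.P154.Aux4

open Lst Bern

/-- The bilinear value. -/
noncomputable def bil : List (List ℤ) → List ℝ → List ℝ → ℝ
  | r :: C, a :: φ, ψ => a * dot r ψ + bil C φ ψ
  | _, _, _ => 0

/-- The computational part of one factor. -/
structure Side where
  Cell : Type
  vecs : Cell → List (List ℤ × List ℤ)
  root : Cell
  cut : ℕ → Cell → Cell × Cell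

/-- A vector with weights representing a value. -/
def Rep1 (W : List ℝ) (d : ℝ) (v : List ℤ × List ℤ) (φ : ℝ) : Prop :=
  (outer v.1 v.2).length = W.length ∧ dot (outer v.1 v.2) W = d * φ

/-- Soundness of one factor. -/
structure SideOK {X : Type} (S : Side) (mem : S.Cell → X → Prop) (val : X → List ℝ) : Prop where
  cover : ∀ ax c x, mem c x → mem (S.cut ax c).1 x ∨ mem (S.cut ax c).2 x
  spec : ∀ c x, mem c x → ∃ (W : List ℝ) (d : ℝ), 0 < d ∧ (∀ w ∈ W, 0 ≤ w) ∧
    List.Forall₂ (Rep1 W d) (S.vecs c) (val x)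

/-- The packed table of the second factor. -/
def table (w : ℕ) (VB : List (List ℤ × List ℤ)) : List (ℤ × ℕ) :=
  VB.map fun v => (pack (w * v.2.length) v.1 * pack w v.2, absSum v.1 * absSum v.2)

/-- The length of the vectors. -/
def lenOf : List (List ℤ × List ℤ) → ℕ
  | [] => 0
  | v :: _ => v.1.length * v.2.length

/-- The packed rows and a bound on the norm. -/
def acc (T : List (ℤ × ℕ)) (n : ℕ) : List (List ℤ × List ℤ) → List (List ℤ) → List ℤ × ℕ
  | v :: VA, r :: C =>
    let g := combine T r
    let rest := acc T n VA C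
    (Lst.add (scale g.1 (outer v.1 v.2)) rest.1, absSum v.1 * absSum v.2 * g.2 + rest.2)
  | _, _ => (List.replicate n 0, 0)

/-- The number with one half of the base in every slot. -/
def halvesC (w n : ℕ) : ℕ := 2 ^ w / 2 * ((2 ^ (w * n) - 1) / (2 ^ w - 1))

/-- Test of one packed row. -/
def rowPos (h : ℕ) (m : ℤ) : Bool :=
  decide (0 ≤ m + (h : ℤ)) && ((m + (h : ℤ)).toNat &&& h == h)

/-- The check on one pair of cells. -/
def boxOK2 (w : ℕ) (C : List (List ℤ)) (VA VB : List (List ℤ × List ℤ)) : Bool :=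
  decide (0 < w) &&
    (let r := acc (table w VB) (lenOf VA) VA C
     decide (2 * r.2 < 2 ^ w) && r.1.all (rowPos (halvesC w (lenOf VB))))

/-- A subdivision; a leaf records which matrix is used. -/
inductive Cov where
  | leaf (alt : Bool)
  | cutA (ax : ℕ) (l r : Cov)
  | cutB (ax : ℕ) (l r : Cov)

/-- The check on a subdivision. -/
def covOK (SA SB : Side) (w : ℕ) (C0 C1 : List (List ℤ)) : Cov → SA.Cell → SB.Cell → Bool
  | .leaf b, a, c => boxOK2 w (cond b C1 C0) (SA.vecs a) (SB.vecs c)
  | .cutA ax l r, a, c =>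
    covOK SA SB w C0 C1 l (SA.cut ax a).1 c && covOK SA SB w C0 C1 r (SA.cut ax a).2 c
  | .cutB ax l r, a, c =>
    covOK SA SB w C0 C1 l a (SB.cut ax c).1 && covOK SA SB w C0 C1 r a (SB.cut ax c).2

lemma halves_eq {w : ℕ} (hw : 0 < w) (n : ℕ) : halvesC w n = halves w n := by
  obtain ⟨B, hB⟩ : ∃ B, 2 ^ w = B + 2 := by
    have := Nat.pow_le_pow_right (show 0 < 2 by norm_num) hw
    exact ⟨2 ^ w - 2, by omega⟩
  have key : ∃ G, halves w n = 2 ^ w / 2 * G ∧ (B + 1) * G + 1 = 2 ^ (w * n) := by
    induction n with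
    | zero => exact ⟨0, by simp [halves]⟩
    | succ n ih =>
        obtain ⟨G, g1, g2⟩ := ih
        refine ⟨1 + 2 ^ w * G, by simp [halves, g1]; ring, ?_⟩
        rw [Nat.mul_succ, pow_add, ← g2, hB]
        ring
  obtain ⟨G, g1, g2⟩ := key
  rw [halvesC, g1, ← g2, hB]
  simp

lemma rep_zero' (w n : ℕ) (v ws : List ℝ) {m : ℕ} (h : m = ws.length) :
    Rep w n ws v (List.replicate m 0) 0 0 := h ▸ rep_zero w n v ws

lemma combine_spec2 (w : ℕ) (W : List ℝ) (d : ℝ) :
    ∀ (VB : List (List ℤ × List ℤ)) (ψ : List ℝ), List.Forall₂ (Rep1 W d) VB ψ → ∀ cs : List ℤ,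
      ∃ g : List ℤ, g.length = W.length ∧ pack w g = (combine (table w VB) cs).1 ∧
        absSum g ≤ (combine (table w VB) cs).2 ∧ dot g W = d * dot cs ψ := by
  have z : ∃ g : List ℤ, g.length = W.length ∧ pack w g = 0 ∧ absSum g ≤ 0 ∧ dot g W = 0 := by
    refine ⟨List.replicate W.length 0, by simp, ?_, ?_, ?_⟩
    · induction W.length with
      | zero => rfl
      | succ k ih => simp [List.replicate_succ, pack, ih]
    · induction W.length with
      | zero => simp [absSum]
      | succ k ih => simpa [List.replicate_succ, absSum] using ih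
    · have : ∀ (k : ℕ) (v : List ℝ), dot (List.replicate k 0) v = 0 := fun k => by
        induction k with
        | zero => simp [dot]
        | succ k ih => intro v; cases v <;> simp [List.replicate_succ, dot, ih]
      exact this _ _
  intro VB ψ h
  induction h with
  | nil =>
      intro cs
      obtain ⟨g, g1, g2, g3, g4⟩ := z
      exact ⟨g, g1, by simp [table, combine, g2], g3.trans (Nat.zero_le _),
        by cases cs <;> simp [g4, dot]⟩
  | @cons v φ VB ψ hv hrest ih =>
      intro cs
      cases cs with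
      | nil =>
          obtain ⟨g, g1, g2, g3, g4⟩ := z
          exact ⟨g, g1, by simp [table, combine, g2], g3.trans (Nat.zero_le _), by simp [g4, dot]⟩
      | cons c cs =>
          obtain ⟨g, g1, g2, g3, g4⟩ := ih cs
          obtain ⟨v1, v2⟩ := hv
          have hl : (scale c (outer v.1 v.2)).length = g.length := by
            rw [scale_length, v1, g1]
          refine ⟨Lst.add (scale c (outer v.1 v.2)) g,
            by rw [add_length, hl, g1, min_self], ?_, ?_, ?_⟩
          · rw [pack_add _ _ _ hl, pack_scale, pack_outer, g2]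
            simp only [table, List.map_cons, combine]
          · have := absSum_add (scale c (outer v.1 v.2)) g
            rw [absSum_scale, absSum_outer] at this
            simp only [table, List.map_cons, combine] at g3 ⊢
            omega
          · rw [dot_add _ _ _ hl, dot_scale, v2, g4, dot]
            ring

lemma acc_spec (w : ℕ) (WA WB : List ℝ) (dA dB : ℝ) (VB : List (List ℤ × List ℤ)) (ψ : List ℝ)
    (hB : List.Forall₂ (Rep1 WB dB) VB ψ) :
    ∀ (VA : List (List ℤ × List ℤ)) (φ : List ℝ), List.Forall₂ (Rep1 WA dA) VA φ →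
      ∀ C : List (List ℤ), Rep w WB.length WA WB (acc (table w VB) WA.length VA C).1
        (acc (table w VB) WA.length VA C).2 (dA * dB * bil C φ ψ) := by
  intro VA φ h
  induction h with
  | nil =>
      intro C
      have : bil C [] ψ = 0 := by cases C <;> simp [bil]
      simpa [acc, this] using rep_zero' w WB.length WB WA rfl
  | @cons v a VA φ hv hrest ih =>
      intro C
      cases C with
      | nil => simpa [acc, bil] using rep_zero' w WB.length WB WA rfl
      | cons r C =>
          obtain ⟨v1, v2⟩ := hv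
          obtain ⟨g, g1, g2, g3, g4⟩ := combine_spec2 w WB dB VB ψ hB r
          obtain ⟨E, e1, e2, e3, e4, e5⟩ :=
            rep_add w WB.length g g1 WB WA (outer v.1 v.2) _ _ _ v1 (ih C)
          refine ⟨E, e1, e2, ?_, ?_, ?_⟩
          · rw [e3, g2]
            rfl
          · have h' := Nat.mul_le_mul_left (absSum v.1 * absSum v.2) g3
            rw [absSum_outer] at e4
            simp only [acc]
            omega
          · rw [e5, v2, g4, bil]
            ring

lemma lenOf_eq {W : List ℝ} {d : ℝ} {V : List (List ℤ × List ℤ)} {φ : List ℝ}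
    (h : List.Forall₂ (Rep1 W d) V φ) : V = [] ∨ lenOf V = W.length := by
  cases h with
  | nil => exact Or.inl rfl
  | cons hv _ => exact Or.inr (by rw [lenOf, ← hv.1, outer_length])

lemma boxOK2_sound {w : ℕ} {C : List (List ℤ)} {VA VB : List (List ℤ × List ℤ)}
    (h : boxOK2 w C VA VB = true) {WA WB : List ℝ} {dA dB : ℝ} {φ ψ : List ℝ}
    (hA : List.Forall₂ (Rep1 WA dA) VA φ) (hB : List.Forall₂ (Rep1 WB dB) VB ψ)
    (nA : ∀ x ∈ WA, 0 ≤ x) (nB : ∀ x ∈ WB, 0 ≤ x) (pA : 0 < dA) (pB : 0 < dB) :
    0 ≤ bil C φ ψ := by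
  simp only [boxOK2, Bool.and_eq_true, decide_eq_true_eq, List.all_eq_true] at h
  obtain ⟨hw, hn, hall⟩ := h
  rcases lenOf_eq hA with rfl | hlA
  · cases hA
    cases C <;> simp [bil]
  rcases lenOf_eq hB with rfl | hlB
  · cases hB
    have : ∀ (C : List (List ℤ)) (φ : List ℝ), bil C φ [] = 0 := by
      intro C
      induction C with
      | nil => simp [bil]
      | cons r C ih => intro φ; cases φ <;> simp [bil, ih]; cases r <;> simp [dot]
    rw [this]
  rw [hlA] at hn hall
  rw [hlB, halves_eq hw] at hall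
  obtain ⟨E, _, e2, e3, e4, e5⟩ := acc_spec w WA WB dA dB VB ψ hB VA φ hA C
  have hnn : 0 ≤ dA * dB * bil C φ ψ := by
    rw [← e5]
    refine dot2_nonneg _ _ _ (fun e he => slotsOK_sound hw ?_ ?_) nA nB
    · have := absSum_le_norm2 he
      omega
    · have := hall (pack w e) (e3 ▸ List.mem_map_of_mem he)
      rw [e2 e he]
      exact this
  exact nonneg_of_mul_nonneg_right hnn (mul_pos pA pB)

/-- Soundness of a checked subdivision. -/
theorem covOK_sound {X Y : Type} {SA SB : Side} {ma : SA.Cell → X → Prop}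
    {mb : SB.Cell → Y → Prop} {va : X → List ℝ} {vb : Y → List ℝ} (ha : SideOK SA ma va)
    (hb : SideOK SB mb vb) (w : ℕ) (C0 C1 : List (List ℤ)) :
    ∀ (cv : Cov) (a : SA.Cell) (b : SB.Cell), covOK SA SB w C0 C1 cv a b = true →
      ∀ x y, ma a x → mb b y → 0 ≤ bil C0 (va x) (vb y) ∨ 0 ≤ bil C1 (va x) (vb y)
  | .leaf t, a, b, h, x, y, hx, hy => by
      obtain ⟨WA, dA, pA, nA, fA⟩ := ha.spec a x hx
      obtain ⟨WB, dB, pB, nB, fB⟩ := hb.spec b y hy
      have := boxOK2_sound h fA fB nA nB pA pB
      cases t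
      · exact Or.inl this
      · exact Or.inr this
  | .cutA ax l r, a, b, h, x, y, hx, hy => by
      simp only [covOK, Bool.and_eq_true] at h
      rcases ha.cover ax a x hx with hc | hc
      · exact covOK_sound ha hb w C0 C1 l _ b h.1 x y hc hy
      · exact covOK_sound ha hb w C0 C1 r _ b h.2 x y hc hy
  | .cutB ax l r, a, b, h, x, y, hx, hy => by
      simp only [covOK, Bool.and_eq_true] at h
      rcases hb.cover ax b y hy with hc | hc
      · exact covOK_sound ha hb w C0 C1 l a _ h.1 x y hx hc
      · exact covOK_sound ha hb w C0 C1 r a _ h.2 x y hx hc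

end Vale.Agent.P154.Aux4
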