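import Vale.Agent.P154.Aux4Check

/-!
P154: the factors of the four state certificates: points of the ordered chamber, an interval
and the trivial factor.
-/

namespace Vale.Agent.P154.Aux4

open Lst Bern

/-- A monomial in the three power sums. -/
abbrev Mono := ℕ × ℕ × ℕ

/-- The weight of a monomial. -/
def wt (e : Mono) : ℕ := 2 * e.1 + 3 * e.2.1 + 4 * e.2.2

/-- Degrees of a point factor: the monomials, the radial and angular degree, the shift. -/
structure PCfg where
  mons : List Mono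
  N : ℕ
  A : ℕ
  sh : ℕ

/-- The degrees are sufficient. -/
def PCfg.ok (c : PCfg) : Bool :=
  c.mons.all fun e => decide (c.sh ≤ wt e) && decide (wt e - c.sh ≤ c.N) && decide (wt e ≤ c.A)

/-- A cell: a radial interval and a triangle. -/
structure PCell where
  r : Ax
  e0 : ℤ × ℤ × ℤ
  e1 : ℤ × ℤ × ℤ
  e2 : ℤ × ℤ × ℤ
  m : ℕ

/-- Three times the centred coordinates of the corners of the fundamental triangle. -/
def corner : Fin 4 → ℤ × ℤ × ℤ := ![(9, 3, 1), (-3, 3, 1), (-3, -3, 1), (-3, -3, -3)]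

/-- The scaled coordinate of a corner of a cell. -/
def ell (e : ℤ × ℤ × ℤ) (i : Fin 4) : ℤ :=
  e.1 * (corner i).1 + e.2.1 * (corner i).2.1 + e.2.2 * (corner i).2.2

/-- The linear form of one coordinate. -/
def coordForm (c : PCell) (i : Fin 4) : List (List ℤ) :=
  lin3 (ell c.e0 i) (ell c.e1 i) (ell c.e2 i)

/-- The form of a power sum. -/
def sumForm (c : PCell) (k : ℕ) : List (List ℤ) :=
  add2 (pow2 (coordForm c 0) k) (add2 (pow2 (coordForm c 1) k)
    (add2 (pow2 (coordForm c 2) k) (pow2 (coordForm c 3) k)))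

/-- The form of a monomial, raised to degree `A`. -/
def angForm (c : PCell) (A : ℕ) (e : Mono) : List (List ℤ) :=
  conv2 (conv2 (conv2 (pow2 (sumForm c 2) e.1) (pow2 (sumForm c 3) e.2.1))
    (pow2 (sumForm c 4) e.2.2))
    (pow2 (lin3 (3 * 2 ^ c.m) (3 * 2 ^ c.m) (3 * 2 ^ c.m)) (A - wt e))

/-- The vectors on a cell. -/
def pvecs (g : PCfg) (c : PCell) : List (List ℤ × List ℤ) :=
  g.mons.map fun e => (radV c.r g.N (wt e - g.sh), (angForm c g.A e).flatten)

/-- Twice a corner. -/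
def dbl (e : ℤ × ℤ × ℤ) : ℤ × ℤ × ℤ := (2 * e.1, 2 * e.2.1, 2 * e.2.2)

/-- The sum of two corners. -/
def mid (e f : ℤ × ℤ × ℤ) : ℤ × ℤ × ℤ := (e.1 + f.1, e.2.1 + f.2.1, e.2.2 + f.2.2)

/-- Halving a cell. -/
def pcut : ℕ → PCell → PCell × PCell
  | 0, c => ({ c with r := c.r.left }, { c with r := c.r.right })
  | 1, c => (⟨c.r, dbl c.e0, mid c.e0 c.e1, dbl c.e2, c.m + 1⟩,
      ⟨c.r, mid c.e0 c.e1, dbl c.e1, dbl c.e2, c.m + 1⟩)
  | 2, c => (⟨c.r, dbl c.e0, dbl c.e1, mid c.e1 c.e2, c.m + 1⟩,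
      ⟨c.r, dbl c.e0, mid c.e1 c.e2, dbl c.e2, c.m + 1⟩)
  | _, c => (⟨c.r, mid c.e2 c.e0, dbl c.e1, dbl c.e2, c.m + 1⟩,
      ⟨c.r, dbl c.e0, dbl c.e1, mid c.e2 c.e0, c.m + 1⟩)

/-- The point factor. -/
def pSide (g : PCfg) : Side :=
  ⟨PCell, pvecs g, ⟨⟨0, 1, 0⟩, (1, 0, 0), (0, 1, 0), (0, 0, 1), 0⟩, pcut⟩

/-- A point in radial and triangle coordinates. -/
structure PX where
  rho : ℝ
  b0 : ℝ
  b1 : ℝ
  b2 : ℝ

/-- Membership in a cell. -/
def PMem (c : PCell) (p : PX) : Prop :=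
  c.r.lo < c.r.hi ∧ c.r.Mem p.rho ∧ ∃ x y z : ℝ, 0 ≤ x ∧ 0 ≤ y ∧ 0 ≤ z ∧ x + y + z = 1 ∧
    2 ^ c.m * p.b0 = x * c.e0.1 + y * c.e1.1 + z * c.e2.1 ∧
    2 ^ c.m * p.b1 = x * c.e0.2.1 + y * c.e1.2.1 + z * c.e2.2.1 ∧
    2 ^ c.m * p.b2 = x * c.e0.2.2 + y * c.e1.2.2 + z * c.e2.2.2

/-- A coordinate of the boundary point. -/
noncomputable def PX.dir (p : PX) (i : Fin 4) : ℝ :=
  (p.b0 * (corner i).1 + p.b1 * (corner i).2.1 + p.b2 * (corner i).2.2) / 3

/-- A power sum of the boundary point. -/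
noncomputable def PX.ps (p : PX) (k : ℕ) : ℝ :=
  p.dir 0 ^ k + (p.dir 1 ^ k + (p.dir 2 ^ k + p.dir 3 ^ k))

/-- The values of the monomials without the extracted radial factor. -/
noncomputable def pval (g : PCfg) (p : PX) : List ℝ :=
  g.mons.map fun e =>
    p.rho ^ (wt e - g.sh) * (p.ps 2 ^ e.1 * p.ps 3 ^ e.2.1 * p.ps 4 ^ e.2.2)

lemma pcut_cover (ax : ℕ) (c : PCell) (p : PX) (h : PMem c p) :
    PMem (pcut ax c).1 p ∨ PMem (pcut ax c).2 p := by
  obtain ⟨hlt, hr, x, y, z, hx, hy, hz, hs, e0, e1, e2⟩ := h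
  match ax with
  | 0 =>
    obtain ⟨p1, p2⟩ := hr
    simp only [pcut]
    rcases le_total (2 ^ c.r.m * 2 * p.rho) ((c.r.lo : ℝ) + c.r.hi) with h | h
    · refine Or.inl ⟨by simp [Ax.left]; omega, ?_, x, y, z, hx, hy, hz, hs, e0, e1, e2⟩
      simp only [Ax.Mem, Ax.left, pow_succ]
      push_cast
      exact ⟨by linarith, h⟩
    · refine Or.inr ⟨by simp [Ax.right]; omega, ?_, x, y, z, hx, hy, hz, hs, e0, e1, e2⟩
      simp only [Ax.Mem, Ax.right, pow_succ]
      push_cast
      exact ⟨h, by linarith⟩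
  | 1 =>
    simp only [pcut, PMem, dbl, mid]
    push_cast
    simp only [pow_succ]
    rcases le_total y x with h | h
    · exact Or.inl ⟨hlt, hr, x - y, 2 * y, z, by linarith, by linarith, hz, by linarith,
        by linear_combination 2 * e0, by linear_combination 2 * e1, by linear_combination 2 * e2⟩
    · exact Or.inr ⟨hlt, hr, 2 * x, y - x, z, by linarith, by linarith, hz, by linarith,
        by linear_combination 2 * e0, by linear_combination 2 * e1, by linear_combination 2 * e2⟩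
  | 2 =>
    simp only [pcut, PMem, dbl, mid]
    push_cast
    simp only [pow_succ]
    rcases le_total z y with h | h
    · exact Or.inl ⟨hlt, hr, x, y - z, 2 * z, hx, by linarith, by linarith, by linarith,
        by linear_combination 2 * e0, by linear_combination 2 * e1, by linear_combination 2 * e2⟩
    · exact Or.inr ⟨hlt, hr, x, 2 * y, z - y, hx, by linarith, by linarith, by linarith,
        by linear_combination 2 * e0, by linear_combination 2 * e1, by linear_combination 2 * e2⟩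
  | n + 3 =>
    simp only [pcut, PMem, dbl, mid]
    push_cast
    simp only [pow_succ]
    rcases le_total x z with h | h
    · exact Or.inl ⟨hlt, hr, 2 * x, y, z - x, by linarith, hy, by linarith, by linarith,
        by linear_combination 2 * e0, by linear_combination 2 * e1, by linear_combination 2 * e2⟩
    · exact Or.inr ⟨hlt, hr, x - z, y, 2 * z, by linarith, hy, by linarith, by linarith,
        by linear_combination 2 * e0, by linear_combination 2 * e1, by linear_combination 2 * e2⟩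

lemma val_sumForm {c : PCell} {p : PX} {x y z : ℝ}
    (e0 : 2 ^ c.m * p.b0 = x * c.e0.1 + y * c.e1.1 + z * c.e2.1)
    (e1 : 2 ^ c.m * p.b1 = x * c.e0.2.1 + y * c.e1.2.1 + z * c.e2.2.1)
    (e2 : 2 ^ c.m * p.b2 = x * c.e0.2.2 + y * c.e1.2.2 + z * c.e2.2.2) (k : ℕ) :
    Val (sumForm c k) k x y z ((3 * 2 ^ c.m) ^ k * p.ps k) := by
  have hL : ∀ i, Val (pow2 (coordForm c i) k) k x y z ((3 * 2 ^ c.m * p.dir i) ^ k) := by
    intro i
    have h := val_pow (val_lin (ell c.e0 i) (ell c.e1 i) (ell c.e2 i) x y z) k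
    have e : (ell c.e0 i : ℝ) * x + ell c.e1 i * y + ell c.e2 i * z = 3 * 2 ^ c.m * p.dir i := by
      simp only [ell, PX.dir]
      push_cast
      linear_combination
        -((corner i).1 : ℝ) * e0 - ((corner i).2.1 : ℝ) * e1 - ((corner i).2.2 : ℝ) * e2
    rw [e, one_mul] at h
    exact h
  have h := val_add (hL 0) (val_add (hL 1) (val_add (hL 2) (hL 3)))
  have e : (3 * 2 ^ c.m : ℝ) ^ k * p.ps k = (3 * 2 ^ c.m * p.dir 0) ^ k +
      ((3 * 2 ^ c.m * p.dir 1) ^ k + ((3 * 2 ^ c.m * p.dir 2) ^ k +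
        (3 * 2 ^ c.m * p.dir 3) ^ k)) := by
    simp only [PX.ps, mul_pow]
    ring
  rw [e]
  exact h

/-- The point factor is sound. -/
theorem pSide_ok (g : PCfg) (hg : g.ok = true) : SideOK (pSide g) PMem (pval g) where
  cover := pcut_cover
  spec c p h := by
    obtain ⟨hlt, hr, x, y, z, hx, hy, hz, hs, e0, e1, e2⟩ := h
    obtain ⟨hu0, hu1⟩ := u_range hlt hr
    refine ⟨outerW (basis (c.r.u p.rho) (1 - c.r.u p.rho) (g.N + 1)) (wT x y z (g.A + 1)),
      2 ^ (c.r.m * g.N) * (3 * 2 ^ c.m) ^ g.A, by positivity,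
      outerW_nonneg (basis_nonneg hu0 (by linarith) _) (wT_nonneg hx hy hz _), ?_⟩
    simp only [PCfg.ok, List.all_eq_true, Bool.and_eq_true, decide_eq_true_eq] at hg
    simp only [pSide, pvecs, pval]
    rw [List.forall₂_map_left_iff, List.forall₂_map_right_iff, List.forall₂_same]
    intro e he
    obtain ⟨⟨k0, kN⟩, kA⟩ := hg e he
    obtain ⟨r, hr'⟩ : ∃ r, g.A = wt e + r := ⟨g.A - wt e, by omega⟩
    have hV := val_mul (val_mul (val_mul (val_pow (val_sumForm e0 e1 e2 2) e.1)
      (val_pow (val_sumForm e0 e1 e2 3) e.2.1)) (val_pow (val_sumForm e0 e1 e2 4) e.2.2))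
      (val_pow (val_lin (3 * 2 ^ c.m) (3 * 2 ^ c.m) (3 * 2 ^ c.m) x y z) r)
    obtain ⟨f1, f2⟩ := flatten_val (x := x) (y := y) (z := z) _ hV.sh
    rw [hV.len, show 2 * e.1 + 3 * e.2.1 + 4 * e.2.2 + 1 * r + 1 = g.A + 1 by
      simp only [wt] at hr'; omega] at f1 f2
    rw [hV.val] at f2
    have hr1 : (radV c.r g.N (wt e - g.sh)).length = g.N + 1 := radV_length kN
    have hr2 := radV_val (x := p.rho) hlt kN
    have ea : angForm c g.A e = conv2 (conv2 (conv2 (pow2 (sumForm c 2) e.1)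
        (pow2 (sumForm c 3) e.2.1)) (pow2 (sumForm c 4) e.2.2))
        (pow2 (lin3 (3 * 2 ^ c.m) (3 * 2 ^ c.m) (3 * 2 ^ c.m)) r) := by
      simp only [angForm, show g.A - wt e = r by omega]
    rw [Rep1, ea]
    refine ⟨?_, ?_⟩
    · have : ∀ A B : List ℝ, (outerW A B).length = A.length * B.length := fun A B => by
        induction A with
        | nil => simp [outerW]
        | cons a A ih => simp [outerW, ih]; ring
      rw [outer_length, this, basis_length, hr1, f1]
    · rw [dot_outer _ _ _ _ (by rw [basis_length, hr1]) f1, f2, ← hr1, ← hv_eq_dot, hr2, hr']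
      have e3 : (3 * 2 ^ c.m : ℝ) * x + 3 * 2 ^ c.m * y + 3 * 2 ^ c.m * z = 3 * 2 ^ c.m := by
        linear_combination (3 * 2 ^ c.m : ℝ) * hs
      push_cast
      rw [e3]
      simp only [wt, pow_add, mul_pow, ← pow_mul]
      ring

/-- The interval factor, with monomials up to degree `N`. -/
def wSide (lo hi : ℤ) (N : ℕ) : Side :=
  ⟨Ax, fun a => (List.range (N + 1)).map fun k => (radV a N k, [1]), ⟨lo, hi, 0⟩,
    fun _ a => (a.left, a.right)⟩

/-- The interval factor is sound. -/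
theorem wSide_ok (lo hi : ℤ) (N : ℕ) :
    SideOK (wSide lo hi N) (fun (a : Ax) (x : ℝ) => a.lo < a.hi ∧ a.Mem x)
      (fun x => (List.range (N + 1)).map fun k => x ^ k) where
  cover _ c x h := by
    obtain ⟨hlt, p1, p2⟩ := h
    simp only [wSide, Ax.Mem, Ax.left, Ax.right, pow_succ]
    push_cast
    rcases le_total (2 ^ c.m * 2 * x) ((c.lo : ℝ) + c.hi) with h | h
    · exact Or.inl ⟨by omega, by linarith, h⟩
    · exact Or.inr ⟨by omega, h, by linarith⟩
  spec c x h := by
    obtain ⟨hlt, hr⟩ := h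
    obtain ⟨hu0, hu1⟩ := u_range hlt hr
    refine ⟨outerW (basis (c.u x) (1 - c.u x) (N + 1)) [1], 2 ^ (c.m * N), by positivity,
      outerW_nonneg (basis_nonneg hu0 (by linarith) _) (by simp), ?_⟩
    simp only [wSide]
    rw [List.forall₂_map_left_iff, List.forall₂_map_right_iff, List.forall₂_same]
    intro k hk
    have kN : k ≤ N := by simp at hk; omega
    have hr1 : (radV c N k).length = N + 1 := radV_length kN
    refine ⟨?_, ?_⟩
    · have : ∀ A B : List ℝ, (outerW A B).length = A.length * B.length := fun A B => by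
        induction A with
        | nil => simp [outerW]
        | cons a A ih => simp [outerW, ih]; ring
      rw [outer_length, this, basis_length, hr1]
      rfl
    · rw [dot_outer _ _ _ _ (by rw [basis_length, hr1]) rfl, ← hr1, ← hv_eq_dot,
        radV_val hlt kN]
      simp [dot]

/-- The trivial factor. -/
def oneSide : Side := ⟨Unit, fun _ => [([1], [1])], (), fun _ c => (c, c)⟩

/-- The trivial factor is sound. -/
theorem oneSide_ok : SideOK oneSide (fun _ (_ : Unit) => True) (fun _ => [1]) where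
  cover _ _ _ _ := Or.inl trivial
  spec _ _ _ := ⟨[1], 1, one_pos, by simp,
    List.Forall₂.cons ⟨by simp [outer, scale], by simp [outer, scale, dot]⟩ List.Forall₂.nil⟩

end Vale.Agent.P154.Aux4
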