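import Vale.Agent.P154.Aux3Defs
import Vale.Agent.P154.Aux4Sides

/-!
P154: symmetrised monomials of four variables and the polynomial identities behind the four
state certificates.
-/

namespace Vale.Agent.P154.Aux4

open scoped BigOperators
open Kron Lst Aux3

/-- The relabellings of four values. -/
def perms : List (Fin 4 → Fin 4) :=
  [![0, 1, 2, 3], ![0, 1, 3, 2], ![0, 2, 1, 3], ![0, 2, 3, 1], ![0, 3, 1, 2], ![0, 3, 2, 1],
   ![1, 0, 2, 3], ![1, 0, 3, 2], ![1, 2, 0, 3], ![1, 2, 3, 0], ![1, 3, 0, 2], ![1, 3, 2, 0],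
   ![2, 0, 1, 3], ![2, 0, 3, 1], ![2, 1, 0, 3], ![2, 1, 3, 0], ![2, 3, 0, 1], ![2, 3, 1, 0],
   ![3, 0, 1, 2], ![3, 0, 2, 1], ![3, 1, 0, 2], ![3, 1, 2, 0], ![3, 2, 0, 1], ![3, 2, 1, 0]]

lemma sum_perm (f : (Fin 4 → Fin 4) → ℝ) :
    ∑ σ : Equiv.Perm (Fin 4), f σ = (perms.map f).sum := by
  have e : (Finset.univ : Finset (Equiv.Perm (Fin 4))).val.map (fun σ : Equiv.Perm (Fin 4) => ⇑σ) =
      (↑perms : Multiset (Fin 4 → Fin 4)) := by decide +kernel
  have h := congrArg (fun m => (Multiset.map f m).sum) e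
  rw [Multiset.map_map, Multiset.map_coe, Multiset.sum_coe] at h
  exact h

/-- Exponents of four variables. -/
abbrev Expo := ℕ × ℕ × ℕ × ℕ

variable {α : Type}

/-- A monomial. -/
def monO (o : Ops α) (x : Fin 4 → α) (μ : Expo) : α :=
  o.mul (o.mul (powO o (x 0) μ.1) (powO o (x 1) μ.2.1))
    (o.mul (powO o (x 2) μ.2.2.1) (powO o (x 3) μ.2.2.2))

/-- Sums of lists. -/
def sumO (o : Ops α) : List α → α
  | [] => o.cst 0
  | a :: L => o.add a (sumO o L)

/-- The symmetrised monomial. -/
def symO (o : Ops α) (μ : Expo) (x : Fin 4 → α) : α :=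
  sumO o (perms.map fun f => monO o (fun i => x (f i)) μ)

/-- The value of a monomial. -/
noncomputable def monR (x : Fin 4 → ℝ) (μ : Expo) : ℝ :=
  x 0 ^ μ.1 * x 1 ^ μ.2.1 * (x 2 ^ μ.2.2.1 * x 3 ^ μ.2.2.2)

/-- The value of a symmetrised monomial. -/
noncomputable def symR (μ : Expo) (x : Fin 4 → ℝ) : ℝ :=
  ∑ σ : Equiv.Perm (Fin 4), monR (x ∘ σ) μ

lemma sumO_r : ∀ L : List ℝ, sumO rOps L = L.sum
  | [] => by simp [sumO, rOps]
  | a :: L => by rw [sumO, sumO_r L, List.sum_cons]; rfl

lemma symO_r (μ : Expo) (x : Fin 4 → ℝ) : symO rOps μ x = symR μ x := by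
  rw [symO, sumO_r, symR, sum_perm (fun f => monR (x ∘ f) μ)]
  refine congrArg List.sum (List.map_congr_left fun f _ => ?_)
  simp only [monO, powO_r, monR, Function.comp]
  rfl

/-- The mean over relabellings of the second vector factorises. -/
lemma symR_mul (μ : Expo) (z w : Fin 4 → ℝ) :
    ∑ σ : Equiv.Perm (Fin 4), symR μ (fun i => z i * w (σ i)) = symR μ z * symR μ w := by
  simp only [symR]
  rw [Finset.sum_comm, Finset.sum_mul]
  refine Finset.sum_congr rfl fun τ _ => ?_
  rw [Finset.mul_sum]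
  refine Fintype.sum_equiv (Equiv.mulRight τ) _ _ fun σ => ?_
  simp only [monR, Function.comp, Equiv.coe_mulRight, Equiv.Perm.coe_mul, mul_pow]
  ring

variable {L : Lay}

lemma rel_sumO {β : Type} {f : β → (Fin 4 → ℝ) → ℝ} {g : β → KV} :
    ∀ l : List β, (∀ b ∈ l, Rel L (f b) (g b)) →
      Rel L (fun x => sumO rOps (l.map fun b => f b x)) (sumO kOps (l.map g))
  | [], _ => rel_cst L 0
  | b :: l, h =>
    rel_add (h b (by simp)) (rel_sumO l fun c hc => h c (by simp [hc]))

lemma rel_symO {F : (Fin 4 → ℝ) → Fin 4 → ℝ} {V : Fin 4 → KV}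
    (h : ∀ i, Rel L (fun x => F x i) (V i)) (μ : Expo) :
    Rel L (fun x => symO rOps μ (F x)) (symO kOps μ V) :=
  rel_sumO (f := fun f x => monO rOps (fun i => F x (f i)) μ) perms fun f _ =>
    rel_mul (rel_mul (rel_powO (h (f 0)) _) (rel_powO (h (f 1)) _))
      (rel_mul (rel_powO (h (f 2)) _) (rel_powO (h (f 3)) _))

/-- The sum of four values. -/
def sum4 (o : Ops α) (v : Fin 4 → α) : α := o.add (o.add (v 0) (v 1)) (o.add (v 2) (v 3))

/-- A power sum. -/
def pw4 (o : Ops α) (d : Fin 4 → α) (k : ℕ) : α := sum4 o fun i => powO o (d i) k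

lemma rel_sum4 {F : (Fin 4 → ℝ) → Fin 4 → ℝ} {V : Fin 4 → KV}
    (h : ∀ i, Rel L (fun x => F x i) (V i)) :
    Rel L (fun x => sum4 rOps (F x)) (sum4 kOps V) :=
  rel_add (rel_add (h 0) (h 1)) (rel_add (h 2) (h 3))

lemma rel_pw4 {F : (Fin 4 → ℝ) → Fin 4 → ℝ} {V : Fin 4 → KV}
    (h : ∀ i, Rel L (fun x => F x i) (V i)) (k : ℕ) :
    Rel L (fun x => pw4 rOps (F x) k) (pw4 kOps V k) :=
  rel_sum4 (F := fun x i => powO rOps (F x i) k) fun i => rel_powO (h i) k

/-- Four times the distance to the mean. -/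
def ctrMean (o : Ops α) (v : Fin 4 → α) (i : Fin 4) : α :=
  o.add (o.mul (o.cst 4) (v i)) (o.mul (o.cst (-1)) (sum4 o v))

lemma rel_ctrMean {F : (Fin 4 → ℝ) → Fin 4 → ℝ} {V : Fin 4 → KV}
    (h : ∀ i, Rel L (fun x => F x i) (V i)) (i : Fin 4) :
    Rel L (fun x => ctrMean rOps (F x) i) (ctrMean kOps V i) :=
  rel_add (rel_mul (rel_cst L 4) (h i)) (rel_mul (rel_cst L (-1)) (rel_sum4 h))

/-- The total and three power sums of the centred values. -/
def nodeVars (o : Ops α) (v : Fin 4 → α) : Fin 4 → α :=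
  ![sum4 o v, pw4 o (ctrMean o v) 2, pw4 o (ctrMean o v) 3, pw4 o (ctrMean o v) 4]

lemma rel_nodeVars {F : (Fin 4 → ℝ) → Fin 4 → ℝ} {V : Fin 4 → KV}
    (h : ∀ i, Rel L (fun x => F x i) (V i)) : ∀ i : Fin 4,
    Rel L (fun x => nodeVars rOps (F x) i) (nodeVars kOps V i)
  | ⟨0, _⟩ => rel_sum4 h
  | ⟨1, _⟩ => rel_pw4 (rel_ctrMean h) 2
  | ⟨2, _⟩ => rel_pw4 (rel_ctrMean h) 3
  | ⟨3, _⟩ => rel_pw4 (rel_ctrMean h) 4

/-- The defect of the expansion in symmetrised monomials. -/
def nodeId (o : Ops α) (R : List Term) (k : ℤ) (cm : List (ℤ × Expo)) (x : Fin 4 → α) : α :=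
  o.add (o.mul (o.cst k) (evO o R (nodeVars o x)))
    (o.mul (o.cst (-1)) (sumO o (cm.map fun e => o.mul (o.cst e.1) (symO o e.2 x))))

/-- A checked expansion holds everywhere. -/
theorem node_expand {R : List Term} {k : ℤ} {cm : List (ℤ × Expo)}
    (h : zeroOK L (nodeId kOps R k cm L.var) = true) (x : Fin 4 → ℝ) :
    (k : ℝ) * evalT R (nodeVars rOps x) = (cm.map fun e => (e.1 : ℝ) * symR e.2 x).sum := by
  have hx := rel_zero (rel_add (rel_mul (rel_cst L k) (rel_evO (rel_nodeVars (rel_var L)) R))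
    (rel_mul (rel_cst L (-1)) (rel_sumO (f := fun e x => rOps.mul (rOps.cst e.1) (symO rOps e.2 x))
      cm fun e _ => rel_mul (rel_cst L e.1) (rel_symO (rel_var L) e.2)))) h x
  simp only [sumO_r, evO_r, symO_r] at hx
  simp only [rOps] at hx ⊢
  push_cast at hx
  linarith

/-- A centred value. -/
def ctrOne (o : Ops α) (z : Fin 4 → α) (i : Fin 4) : α := o.add (z i) (o.cst (-1))

/-- The power sums of a vector with total four. -/
def invVars (o : Ops α) (z : Fin 4 → α) : Fin 4 → α :=
  ![pw4 o (ctrOne o z) 2, pw4 o (ctrOne o z) 3, pw4 o (ctrOne o z) 4, o.cst 0]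

/-- A vector with total four. -/
def totFour (o : Ops α) (x : Fin 4 → α) : Fin 4 → α :=
  ![x 0, x 1, x 2, o.add (o.cst 4) (o.mul (o.cst (-1)) (o.add (x 0) (o.add (x 1) (x 2))))]

/-- The terms of a linear combination of monomials. -/
def rowTerms : List Mono → List ℤ → List Term
  | e :: M, c :: l => (c, e.1, e.2.1, e.2.2, 0) :: rowTerms M l
  | _, _ => []

/-- The values of monomials in three numbers. -/
noncomputable def monVals (M : List Mono) (a b c : ℝ) : List ℝ :=
  M.map fun e => a ^ e.1 * b ^ e.2.1 * c ^ e.2.2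

lemma evalT_rowTerms (x : Fin 4 → ℝ) : ∀ (M : List Mono) (l : List ℤ),
    evalT (rowTerms M l) x = dot l (monVals M (x 0) (x 1) (x 2))
  | [], l => by cases l <;> simp [rowTerms, evalT, monVals, dot]
  | _ :: _, [] => by simp [rowTerms, evalT, dot]
  | e :: M, c :: l => by
      have ih := evalT_rowTerms x M l
      simp only [evalT] at ih
      simp only [rowTerms, evalT, List.map_cons, List.sum_cons, ih, termVal, monVals, dot]
      ring

/-- The defect of one row. -/
def rowId (o : Ops α) (M : List Mono) (k : ℤ) (μ : Expo) (l : List ℤ) (x : Fin 4 → α) : α :=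
  o.add (o.mul (o.cst k) (symO o μ (totFour o x)))
    (o.mul (o.cst (-1)) (evO o (rowTerms M l) (invVars o (totFour o x))))

lemma rel_totFour (i : Fin 4) :
    Rel L (fun x => totFour rOps x i) (totFour kOps L.var i) := by
  fin_cases i
  · exact rel_var L 0
  · exact rel_var L 1
  · exact rel_var L 2
  · exact rel_add (rel_cst L 4)
      (rel_mul (rel_cst L (-1)) (rel_add (rel_var L 0) (rel_add (rel_var L 1) (rel_var L 2))))

lemma rel_ctrOne {F : (Fin 4 → ℝ) → Fin 4 → ℝ} {V : Fin 4 → KV}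
    (h : ∀ i, Rel L (fun x => F x i) (V i)) (i : Fin 4) :
    Rel L (fun x => ctrOne rOps (F x) i) (ctrOne kOps V i) :=
  rel_add (h i) (rel_cst L (-1))

lemma rel_invVars {F : (Fin 4 → ℝ) → Fin 4 → ℝ} {V : Fin 4 → KV}
    (h : ∀ i, Rel L (fun x => F x i) (V i)) : ∀ i : Fin 4,
    Rel L (fun x => invVars rOps (F x) i) (invVars kOps V i)
  | ⟨0, _⟩ => rel_pw4 (rel_ctrOne h) 2
  | ⟨1, _⟩ => rel_pw4 (rel_ctrOne h) 3
  | ⟨2, _⟩ => rel_pw4 (rel_ctrOne h) 4
  | ⟨3, _⟩ => rel_cst L 0

/-- The centred power sums of the scaled point. -/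
noncomputable def cS (k : ℕ) (p : Fin 4 → ℝ) : ℝ :=
  (4 * p 0 - 1) ^ k + (4 * p 1 - 1) ^ k + ((4 * p 2 - 1) ^ k + (4 * p 3 - 1) ^ k)

/-- A checked row holds on the simplex. -/
theorem row_expand {M : List Mono} {k : ℤ} {μ : Expo} {l : List ℤ}
    (h : zeroOK L (rowId kOps M k μ l L.var) = true) {p : Fin 4 → ℝ}
    (hp : p 0 + p 1 + p 2 + p 3 = 1) :
    (k : ℝ) * symR μ (fun i => 4 * p i) = dot l (monVals M (cS 2 p) (cS 3 p) (cS 4 p)) := by
  have hx := rel_zero (rel_add (rel_mul (rel_cst L k) (rel_symO rel_totFour μ))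
    (rel_mul (rel_cst L (-1)) (rel_evO (rel_invVars rel_totFour) (rowTerms M l)))) h
    ![4 * p 0, 4 * p 1, 4 * p 2, 0]
  simp only [evO_r, symO_r, evalT_rowTerms] at hx
  have et : totFour rOps ![4 * p 0, 4 * p 1, 4 * p 2, 0] = fun i => 4 * p i := by
    funext i
    fin_cases i <;> simp [totFour, rOps]
    linarith
  rw [et] at hx
  simp only [invVars, pw4, sum4, ctrOne, powO_r, Matrix.cons_val_zero, Matrix.cons_val_one, Matrix.cons_val] at hx
  simp only [rOps] at hx
  push_cast at hx
  simp only [cS, sub_eq_add_neg]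
  linarith

/-- A bilinear term. -/
abbrev BTerm := ℤ × List ℤ × List ℤ

/-- The matrix of a sum of bilinear terms. -/
def mk (n : ℕ) : List BTerm → List (List ℤ)
  | [] => List.replicate n (List.replicate n 0)
  | t :: T => List.zipWith Lst.add (t.2.1.map fun a => scale (t.1 * a) t.2.2) (mk n T)

/-- All vectors have length `n`. -/
def termsOK (n : ℕ) (T : List BTerm) : Bool :=
  T.all fun t => decide (t.2.1.length = n) && decide (t.2.2.length = n)

lemma bil_zipAdd : ∀ (A B : List (List ℤ)) (φ ψ : List ℝ), A.length = B.length →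
    (∀ r ∈ A, r.length = ψ.length) → (∀ r ∈ B, r.length = ψ.length) →
    bil (List.zipWith Lst.add A B) φ ψ = bil A φ ψ + bil B φ ψ
  | [], [], φ, ψ, _, _, _ => by cases φ <;> simp [bil]
  | [], _ :: _, _, _, h, _, _ => by simp at h
  | _ :: _, [], _, _, h, _, _ => by simp at h
  | a :: A, b :: B, [], ψ, _, _, _ => by simp [bil]
  | a :: A, b :: B, x :: φ, ψ, h, ha, hb => by
      have := bil_zipAdd A B φ ψ (by simpa using h) (fun r hr => ha r (by simp [hr]))
        (fun r hr => hb r (by simp [hr]))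
      simp only [List.zipWith_cons_cons, bil, this]
      rw [dot_add a b ψ (by rw [ha a (by simp), hb b (by simp)])]
      ring

lemma bil_scaleRows (c : ℤ) (r : List ℤ) : ∀ (l : List ℤ) (φ ψ : List ℝ),
    bil (l.map fun a => scale (c * a) r) φ ψ = (c : ℝ) * dot l φ * dot r ψ
  | [], φ, ψ => by simp [bil, dot]
  | a :: l, [], ψ => by simp [bil, dot]
  | a :: l, x :: φ, ψ => by
      simp only [List.map_cons, bil, dot_scale, bil_scaleRows c r l φ ψ, dot]
      push_cast
      ring

lemma dot_zeros : ∀ (n : ℕ) (v : List ℝ), dot (List.replicate n 0) v = 0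
  | 0, v => by simp [dot]
  | n + 1, [] => by simp [List.replicate_succ, dot]
  | n + 1, a :: v => by simp [List.replicate_succ, dot, dot_zeros n v]

lemma bil_zeros (ψ : List ℝ) (z : List ℤ) (hz : dot z ψ = 0) : ∀ (n : ℕ) (φ : List ℝ),
    bil (List.replicate n z) φ ψ = 0
  | 0, φ => by simp [bil]
  | n + 1, [] => by simp [List.replicate_succ, bil]
  | n + 1, a :: φ => by simp [List.replicate_succ, bil, hz, bil_zeros ψ z hz n φ]

lemma mk_spec (n : ℕ) (φ ψ : List ℝ) (hψ : ψ.length = n) : ∀ T : List BTerm, termsOK n T = true →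
    (mk n T).length = n ∧ (∀ r ∈ mk n T, r.length = n) ∧
      bil (mk n T) φ ψ = (T.map fun t => (t.1 : ℝ) * dot t.2.1 φ * dot t.2.2 ψ).sum
  | [], _ => by
      refine ⟨by simp [mk], fun r hr => ?_, ?_⟩
      · obtain rfl := List.eq_of_mem_replicate (show r ∈ List.replicate n (List.replicate n 0) from hr)
        simp
      · simp only [mk, List.map_nil, List.sum_nil]
        exact bil_zeros ψ _ (dot_zeros n ψ) n φ
  | t :: T, h => by
      simp only [termsOK, List.all_cons, Bool.and_eq_true, decide_eq_true_eq] at h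
      obtain ⟨⟨h1, h2⟩, h3⟩ := h
      obtain ⟨i1, i2, i3⟩ := mk_spec n φ ψ hψ T h3
      refine ⟨by simp [mk, h1, i1], fun r hr => ?_, ?_⟩
      · simp only [mk, List.mem_iff_getElem, List.length_zipWith, List.length_map] at hr
        obtain ⟨i, hi, rfl⟩ := hr
        simp only [List.getElem_zipWith, List.getElem_map, add_length, scale_length, h2]
        rw [i2 _ (List.getElem_mem _), min_self]
      · rw [mk, bil_zipAdd, bil_scaleRows, i3, List.map_cons, List.sum_cons]
        · simp [h1, i1]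
        · intro r hr
          simp only [List.mem_map] at hr
          obtain ⟨a, _, rfl⟩ := hr
          rw [scale_length, h2, hψ]
        · intro r hr
          rw [i2 r hr, hψ]

/-- The first row and column vanish. -/
def edgeZero : List (List ℤ) → Bool
  | [] => true
  | r :: C => r.all (· == 0) && C.all (fun r => r.headD 0 == 0)

lemma bil_drop {C : List (List ℤ)} (h : edgeZero C = true) (a b : ℝ) (φ ψ : List ℝ) :
    bil C (a :: φ) (b :: ψ) = bil (C.tail.map List.tail) φ ψ := by
  cases C with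
  | nil => simp [bil]
  | cons r C =>
      simp only [edgeZero, Bool.and_eq_true, List.all_eq_true, beq_iff_eq] at h
      obtain ⟨h1, h2⟩ := h
      have h0 : dot r (b :: ψ) = 0 := by
        generalize b :: ψ = v
        induction r generalizing v with
        | nil => simp [dot]
        | cons c r ih =>
            cases v with
            | nil => simp [dot]
            | cons u v =>
                simp only [dot, h1 c (by simp), ih (fun x hx => h1 x (by simp [hx])) v]
                simp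
      simp only [bil, h0, mul_zero, zero_add, List.tail_cons]
      clear h0 h1 r
      induction C generalizing φ with
      | nil => simp [bil]
      | cons r C ih =>
          cases φ with
          | nil => simp [bil]
          | cons x φ =>
              simp only [bil, List.map_cons, ih φ (fun q hq => h2 q (by simp [hq]))]
              cases r with
              | nil => simp [dot]
              | cons c r =>
                  have hc : c = 0 := by simpa using h2 (c :: r) (by simp)
                  simp [dot, hc]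

lemma dot_smul (k : ℝ) (r : List ℤ) (ψ : List ℝ) : dot r (ψ.map (k * ·)) = k * dot r ψ :=
  dot_map k r ψ

lemma bil_smul (j k : ℝ) : ∀ (C : List (List ℤ)) (φ ψ : List ℝ),
    bil C (φ.map (j * ·)) (ψ.map (k * ·)) = j * k * bil C φ ψ
  | [], φ, ψ => by simp [bil]
  | _ :: _, [], ψ => by simp [bil]
  | r :: C, x :: φ, ψ => by
      simp only [List.map_cons, bil, dot_map, bil_smul j k C φ ψ]
      ring

end Vale.Agent.P154.Aux4
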