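import Vale.Agent.P154.Recursion

/-!
P154: above the Kesten-Stigum threshold there is reconstruction, for every offspring law.

The census of one colour, pruned at vertices with more than `K` children, correlates with the
root. One Cauchy-Schwarz inequality for each tree bounds the correlation by the total variation.
-/

namespace Vale.Agent.P154

open scoped BigOperators ENNReal
open Filter Topology

variable {q : ℕ} [NeZero q]

/-- The centred indicator of one spin value. -/
noncomputable def centred (i : Fin q) : ℝ := (if i = 0 then 1 else 0) - 1 / (q : ℝ)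

/-- The pruned census of the observed spins. -/
noncomputable def census (K : ℕ) : (n : ℕ) → (T : Tree n) → Obs q n T → ℝ
  | 0, _, τ => centred (q := q) τ
  | n + 1, T, τ => if T.1 ≤ K then ∑ a, census K n (T.2 a) (τ a) else 0

/-- The number of observed vertices that survive the pruning. -/
noncomputable def kept (K : ℕ) : (n : ℕ) → Tree n → ℝ
  | 0, _ => 1
  | n + 1, T => if T.1 ≤ K then ∑ a, kept K n (T.2 a) else 0

/-- The normalised bound for the second moment of the census. -/
noncomputable def spread (K : ℕ) (r : ℝ) : (n : ℕ) → Tree n → ℝ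
  | 0, _ => 1
  | n + 1, T => if T.1 ≤ K then
      ∑ a, (r * spread K r n (T.2 a) +
        ∑ b ∈ Finset.univ.erase a, kept K n (T.2 a) * kept K n (T.2 b)) else 0

omit [NeZero q] in
lemma kept_nonneg (K : ℕ) : ∀ n T, 0 ≤ kept K n T
  | 0, _ => zero_le_one
  | n + 1, T => by
      simp only [kept]; split_ifs
      · exact Finset.sum_nonneg fun a _ => kept_nonneg K n _
      · exact le_rfl

omit [NeZero q] in
lemma spread_nonneg (K : ℕ) {r : ℝ} (hr : 0 ≤ r) : ∀ n T, 0 ≤ spread K r n T
  | 0, _ => zero_le_one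
  | n + 1, T => by
      simp only [spread]; split_ifs
      · exact Finset.sum_nonneg fun a _ => add_nonneg (mul_nonneg hr (spread_nonneg K hr n _))
          (Finset.sum_nonneg fun b _ => mul_nonneg (kept_nonneg K n _) (kept_nonneg K n _))
      · exact le_rfl

lemma sum_centred : ∑ i : Fin q, centred i = 0 := by
  have hq : (q : ℝ) ≠ 0 := Nat.cast_ne_zero.mpr (NeZero.ne q)
  simp [centred, Finset.sum_sub_distrib, hq]

lemma abs_centred_le (i : Fin q) : |centred i| ≤ 1 := by
  have hq : (1 : ℝ) ≤ q := by exact_mod_cast NeZero.one_le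
  have h1 : 0 ≤ 1 / (q : ℝ) := by positivity
  have h2 : 1 / (q : ℝ) ≤ 1 := by rw [div_le_one (by linarith)]; exact hq
  simp only [centred]
  split_ifs <;> rw [abs_le] <;> constructor <;> linarith

omit [NeZero q] in
/-- Moments of a product family with total mass one in each factor. -/
lemma sum_pi_marked {k : ℕ} {ι : Fin k → Type} [∀ a, Fintype (ι a)] (A x : (a : Fin k) → ι a → ℝ)
    (hA : ∀ a, ∑ t, A a t = 1) (S : Finset (Fin k)) :
    ∑ τ : (a : Fin k) → ι a, (∏ a, A a (τ a)) * ∏ a ∈ S, x a (τ a) =
      ∏ a ∈ S, ∑ t, A a t * x a t := by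
  classical
  have e : ∀ τ : (a : Fin k) → ι a, (∏ a, A a (τ a)) * ∏ a ∈ S, x a (τ a) =
      ∏ a, (if a ∈ S then A a (τ a) * x a (τ a) else A a (τ a)) := by
    intro τ
    rw [← Fintype.prod_extend_by_one S fun a => x a (τ a), ← Finset.prod_mul_distrib]
    exact Finset.prod_congr rfl fun a _ => by split_ifs <;> simp
  simp only [e]
  rw [← Fintype.prod_sum fun a t => if a ∈ S then A a t * x a t else A a t,
    ← Fintype.prod_extend_by_one S fun a => ∑ t, A a t * x a t]
  refine Finset.prod_congr rfl fun a _ => ?_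
  by_cases ha : a ∈ S <;> simp [ha, hA]

omit [NeZero q] in
/-- The second moment of a sum of independent terms. -/
lemma sum_pi_sq {k : ℕ} {ι : Fin k → Type} [∀ a, Fintype (ι a)] (A x : (a : Fin k) → ι a → ℝ)
    (hA : ∀ a, ∑ t, A a t = 1) :
    ∑ τ : (a : Fin k) → ι a, (∏ a, A a (τ a)) * (∑ a, x a (τ a)) ^ 2 =
      ∑ a, ((∑ t, A a t * x a t ^ 2) +
        ∑ b ∈ Finset.univ.erase a, (∑ t, A a t * x a t) * ∑ t, A b t * x b t) := by
  classical
  have e : ∀ τ : (a : Fin k) → ι a, (∏ a, A a (τ a)) * (∑ a, x a (τ a)) ^ 2 =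
      ∑ a, ((∏ c, A c (τ c)) * ∏ c ∈ {a}, x c (τ c) ^ 2 +
        ∑ b ∈ Finset.univ.erase a, (∏ c, A c (τ c)) * ∏ c ∈ {a, b}, x c (τ c)) := by
    intro τ
    rw [sq, Finset.sum_mul_sum, Finset.mul_sum]
    refine Finset.sum_congr rfl fun a _ => ?_
    rw [← Finset.add_sum_erase _ _ (Finset.mem_univ a), mul_add, Finset.mul_sum]
    congr 1
    · simp [sq]
    · refine Finset.sum_congr rfl fun b hb => ?_
      rw [Finset.prod_pair (Finset.ne_of_mem_erase hb).symm]
  simp only [e]
  rw [Finset.sum_comm]
  refine Finset.sum_congr rfl fun a _ => ?_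
  rw [Finset.sum_add_distrib, Finset.sum_comm]
  congr 1
  · simpa using sum_pi_marked A (fun c t => x c t ^ 2) hA {a}
  · refine Finset.sum_congr rfl fun b hb => ?_
    rw [sum_pi_marked A x hA {a, b}, Finset.prod_pair (Finset.ne_of_mem_erase hb).symm]

omit [NeZero q] in
/-- The child's marginal at the parent. -/
lemma sum_chan_mul {ι : Type} [Fintype ι] (lam : ℝ) (w : ι → Fin q → ℝ) (x : ι → ℝ) (i : Fin q) :
    ∑ t, chanMap lam (w t) i * x t = ∑ j, potts q lam i j * ∑ t, w t j * x t := by
  simp only [chanMap, Finset.sum_mul, Finset.mul_sum]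
  rw [Finset.sum_comm]
  exact Finset.sum_congr rfl fun j _ => Finset.sum_congr rfl fun t _ => by ring

lemma sum_potts (lam : ℝ) (i : Fin q) : ∑ j, potts q lam i j = 1 := by
  have hq : (q : ℝ) ≠ 0 := Nat.cast_ne_zero.mpr (NeZero.ne q)
  simp [potts, Finset.sum_add_distrib, mul_div_cancel₀ _ hq]

lemma sum_potts_centred (lam : ℝ) (i : Fin q) :
    ∑ j, potts q lam i j * centred j = lam * centred i := by
  have := chanMap_eq lam (centred (q := q)) i
  rw [sum_centred, mul_zero, add_zero] at this
  exact this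

variable (hq : 2 ≤ q) {lam : ℝ} (h0 : -1 / ((q : ℝ) - 1) ≤ lam) (h1 : lam ≤ 1)

include hq h0 h1

/-- The mean of the census given the root. -/
lemma census_mean (K : ℕ) : ∀ (n : ℕ) (T : Tree n) (i : Fin q),
    ∑ τ, lik q lam n T τ i * census K n T τ = lam ^ n * kept K n T * centred i := by
  classical
  intro n
  induction n with
  | zero =>
      intro T i
      simp only [lik_zero]
      refine (Finset.sum_eq_single (M := ℝ) i (fun b _ hb => mul_eq_zero_of_left (if_neg hb) _)
        (fun h => absurd (Finset.mem_univ _) h)).trans ?_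
      refine (congrArg (fun u : ℝ => u * census K 0 T i) (if_pos rfl)).trans ?_
      simp [census, kept]
  | succ n ih =>
      intro T i
      simp only [lik_succ, prodFam, census, kept]
      by_cases hk : T.1 ≤ K
      · simp only [if_pos hk, Finset.mul_sum]
        rw [Finset.sum_comm, Finset.sum_mul]
        refine Finset.sum_congr rfl fun a _ => ?_
        have hA : ∀ b, ∑ t, chanMap lam (lik q lam n (T.2 b) t) i = 1 := by
          intro b
          simpa [(lik_balanced hq h0 h1 n (T.2 b)).1.marg, sum_potts]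
            using sum_chan_mul lam (lik q lam n (T.2 b)) (fun _ => 1) i
        have := sum_pi_marked (fun b t => chanMap lam (lik q lam n (T.2 b) t) i)
          (fun b t => census K n (T.2 b) t) hA {a}
        simp only [Finset.prod_singleton] at this
        refine this.trans ?_
        rw [sum_chan_mul]
        simp only [ih]
        calc ∑ j, potts q lam i j * (lam ^ n * kept K n (T.2 a) * centred j)
            = lam ^ n * kept K n (T.2 a) * ∑ j, potts q lam i j * centred j := by
              rw [Finset.mul_sum]; exact Finset.sum_congr rfl fun j _ => by ring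
          _ = _ := by rw [sum_potts_centred]; ring
      · simp [if_neg hk]

/-- The second moment of the census given the root. -/
lemma census_sq_le (hl : lam ≠ 0) (K : ℕ) : ∀ (n : ℕ) (T : Tree n) (i : Fin q),
    ∑ τ, lik q lam n T τ i * census K n T τ ^ 2 ≤
      (lam ^ 2) ^ n * spread K (1 / lam ^ 2) n T := by
  classical
  intro n
  induction n with
  | zero =>
      intro T i
      simp only [lik_zero]
      refine le_of_eq_of_le (Finset.sum_eq_single (M := ℝ) i
        (fun b _ hb => mul_eq_zero_of_left (if_neg hb) _) (fun h => absurd (Finset.mem_univ _) h)) ?_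
      refine le_of_eq_of_le (congrArg (fun u : ℝ => u * census K 0 T i ^ 2) (if_pos rfl)) ?_
      simp [census, spread, sq_le_one_iff_abs_le_one, abs_centred_le]
  | succ n ih =>
      intro T i
      simp only [lik_succ, prodFam, census, spread]
      by_cases hk : T.1 ≤ K
      · simp only [if_pos hk]
        have hA : ∀ b, ∑ t, chanMap lam (lik q lam n (T.2 b) t) i = 1 := by
          intro b
          simpa [(lik_balanced hq h0 h1 n (T.2 b)).1.marg, sum_potts]
            using sum_chan_mul lam (lik q lam n (T.2 b)) (fun _ => 1) i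
        refine le_of_eq_of_le (sum_pi_sq (fun b t => chanMap lam (lik q lam n (T.2 b) t) i)
          (fun b t => census K n (T.2 b) t) hA) ?_
        rw [Finset.mul_sum]
        refine Finset.sum_le_sum fun a _ => ?_
        rw [mul_add]
        refine add_le_add ?_ ?_
        · rw [sum_chan_mul]
          calc ∑ j, potts q lam i j * ∑ t, lik q lam n (T.2 a) t j * census K n (T.2 a) t ^ 2
              ≤ ∑ j, potts q lam i j * ((lam ^ 2) ^ n * spread K (1 / lam ^ 2) n (T.2 a)) :=
                Finset.sum_le_sum fun j _ =>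
                  mul_le_mul_of_nonneg_left (ih _ j) (potts_nonneg hq h0 h1 i j)
            _ = _ := by
                rw [← Finset.sum_mul, sum_potts]
                field_simp
                ring
        · rw [Finset.mul_sum]
          refine Finset.sum_le_sum fun b _ => ?_
          simp only [sum_chan_mul, census_mean hq h0 h1]
          have e : ∀ c, ∑ j, potts q lam i j * (lam ^ n * kept K n (T.2 c) * centred j) =
              lam ^ n * kept K n (T.2 c) * (lam * centred i) := by
            intro c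
            rw [← sum_potts_centred lam i, Finset.mul_sum]
            exact Finset.sum_congr rfl fun j _ => by ring
          rw [e, e]
          have hc : centred i ^ 2 ≤ 1 := sq_le_one_iff_abs_le_one _ |>.mpr (abs_centred_le i)
          have hnn : 0 ≤ (lam ^ 2) ^ (n + 1) * (kept K n (T.2 a) * kept K n (T.2 b)) :=
            mul_nonneg (by positivity) (mul_nonneg (kept_nonneg K n _) (kept_nonneg K n _))
          calc _ = (lam ^ 2) ^ (n + 1) * (kept K n (T.2 a) * kept K n (T.2 b)) * centred i ^ 2 := by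
                ring
            _ ≤ _ := mul_le_of_le_one_right hnn hc
      · simp [if_neg hk]

omit hq h0 h1 in
/-- The variance of the centred indicator. -/
lemma centred_var_pos (hq : 2 ≤ q) : 0 < (∑ i : Fin q, centred i ^ 2) / q := by
  have hq' : (2 : ℝ) ≤ q := by exact_mod_cast hq
  refine div_pos ?_ (by linarith)
  refine lt_of_lt_of_le ?_ (Finset.single_le_sum (fun i _ => sq_nonneg (centred (q := q) i))
    (Finset.mem_univ 0))
  have : centred (0 : Fin q) = ((q : ℝ) - 1) / q := by
    simp only [centred, if_true]; field_simp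
  rw [this]
  have : 0 < ((q : ℝ) - 1) / q := div_pos (by linarith) (by linarith)
  positivity

/-- The correlation inequality on a fixed tree. -/
lemma kept_le_treeDist (hl : lam ≠ 0) (K n : ℕ) (T : Tree n) {s : ℝ} (hs : 0 < s) :
    (∑ i : Fin q, centred i ^ 2) / q * kept K n T ≤
      s / 2 * spread K (1 / lam ^ 2) n T + treeDist q lam n T / s := by
  set v := (∑ i : Fin q, centred i ^ 2) / q with hv
  have hq0 : (0 : ℝ) < q := by exact_mod_cast (show 0 < q by omega)
  set w := lik q lam n T with hw
  set t := s / |lam| ^ n with ht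
  have hlp : 0 < |lam| ^ n := pow_pos (abs_pos.mpr hl) n
  have ht0 : 0 < t := div_pos hs hlp
  have hwn : ∀ τ i, 0 ≤ w τ i := (lik_balanced hq h0 h1 n T).1.nonneg
  have hG : ∑ τ, census K n T τ * ((∑ i, centred i * w τ i) / q) = lam ^ n * kept K n T * v := by
    simp only [hv, mul_div_assoc', ← Finset.sum_div, Finset.mul_sum]
    rw [Finset.sum_comm]
    congr 1
    refine Finset.sum_congr rfl fun i _ => ?_
    calc ∑ τ, census K n T τ * (centred i * w τ i)
        = centred i * ∑ τ, w τ i * census K n T τ := by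
          rw [Finset.mul_sum]; exact Finset.sum_congr rfl fun τ _ => by ring
      _ = _ := by rw [census_mean hq h0 h1]; ring
  have hpt : ∀ τ, |census K n T τ * ((∑ i, centred i * w τ i) / q)| ≤
      t / 2 * (census K n T τ ^ 2 * ((∑ i, w τ i) / q)) +
        (∑ i, |joint q lam n T i τ - (∑ j, joint q lam n T j τ) / q|) / (2 * t) := by
    intro τ
    set P := (∑ i, w τ i) / q with hP
    set D := ∑ i, |joint q lam n T i τ - (∑ j, joint q lam n T j τ) / q| with hD
    set x := (∑ i, centred i * w τ i) / q with hx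
    set S := census K n T τ
    have hP0 : 0 ≤ P := div_nonneg (Finset.sum_nonneg fun i _ => hwn τ i) hq0.le
    have hD0 : 0 ≤ D := Finset.sum_nonneg fun i _ => abs_nonneg _
    have hxP : |x| ≤ P := by
      rw [hx, hP, abs_div, abs_of_pos hq0]
      refine div_le_div_of_nonneg_right (le_trans (Finset.abs_sum_le_sum_abs _ _)
        (Finset.sum_le_sum fun i _ => ?_)) hq0.le
      rw [abs_mul, abs_of_nonneg (hwn τ i)]
      exact mul_le_of_le_one_left (hwn τ i) (abs_centred_le i)
    have hxD : |x| ≤ D := by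
      have e : x = ∑ i, centred i * (joint q lam n T i τ - (∑ j, joint q lam n T j τ) / q) := by
        simp only [mul_sub, Finset.sum_sub_distrib, ← Finset.sum_mul, sum_centred, zero_mul,
          sub_zero, hx, joint_eq, Finset.sum_div, mul_div_assoc', hw]
      rw [e]
      refine le_trans (Finset.abs_sum_le_sum_abs _ _) (Finset.sum_le_sum fun i _ => ?_)
      rw [abs_mul]
      exact mul_le_of_le_one_left (abs_nonneg _) (abs_centred_le i)
    have hx2 : |x| ^ 2 ≤ P * D := by
      rw [sq]; exact mul_le_mul hxP hxD (abs_nonneg _) hP0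
    have hkey : 2 * t * |S * x| ≤ t ^ 2 * (S ^ 2 * P) + D := by
      refine abs_le_of_sq_le_sq' ?_ (by positivity) |>.2
      calc (2 * t * |S * x|) ^ 2 = 4 * t ^ 2 * S ^ 2 * |x| ^ 2 := by
            rw [abs_mul, mul_pow, mul_pow, mul_pow, sq_abs S]; ring
        _ ≤ 4 * t ^ 2 * S ^ 2 * (P * D) := mul_le_mul_of_nonneg_left hx2 (by positivity)
        _ ≤ _ := by nlinarith [sq_nonneg (t ^ 2 * (S ^ 2 * P) - D)]
    have e : t / 2 * (S ^ 2 * P) + D / (2 * t) = (t ^ 2 * (S ^ 2 * P) + D) / (2 * t) := by
      field_simp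
    rw [e, le_div_iff₀ (by positivity)]
    linarith
  have hsum := (Finset.abs_sum_le_sum_abs _ Finset.univ).trans (Finset.sum_le_sum fun τ _ => hpt τ)
  rw [hG, Finset.sum_add_distrib, ← Finset.mul_sum, ← Finset.sum_div] at hsum
  have hU : ∑ τ, census K n T τ ^ 2 * ((∑ i, w τ i) / q) ≤
      (lam ^ 2) ^ n * spread K (1 / lam ^ 2) n T := by
    simp only [mul_div_assoc', ← Finset.sum_div, Finset.mul_sum]
    rw [Finset.sum_comm, div_le_iff₀ hq0]
    refine (Finset.sum_le_sum fun i _ => ?_).trans (le_of_eq (?_ :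
      ∑ _i : Fin q, (lam ^ 2) ^ n * spread K (1 / lam ^ 2) n T = _))
    · simpa [mul_comm, hw] using census_sq_le hq h0 h1 hl K n T i
    · simp [mul_comm]
  have hdist : (∑ τ, ∑ i, |joint q lam n T i τ - (∑ j, joint q lam n T j τ) / q|) / (2 * t) =
      treeDist q lam n T / t := by
    simp only [treeDist, ← Finset.mul_sum]; ring
  rw [hdist] at hsum
  have hv0 : 0 ≤ v := div_nonneg (Finset.sum_nonneg fun i _ => sq_nonneg _) hq0.le
  rw [abs_mul, abs_mul, abs_pow, abs_of_nonneg (kept_nonneg K n T), abs_of_nonneg hv0] at hsum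
  have h2 : |lam| ^ n * kept K n T * v ≤
      |lam| ^ n * (s / 2 * spread K (1 / lam ^ 2) n T + treeDist q lam n T / s) := by
    refine hsum.trans ?_
    have h3 := mul_le_mul_of_nonneg_left hU (half_pos ht0).le
    have h4 : t / 2 * ((lam ^ 2) ^ n * spread K (1 / lam ^ 2) n T) =
        |lam| ^ n * (s / 2 * spread K (1 / lam ^ 2) n T) := by
      rw [ht, ← sq_abs lam, ← pow_mul, mul_comm 2 n, pow_mul]
      field_simp
    have h5 : treeDist q lam n T / t = |lam| ^ n * (treeDist q lam n T / s) := by
      rw [ht]; field_simp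
    rw [mul_add]
    linarith
  refine le_of_mul_le_mul_left (le_trans (le_of_eq ?_) h2) hlp
  ring

omit hq h0 h1

/-- The mean number of children, pruned at `K`. -/
noncomputable def prunedMean (ν : PMF ℕ) (K : ℕ) : ℝ≥0∞ :=
  ∑ k ∈ Finset.range (K + 1), (k : ℝ≥0∞) * ν k

omit [NeZero q] in
lemma tsum_pruned (ν : PMF ℕ) (K n : ℕ) (H : (k : ℕ) → (Fin k → Tree n) → ℝ≥0∞)
    (h : Tree (n + 1) → ℝ≥0∞)
    (hh : ∀ k (f : Fin k → Tree n), h (node f) = if k ≤ K then H k f else 0) :
    ∑' T, treeProb ν (n + 1) T * h T = ∑ k ∈ Finset.range (K + 1),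
      ν k * ∑' f : Fin k → Tree n, (∏ a, treeProb ν n (f a)) * H k f := by
  rw [tsum_tree_succ, tsum_eq_sum (s := Finset.range (K + 1))]
  · refine Finset.sum_congr rfl fun k hk => ?_
    rw [← ENNReal.tsum_mul_left]
    refine tsum_congr fun f => ?_
    rw [hh, if_pos (Nat.lt_succ_iff.mp (Finset.mem_range.mp hk))]
    show (ν k * ∏ a, treeProb ν n (f a)) * _ = _
    rw [mul_assoc]
  · intro k hk
    rw [Finset.mem_range] at hk
    simp [hh, show ¬ k ≤ K by omega]

omit [NeZero q] in
lemma tsum_kept (ν : PMF ℕ) (K : ℕ) : ∀ n,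
    ∑' T : Tree n, treeProb ν n T * ENNReal.ofReal (kept K n T) = prunedMean ν K ^ n := by
  intro n
  induction n with
  | zero =>
      show ∑' _ : Unit, (1 : ℝ≥0∞) * ENNReal.ofReal 1 = _
      simp
  | succ n ih =>
      rw [tsum_pruned ν K n (fun k f => ∑ a, ENNReal.ofReal (kept K n (f a))) _ ?_]
      · rw [pow_succ', prunedMean, Finset.sum_mul]
        refine Finset.sum_congr rfl fun k _ => ?_
        rw [tsum_tree_sum ν n k fun T => ENNReal.ofReal (kept K n T), ih, prunedMean]
        ring
      · intro k f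
        by_cases hk : k ≤ K
        · rw [kept, if_pos hk, if_pos (show (node f).1 ≤ K from hk)]
          exact ENNReal.ofReal_sum_of_nonneg fun a _ => kept_nonneg K n _
        · rw [kept, if_neg hk, if_neg (show ¬ (node f).1 ≤ K from hk)]
          exact ENNReal.ofReal_zero

omit [NeZero q] in
lemma tsum_spread_succ_le (ν : PMF ℕ) (K n : ℕ) {r : ℝ} (hr : 0 ≤ r) :
    ∑' T, treeProb ν (n + 1) T * ENNReal.ofReal (spread K r (n + 1) T) ≤
      ENNReal.ofReal r * prunedMean ν K *
          (∑' T, treeProb ν n T * ENNReal.ofReal (spread K r n T)) +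
        (K : ℝ≥0∞) ^ 2 * (prunedMean ν K ^ n) ^ 2 := by
  classical
  set Y := ∑' T, treeProb ν n T * ENNReal.ofReal (spread K r n T)
  have hk2 : ∀ k (f : Fin k → Tree n) (a : Fin k), ∀ b ∈ Finset.univ.erase a,
      0 ≤ kept K n (f a) * kept K n (f b) :=
    fun k f a b _ => mul_nonneg (kept_nonneg K n _) (kept_nonneg K n _)
  rw [tsum_pruned ν K n (fun k f => ∑ a, (ENNReal.ofReal r * ENNReal.ofReal (spread K r n (f a)) +
    ∑ b ∈ Finset.univ.erase a, ∏ c ∈ {a, b}, ENNReal.ofReal (kept K n (f c)))) _ ?_]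
  · calc ∑ k ∈ Finset.range (K + 1), ν k * _
        ≤ ∑ k ∈ Finset.range (K + 1),
          (ENNReal.ofReal r * ((k : ℝ≥0∞) * ν k) * Y +
            ν k * ((K : ℝ≥0∞) ^ 2 * (prunedMean ν K ^ n) ^ 2)) := by
          refine Finset.sum_le_sum fun k hk => ?_
          have hkK : k ≤ K := Nat.lt_succ_iff.mp (Finset.mem_range.mp hk)
          simp only [Finset.sum_add_distrib, mul_add, ← Finset.mul_sum, ENNReal.tsum_add,
            mul_left_comm _ (ENNReal.ofReal r), ENNReal.tsum_mul_left,
            tsum_tree_sum ν n k fun T => ENNReal.ofReal (spread K r n T)]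
          refine add_le_add (le_of_eq (by ring)) (mul_le_mul_right ?_ _)
          simp only [Finset.mul_sum]
          rw [Summable.tsum_finsetSum fun _ _ => ENNReal.summable]
          calc ∑ a : Fin k, ∑' f : Fin k → Tree n, ∑ b ∈ Finset.univ.erase a, _
              ≤ ∑ _a : Fin k, (k : ℝ≥0∞) * (prunedMean ν K ^ n) ^ 2 := by
                refine Finset.sum_le_sum fun a _ => ?_
                rw [Summable.tsum_finsetSum fun _ _ => ENNReal.summable]
                refine (Finset.sum_le_sum (g := fun _ => (prunedMean ν K ^ n) ^ 2)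
                  fun b hb => le_of_eq ?_).trans ?_
                · rw [tsum_tree_marked ν n k (fun T => ENNReal.ofReal (kept K n T)), tsum_kept,
                    Finset.card_pair (Finset.ne_of_mem_erase hb).symm]
                · simp only [Finset.sum_const, nsmul_eq_mul]
                  refine mul_le_mul_left ?_ _
                  exact_mod_cast (Finset.card_erase_le.trans (by simp))
            _ ≤ _ := by
                simp only [Finset.sum_const, Finset.card_univ, Fintype.card_fin, nsmul_eq_mul,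
                  ← mul_assoc]
                rw [sq (K : ℝ≥0∞)]
                gcongr
      _ ≤ _ := by
          rw [Finset.sum_add_distrib, ← Finset.sum_mul, ← Finset.sum_mul, ← Finset.mul_sum]
          refine add_le_add le_rfl (mul_le_of_le_one_left zero_le ?_)
          exact (ENNReal.sum_le_tsum _).trans ν.tsum_coe.le
  · intro k f
    by_cases hk : k ≤ K
    · rw [spread, if_pos hk, if_pos (show (node f).1 ≤ K from hk)]
      show ENNReal.ofReal (∑ a : Fin k, (r * spread K r n (f a) +
        ∑ b ∈ Finset.univ.erase a, kept K n (f a) * kept K n (f b))) = _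
      rw [ENNReal.ofReal_sum_of_nonneg fun a _ => add_nonneg
        (mul_nonneg hr (spread_nonneg K hr n _)) (Finset.sum_nonneg (hk2 k f a))]
      refine Finset.sum_congr rfl fun a _ => ?_
      rw [ENNReal.ofReal_add (mul_nonneg hr (spread_nonneg K hr n _))
        (Finset.sum_nonneg (hk2 k f a)), ENNReal.ofReal_mul hr,
        ENNReal.ofReal_sum_of_nonneg (hk2 k f a)]
      congr 1
      refine Finset.sum_congr rfl fun b hb => ?_
      rw [Finset.prod_pair (Finset.ne_of_mem_erase hb).symm,
        ENNReal.ofReal_mul (kept_nonneg K n _)]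
    · rw [spread, if_neg hk, if_neg (show ¬ (node f).1 ≤ K from hk)]
      exact ENNReal.ofReal_zero

/-- Above the Kesten-Stigum threshold `a_n` is bounded away from zero. -/
theorem reconDist_lower (hq : 2 ≤ q) {lam : ℝ} (h0 : -1 / ((q : ℝ) - 1) ≤ lam) (h1 : lam ≤ 1)
    {ν : PMF ℕ} (hks : 1 < offspringMean ν * ENNReal.ofReal (lam ^ 2)) :
    ∃ c : ℝ, 0 < c ∧ ∀ n, ENNReal.ofReal c ≤ reconDist q lam ν n := by
  have hl : lam ≠ 0 := by
    rintro rfl
    simp at hks
  obtain ⟨K, hK⟩ : ∃ K, 1 < prunedMean ν K * ENNReal.ofReal (lam ^ 2) := by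
    rw [offspringMean, ENNReal.tsum_eq_iSup_nat, ENNReal.iSup_mul] at hks
    obtain ⟨K, hK⟩ := lt_iSup_iff.mp hks
    refine ⟨K, hK.trans_le (mul_le_mul_left ?_ _)⟩
    exact Finset.sum_le_sum_of_subset (Finset.range_mono (Nat.le_succ K))
  have htop : prunedMean ν K ≠ ⊤ :=
    ENNReal.sum_ne_top.mpr fun k _ =>
      ENNReal.mul_ne_top (ENNReal.natCast_ne_top k) (ν.apply_ne_top k)
  obtain ⟨m, hm0, hm⟩ : ∃ m : ℝ, 0 ≤ m ∧ prunedMean ν K = ENNReal.ofReal m :=
    ⟨_, ENNReal.toReal_nonneg, (ENNReal.ofReal_toReal htop).symm⟩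
  rw [hm, ← ENNReal.ofReal_mul hm0, ENNReal.one_lt_ofReal] at hK
  have hl2 : 0 < lam ^ 2 := by positivity
  have hmp : 0 < m := by nlinarith
  set r := 1 / lam ^ 2 with hr
  have hr0 : 0 ≤ r := by positivity
  have hden : 0 < m ^ 2 - r * m := by
    have : r < m := by rw [hr, div_lt_iff₀ hl2]; linarith
    nlinarith
  set C := 1 + (K : ℝ) ^ 2 / (m ^ 2 - r * m) with hC
  have hC1 : 1 ≤ C := le_add_of_nonneg_right (by positivity)
  have hCrec : r * m * C + (K : ℝ) ^ 2 ≤ m ^ 2 * C := by
    have : (m ^ 2 - r * m) * C = (m ^ 2 - r * m) + (K : ℝ) ^ 2 := by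
      rw [hC, mul_add, mul_one, mul_div_cancel₀ _ hden.ne']
    linarith
  have hY : ∀ n, ∑' T : Tree n, treeProb ν n T * ENNReal.ofReal (spread K r n T) ≤
      ENNReal.ofReal (C * (m ^ n) ^ 2) := by
    intro n
    induction n with
    | zero =>
        show ∑' _ : Unit, (1 : ℝ≥0∞) * ENNReal.ofReal 1 ≤ _
        simpa using ENNReal.one_le_ofReal.mpr hC1
    | succ n ih =>
        refine (tsum_spread_succ_le ν K n hr0).trans ?_
        rw [hm, ← ENNReal.ofReal_pow hm0, ← ENNReal.ofReal_pow (pow_nonneg hm0 n),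
          ← ENNReal.ofReal_natCast K, ← ENNReal.ofReal_pow (Nat.cast_nonneg K),
          ← ENNReal.ofReal_mul hr0, ← ENNReal.ofReal_mul (by positivity)]
        calc _ ≤ ENNReal.ofReal (r * m) * ENNReal.ofReal (C * (m ^ n) ^ 2) +
              ENNReal.ofReal ((K : ℝ) ^ 2 * (m ^ n) ^ 2) :=
              add_le_add (mul_le_mul_right ih _) le_rfl
          _ ≤ _ := by
              rw [← ENNReal.ofReal_mul (by positivity), ← ENNReal.ofReal_add (by positivity)
                (by positivity)]
              refine ENNReal.ofReal_le_ofReal ?_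
              calc r * m * (C * (m ^ n) ^ 2) + (K : ℝ) ^ 2 * (m ^ n) ^ 2
                  = (r * m * C + (K : ℝ) ^ 2) * (m ^ n) ^ 2 := by ring
                _ ≤ m ^ 2 * C * (m ^ n) ^ 2 := mul_le_mul_of_nonneg_right hCrec (by positivity)
                _ = C * (m ^ (n + 1)) ^ 2 := by ring
  have hv := centred_var_pos (q := q) hq
  set v := (∑ i : Fin q, centred i ^ 2) / q
  refine ⟨v ^ 2 / (2 * C), by positivity, fun n => ?_⟩
  set s := v / (C * m ^ n) with hs
  have hs0 : 0 < s := div_pos hv (by positivity)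
  have hpt : ∀ T : Tree n, ENNReal.ofReal v * (treeProb ν n T * ENNReal.ofReal (kept K n T)) ≤
      ENNReal.ofReal (s / 2) * (treeProb ν n T * ENNReal.ofReal (spread K r n T)) +
        ENNReal.ofReal (1 / s) * (treeProb ν n T * ENNReal.ofReal (treeDist q lam n T)) := by
    intro T
    have hd : 0 ≤ treeDist q lam n T :=
      Finset.sum_nonneg fun τ _ => mul_nonneg (by norm_num)
        (Finset.sum_nonneg fun i _ => abs_nonneg _)
    rw [mul_left_comm, mul_left_comm (ENNReal.ofReal (s / 2)),
      mul_left_comm (ENNReal.ofReal (1 / s)), ← mul_add, ← ENNReal.ofReal_mul hv.le,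
      ← ENNReal.ofReal_mul (by positivity), ← ENNReal.ofReal_mul (by positivity),
      ← ENNReal.ofReal_add (mul_nonneg (by positivity) (spread_nonneg K hr0 n T))
        (mul_nonneg (by positivity) hd)]
    refine mul_le_mul_right (ENNReal.ofReal_le_ofReal ?_) _
    rw [one_div_mul_eq_div]
    exact kept_le_treeDist hq h0 h1 hl K n T hs0
  have hall := ENNReal.tsum_le_tsum hpt
  rw [ENNReal.tsum_mul_left, tsum_kept, hm, ← ENNReal.ofReal_pow hm0, ← ENNReal.ofReal_mul hv.le,
    ENNReal.tsum_add, ENNReal.tsum_mul_left, ENNReal.tsum_mul_left] at hall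
  change _ ≤ _ + ENNReal.ofReal (1 / s) * reconDist q lam ν n at hall
  by_cases ha : reconDist q lam ν n = ⊤
  · simp [ha]
  have hall' := hall.trans (add_le_add (mul_le_mul_right (hY n) _) le_rfl)
  rw [← ENNReal.ofReal_toReal ha, ← ENNReal.ofReal_mul (by positivity),
    ← ENNReal.ofReal_mul (by positivity), ← ENNReal.ofReal_add (by positivity) (by positivity),
    ENNReal.ofReal_le_ofReal_iff (by positivity)] at hall'
  rw [ENNReal.ofReal_le_iff_le_toReal ha]
  set a := (reconDist q lam ν n).toReal
  have hmn : 0 < m ^ n := pow_pos hmp n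
  have e1 : s / 2 * (C * (m ^ n) ^ 2) = v * m ^ n / 2 := by rw [hs]; field_simp
  have e2 : 1 / s * a = a * C * m ^ n / v := by rw [hs]; field_simp
  rw [e1, e2] at hall'
  have h3 : v * m ^ n / 2 ≤ a * C * m ^ n / v := by linarith
  rw [le_div_iff₀ hv] at h3
  rw [div_le_iff₀ (by positivity)]
  nlinarith

/-- Reconstruction above the Kesten-Stigum threshold. -/
theorem not_nonReconstruction_of_kestenStigum (hq : 2 ≤ q) {lam : ℝ}
    (h0 : -1 / ((q : ℝ) - 1) ≤ lam) (h1 : lam ≤ 1) {ν : PMF ℕ}
    (hks : 1 < offspringMean ν * ENNReal.ofReal (lam ^ 2)) : ¬ NonReconstruction q lam ν := by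
  obtain ⟨c, hc, hle⟩ := reconDist_lower hq h0 h1 hks
  intro h
  exact absurd (ge_of_tendsto' h hle) (not_le.mpr (ENNReal.ofReal_pos.mpr hc))

end Vale.Agent.P154
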