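import Vale.Agent.P154.AuxModel
import Vale.Agent.P154.KestenStigum

/-!
P154: the ferromagnetic threshold from the two merge inequalities.
-/

namespace Vale.Agent.P154

open scoped ENNReal NNReal
open Filter

/-- Reconstruction: the distances stay bounded away from zero. -/
def Reconstruction (q : ℕ) (lam : ℝ) (ν : PMF ℕ) : Prop :=
  ∃ c : ℝ, 0 < c ∧ ∀ n, ENNReal.ofReal c ≤ reconDist q lam ν n

lemma not_nonReconstruction_of_reconstruction {q : ℕ} {lam : ℝ} {ν : PMF ℕ}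
    (h : Reconstruction q lam ν) : ¬ NonReconstruction q lam ν := by
  obtain ⟨c, hc, hle⟩ := h
  exact fun hn => absurd (ge_of_tendsto' hn hle) (not_le.mpr (ENNReal.ofReal_pos.mpr hc))

/-- The two merge inequalities and the side conditions for one set of parameters. -/
structure FerroCert (q : ℕ) : Prop where
  exists_psi : ∃ K e3 e11 e4 : ℝ, 0 ≤ e3 ∧ e4 ≤ 0 ∧ ((q : ℝ) - 1) * (3 * e3 + 2 * |e11|) ≤ K ∧
    0 ≤ ((q : ℝ) - 1) * ((q : ℝ) - 2) - K * ((q : ℝ) - 1) ^ 2 + e3 * ((q : ℝ) - 1) ^ 3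
      + e11 * (((q : ℝ) - 1) ^ 2 * ((q : ℝ) - 2))
      + e4 * (((q : ℝ) - 1) * ((q : ℝ) ^ 2 - 3 * q + 3)) ∧
    AuxIneq q (psiOf K e3 e11 e4) ∧ MainIneq q potQ (psiOf K e3 e11 e4)

variable {q : ℕ} {lam : ℝ}

/-- The threshold for every offspring law which can branch. -/
theorem threshold_of_cert (hq : 2 ≤ q) (h : FerroCert q) (h0 : 0 ≤ lam) (h1 : lam ≤ 1)
    {ν : PMF ℕ} (hk : ∃ k, 2 ≤ k ∧ ν k ≠ 0) :
    (NonReconstruction q lam ν ↔ offspringMean ν * ENNReal.ofReal (lam ^ 2) ≤ 1) ∧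
      (Reconstruction q lam ν ↔ 1 < offspringMean ν * ENNReal.ofReal (lam ^ 2)) := by
  have : NeZero q := ⟨by omega⟩
  have hl : -1 / ((q : ℝ) - 1) ≤ lam := by
    have hq' : (2 : ℝ) ≤ q := by exact_mod_cast hq
    exact le_trans (div_nonpos_of_nonpos_of_nonneg (by norm_num) (by linarith)) h0
  obtain ⟨K, e3, e11, e4, a, b, c, d, ha, hm⟩ := h.exists_psi
  have H := auxSetup_ferro hq h0 h1 a b c d ha hm
  have hsub : offspringMean ν * ENNReal.ofReal (lam ^ 2) ≤ 1 → NonReconstruction q lam ν := by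
    intro hle
    refine nonReconstruction_of_aux hq hl h1 H hle ?_
    by_cases hlam : lam = 0
    · exact Or.inl (by simp [hlam])
    · exact Or.inr ⟨hlam, hk⟩
  have hsup : 1 < offspringMean ν * ENNReal.ofReal (lam ^ 2) → Reconstruction q lam ν :=
    fun hlt => reconDist_lower hq hl h1 hlt
  refine ⟨⟨fun hn => ?_, hsub⟩, ⟨fun hr => ?_, hsup⟩⟩
  · exact not_lt.mp fun hlt => not_nonReconstruction_of_reconstruction (hsup hlt) hn
  · exact not_le.mp fun hle => not_nonReconstruction_of_reconstruction hr (hsub hle)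

/-- The threshold on the regular trees. -/
theorem threshold_regular (hq : 2 ≤ q) (h : FerroCert q) (h0 : 0 ≤ lam) (h1 : lam ≤ 1)
    {d : ℕ} (hd : 2 ≤ d) :
    (NonReconstruction q lam (regularLaw d) ↔ (d : ℝ) * lam ^ 2 ≤ 1) ∧
      (Reconstruction q lam (regularLaw d) ↔ 1 < (d : ℝ) * lam ^ 2) := by
  have e : offspringMean (regularLaw d) * ENNReal.ofReal (lam ^ 2) =
      ENNReal.ofReal ((d : ℝ) * lam ^ 2) := by
    rw [offspringMean_regular, ENNReal.ofReal_mul (Nat.cast_nonneg d), ENNReal.ofReal_natCast]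
  have := threshold_of_cert hq h h0 h1 (strict_regular hd)
  rwa [e, ENNReal.ofReal_le_one, ENNReal.one_lt_ofReal] at this

/-- The threshold on the Poisson trees. -/
theorem threshold_poisson (hq : 2 ≤ q) (h : FerroCert q) (h0 : 0 ≤ lam) (h1 : lam ≤ 1)
    {d : ℝ≥0} (hd : 0 < d) :
    (NonReconstruction q lam (poissonLaw d) ↔ (d : ℝ) * lam ^ 2 ≤ 1) ∧
      (Reconstruction q lam (poissonLaw d) ↔ 1 < (d : ℝ) * lam ^ 2) := by
  have e : offspringMean (poissonLaw d) * ENNReal.ofReal (lam ^ 2) =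
      ENNReal.ofReal ((d : ℝ) * lam ^ 2) := by
    rw [offspringMean_poisson, ← ENNReal.ofReal_coe_nnreal, ← ENNReal.ofReal_mul d.coe_nonneg]
  have := threshold_of_cert hq h h0 h1 (strict_poisson hd)
  rwa [e, ENNReal.ofReal_le_one, ENNReal.one_lt_ofReal] at this

end Vale.Agent.P154
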