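import Vale.Agent.P154.Instances

/-!
P154: nonreconstruction from a potential and an auxiliary functional whose expectation stays
nonnegative along the recursion.  The two merge inequalities do not involve the channel.
-/

namespace Vale.Agent.P154

open scoped BigOperators ENNReal NNReal
open Filter Topology

variable {q : ℕ}

/-- The average, over the relabellings of the second vector, of the potential after a merge. -/
noncomputable def mergeAvg (Φ : (Fin q → ℝ) → ℝ) (s u : Fin q → ℝ) : ℝ :=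
  ((q : ℝ) ^ 2 / (Fintype.card (Equiv.Perm (Fin q)) : ℝ)) *
    ∑ σ : Equiv.Perm (Fin q), hom Φ (fun i => s i * u (σ i))

/-- The inductive inequality for the auxiliary functional. -/
def AuxIneq (q : ℕ) (ψ : (Fin q → ℝ) → ℝ) : Prop :=
  ∃ a b : (Fin q → ℝ) → ℝ, ∃ c : ℝ, 0 ≤ c ∧
    (∀ p ∈ stdSimplex ℝ (Fin q), 0 ≤ a p ∧ 0 ≤ b p) ∧
    ∀ s ∈ stdSimplex ℝ (Fin q), ∀ u ∈ stdSimplex ℝ (Fin q),
      a u * ψ s + b s * ψ u + c * (ψ s * ψ u) ≤ mergeAvg ψ s u

/-- The merge inequality for the potential, with a cubic gain. -/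
def MainIneq (q : ℕ) (Φ ψ : (Fin q → ℝ) → ℝ) : Prop :=
  ∃ g h : (Fin q → ℝ) → ℝ, ∃ t : ℝ, 0 < t ∧
    (∀ p ∈ stdSimplex ℝ (Fin q), 0 ≤ g p ∧ 0 ≤ h p) ∧
    ∀ s ∈ stdSimplex ℝ (Fin q), ∀ u ∈ stdSimplex ℝ (Fin q),
      mergeAvg Φ s u + g u * ψ s + h s * ψ u + t * (Φ s * Φ u * (Φ s + Φ u)) ≤ Φ s + Φ u

lemma gain_eps {x y ε : ℝ} (hx : 0 ≤ x) (hy : 0 ≤ y) (hε : 0 ≤ ε) :
    ε * (x * y) - ε ^ 3 ≤ x * y * (x + y) := by
  rcases le_total ε (x + y) with h | h
  · nlinarith [mul_nonneg (mul_nonneg hx hy) (sub_nonneg.mpr h), pow_nonneg hε 3]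
  · have h4 : 4 * (x * y) ≤ ε ^ 2 := by
      nlinarith [sq_nonneg (x - y), mul_self_le_mul_self (add_nonneg hx hy) h]
    nlinarith [mul_le_mul_of_nonneg_left h4 hε,
      mul_nonneg (mul_nonneg hx hy) (add_nonneg hx hy), pow_nonneg hε 3]

lemma famVal_const (ι : Type) [Fintype ι] (v : ι → Fin q → ℝ) :
    famVal (fun _ => (1 : ℝ)) v = ∑ τ, (∑ i, v τ i) / (q : ℝ) := by
  simp [famVal, hom]

lemma famVal_neg (Φ : (Fin q → ℝ) → ℝ) (ι : Type) [Fintype ι] (v : ι → Fin q → ℝ) :
    famVal (fun p => -Φ p) v = -famVal Φ v := by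
  simp [famVal, hom, Finset.sum_neg_distrib]

lemma famVal_nonneg' {F : (Fin q → ℝ) → ℝ} (hF : ∀ p ∈ stdSimplex ℝ (Fin q), 0 ≤ F p)
    {ι : Type} [Fintype ι] {v : ι → Fin q → ℝ} (hv : ∀ τ i, 0 ≤ v τ i) : 0 ≤ famVal F v := by
  refine Finset.sum_nonneg fun τ _ => ?_
  rcases (Finset.sum_nonneg fun i (_ : i ∈ Finset.univ) => hv τ i).eq_or_lt with h | h
  · simp [hom, ← h]
  · exact mul_nonneg (div_nonneg h.le (Nat.cast_nonneg q))
      (hF _ (mem_simplex_of_nonneg (hv τ) h))

/-- Homogeneous form of a bilinear lower bound on the simplex. -/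
lemma merge_scaled [NeZero q] {n : ℕ} {G H : Fin n → (Fin q → ℝ) → ℝ}
    {Ψ : (Fin q → ℝ) → ℝ}
    (hP : ∀ s ∈ stdSimplex ℝ (Fin q), ∀ u ∈ stdSimplex ℝ (Fin q),
      ∑ j, G j s * H j u ≤ mergeAvg Ψ s u)
    {s u : Fin q → ℝ} (hs : ∀ i, 0 ≤ s i) (hu : ∀ i, 0 ≤ u i) :
    ∑ j, hom (G j) s * hom (H j) u ≤
      (∑ σ : Equiv.Perm (Fin q), hom Ψ (fun i => s i * u (σ i))) /
        (Fintype.card (Equiv.Perm (Fin q)) : ℝ) := by
  have hq : (q : ℝ) ≠ 0 := Nat.cast_ne_zero.mpr (NeZero.ne q)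
  rcases (Finset.sum_nonneg fun i (_ : i ∈ Finset.univ) => hs i).eq_or_lt with hS | hS
  · have h0 : ∀ i, s i = 0 := fun i =>
      le_antisymm (le_of_le_of_eq (Finset.single_le_sum (fun j _ => hs j) (Finset.mem_univ i))
        hS.symm) (hs i)
    simp [hom, h0]
  rcases (Finset.sum_nonneg fun i (_ : i ∈ Finset.univ) => hu i).eq_or_lt with hU | hU
  · have h0 : ∀ i, u i = 0 := fun i =>
      le_antisymm (le_of_le_of_eq (Finset.single_le_sum (fun j _ => hu j) (Finset.mem_univ i))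
        hU.symm) (hu i)
    simp [hom, h0]
  set S := ∑ i, s i with hSdef
  set U := ∑ i, u i with hUdef
  have h := hP _ (mem_simplex_of_nonneg hs hS) _ (mem_simplex_of_nonneg hu hU)
  rw [← hSdef, ← hUdef] at h
  have e1 : ∀ σ : Equiv.Perm (Fin q),
      hom Ψ (fun i => s i / S * (u (σ i) / U)) =
        (1 / (S * U)) * hom Ψ (fun i => s i * u (σ i)) := by
    intro σ
    rw [← hom_smul]
    congr 1
    funext i
    field_simp
  simp only [mergeAvg, e1, ← Finset.mul_sum] at h
  have e2 : ∀ j, G j (fun i => s i / S) * H j (fun i => u i / U) =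
      ((q : ℝ) ^ 2 / (S * U)) * (hom (G j) s * hom (H j) u) := by
    intro j
    simp only [hom, ← hSdef, ← hUdef]
    field_simp
  simp only [e2, ← Finset.mul_sum] at h
  have := mul_le_mul_of_nonneg_left h (show (0 : ℝ) ≤ S * U / (q : ℝ) ^ 2 by positivity)
  field_simp at this ⊢
  linarith

/-- The bilinear lower bound for a pair of families, the second one being balanced. -/
lemma merge_ge [NeZero q] {n : ℕ} {G H : Fin n → (Fin q → ℝ) → ℝ} {Ψ : (Fin q → ℝ) → ℝ}
    (hP : ∀ s ∈ stdSimplex ℝ (Fin q), ∀ u ∈ stdSimplex ℝ (Fin q),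
      ∑ j, G j s * H j u ≤ mergeAvg Ψ s u)
    {κ ι : Type} [Fintype κ] [Fintype ι] {s : κ → Fin q → ℝ} {u : ι → Fin q → ℝ}
    (hs : ∀ x i, 0 ≤ s x i) (hu : Balanced u) :
    ∑ j, famVal (G j) s * famVal (H j) u ≤
      ∑ x, ∑ τ, hom Ψ (fun i => s x i * u τ i) := by
  have hN : (Fintype.card (Equiv.Perm (Fin q)) : ℝ) ≠ 0 :=
    Nat.cast_ne_zero.mpr Fintype.card_ne_zero
  have key : ∀ x, ∑ τ, hom Ψ (fun i => s x i * u τ i) =
      ∑ τ, (∑ σ : Equiv.Perm (Fin q), hom Ψ (fun i => s x i * u τ (σ i))) /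
        (Fintype.card (Equiv.Perm (Fin q)) : ℝ) := by
    intro x
    rw [← Finset.sum_div, Finset.sum_comm]
    have : ∀ σ : Equiv.Perm (Fin q),
        ∑ τ, hom Ψ (fun i => s x i * u τ (σ i)) = ∑ τ, hom Ψ (fun i => s x i * u τ i) := by
      intro σ
      obtain ⟨e, he⟩ := hu.sym σ
      rw [← Equiv.sum_comp e (fun τ => hom Ψ (fun i => s x i * u τ i))]
      exact Finset.sum_congr rfl fun τ _ => by simp only [he]
    simp only [this, Finset.sum_const, Finset.card_univ, nsmul_eq_mul]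
    field_simp
  have e : ∑ j, famVal (G j) s * famVal (H j) u =
      ∑ x, ∑ τ, ∑ j, hom (G j) (s x) * hom (H j) (u τ) := by
    simp only [famVal, Finset.sum_mul_sum]
    rw [Finset.sum_comm]
    exact Finset.sum_congr rfl fun x _ => Finset.sum_comm
  simp only [e, key]
  exact Finset.sum_le_sum fun x _ => Finset.sum_le_sum fun τ _ =>
    merge_scaled hP (hs x) (hu.nonneg τ)

lemma Balanced.chan (hq : 2 ≤ q) {lam : ℝ} (h0 : -1 / ((q : ℝ) - 1) ≤ lam) (h1 : lam ≤ 1)
    {ι : Type} [Fintype ι] {v : ι → Fin q → ℝ} (hv : Balanced v) :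
    Balanced (fun τ => chanMap lam (v τ)) := by
  have : NeZero q := ⟨by omega⟩
  refine ⟨fun τ i => chanMap_nonneg hq h0 h1 (hv.nonneg τ) i, fun i => ?_, fun σ => ?_⟩
  · have hq' : (q : ℝ) ≠ 0 := Nat.cast_ne_zero.mpr (NeZero.ne q)
    simp only [chanMap_eq, Finset.sum_add_distrib, ← Finset.mul_sum, hv.marg]
    rw [Finset.sum_comm]
    simp only [hv.marg, Finset.sum_const, Finset.card_univ, Fintype.card_fin, nsmul_eq_mul]
    field_simp
    ring
  · obtain ⟨e, he⟩ := hv.sym σ
    refine ⟨e, fun τ i => ?_⟩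
    show chanMap lam (v (e τ)) i = chanMap lam (v τ) (σ i)
    rw [← chanMap_perm, show v (e τ) = fun j => v τ (σ j) from funext (he τ)]

lemma hom_chan_le [NeZero q] {lam r : ℝ} {F G : (Fin q → ℝ) → ℝ}
    (h : ∀ p ∈ stdSimplex ℝ (Fin q), r * G p ≤ F (chanMap lam p))
    {w : Fin q → ℝ} (hw : ∀ i, 0 ≤ w i) : r * hom G w ≤ hom F (chanMap lam w) := by
  rcases (Finset.sum_nonneg fun i (_ : i ∈ Finset.univ) => hw i).eq_or_lt with hS | hS
  · simp [hom, sum_chanMap, ← hS]
  have e : chanMap lam (fun j => w j / ∑ k, w k) = fun i => chanMap lam w i / ∑ k, w k := by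
    funext i
    rw [show (fun j => w j / ∑ k, w k) = fun j => (1 / ∑ k, w k) * w j from funext fun j => by ring,
      chanMap_smul]
    ring
  have := h _ (mem_simplex_of_nonneg hw hS)
  rw [e] at this
  unfold hom
  rw [sum_chanMap]
  calc r * ((∑ i, w i) / q * G fun i => w i / ∑ j, w j)
      = (∑ i, w i) / q * (r * G fun i => w i / ∑ j, w j) := by ring
    _ ≤ _ := mul_le_mul_of_nonneg_left this (div_nonneg hS.le (Nat.cast_nonneg q))

lemma famVal_chan_ge [NeZero q] {lam r : ℝ} {F G : (Fin q → ℝ) → ℝ}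
    (h : ∀ p ∈ stdSimplex ℝ (Fin q), r * G p ≤ F (chanMap lam p))
    {ι : Type} [Fintype ι] {v : ι → Fin q → ℝ} (hv : ∀ τ i, 0 ≤ v τ i) :
    r * famVal G v ≤ famVal F (fun τ => chanMap lam (v τ)) := by
  rw [famVal, Finset.mul_sum]
  exact Finset.sum_le_sum fun τ _ => hom_chan_le h (hv τ)

/-- Everything used by the recursion for one parameter. -/
structure AuxSetup (q : ℕ) (lam : ℝ) (Φ ψ : (Fin q → ℝ) → ℝ) : Prop where
  pot : IsPotential Φ
  aux : AuxIneq q ψ
  main : MainIneq q Φ ψ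
  aux_uniform : ψ (fun _ => (1 : ℝ) / q) = 0
  aux_delta : ∀ i : Fin q, 0 ≤ ψ (fun j => if i = j then 1 else 0)
  aux_chan : ∃ r : ℝ, 0 ≤ r ∧ ∀ p ∈ stdSimplex ℝ (Fin q), r * ψ p ≤ ψ (chanMap lam p)
  pot_chan : ∀ p ∈ stdSimplex ℝ (Fin q), Φ (chanMap lam p) = lam ^ 2 * Φ p

variable {lam : ℝ} {Φ ψ : (Fin q → ℝ) → ℝ}

lemma AuxSetup.chanAux (H : AuxSetup q lam Φ ψ) (hq : 2 ≤ q) {ι : Type} [Fintype ι]
    {v : ι → Fin q → ℝ} (hv : ∀ τ i, 0 ≤ v τ i) (h : 0 ≤ famVal ψ v) :
    0 ≤ famVal ψ (fun τ => chanMap lam (v τ)) := by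
  have : NeZero q := ⟨by omega⟩
  obtain ⟨r, hr, hr'⟩ := H.aux_chan
  exact (mul_nonneg hr h).trans (famVal_chan_ge hr' hv)

lemma AuxSetup.chanPot (H : AuxSetup q lam Φ ψ) (hq : 2 ≤ q) {ι : Type} [Fintype ι]
    {v : ι → Fin q → ℝ} (hv : ∀ τ i, 0 ≤ v τ i) :
    famVal Φ (fun τ => chanMap lam (v τ)) = lam ^ 2 * famVal Φ v := by
  have : NeZero q := ⟨by omega⟩
  refine le_antisymm ?_ (famVal_chan_ge (fun p hp => (H.pot_chan p hp).ge) hv)
  have := famVal_chan_ge (F := fun p => -Φ p) (G := fun p => -Φ p) (r := lam ^ 2) (lam := lam)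
    (fun p hp => le_of_eq (by simp [H.pot_chan p hp])) hv
  rw [famVal_neg, famVal_neg] at this
  linarith

/-- The auxiliary functional stays nonnegative at a vertex. -/
lemma AuxSetup.prod_nonneg (H : AuxSetup q lam Φ ψ) (hq : 2 ≤ q)
    (h0 : -1 / ((q : ℝ) - 1) ≤ lam) (h1 : lam ≤ 1) :
    ∀ (k : ℕ) (ι : Fin k → Type) (_ : ∀ a, Fintype (ι a)) (v : (a : Fin k) → ι a → Fin q → ℝ),
      (∀ a, Balanced (v a)) → (∀ a, 0 ≤ famVal ψ (v a)) → 0 ≤ famVal ψ (prodFam lam v) := by
  have : NeZero q := ⟨by omega⟩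
  intro k
  induction k with
  | zero =>
      intro ι inst v _ _
      have hu : ψ (fun _ => (q : ℝ)⁻¹) = 0 := by simpa using H.aux_uniform
      simp [famVal, prodFam, hom, hu]
  | succ k ih =>
      intro ι inst v hv hψ
      have hv' : ∀ a : Fin k, Balanced (v a.succ) := fun a => hv a.succ
      have hrest := ih (fun a => ι a.succ) (fun a => inst a.succ) (fun a => v a.succ) hv'
        (fun a => hψ a.succ)
      have hnn := prodFam_nonneg hq h0 h1 (fun a => (hv' a).nonneg)
      obtain ⟨A, B, c, hc, hAB, hP⟩ := H.aux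
      have hu := (hv 0).chan hq h0 h1
      have hψu := H.chanAux hq (hv 0).nonneg (hψ 0)
      have hm := merge_ge (n := 3) (G := ![ψ, B, fun s => c * ψ s]) (H := ![A, ψ, ψ]) (Ψ := ψ)
        (fun s hs u hu => by
          have := hP s hs u hu
          simp only [Fin.sum_univ_three, Matrix.cons_val_zero, Matrix.cons_val_one,
            Matrix.cons_val]
          linarith) hnn hu
      simp only [Fin.sum_univ_three, Matrix.cons_val_zero, Matrix.cons_val_one,
        Matrix.cons_val] at hm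
      rw [famVal_prodFam_succ]
      refine le_trans ?_ hm
      have e : famVal (fun s => c * ψ s) (prodFam lam fun a : Fin k => v a.succ) =
          c * famVal ψ (prodFam lam fun a : Fin k => v a.succ) := by
        simp only [famVal, hom, Finset.mul_sum]
        exact Finset.sum_congr rfl fun _ _ => by ring
      rw [e]
      have hA := famVal_nonneg' (fun p hp => (hAB p hp).1) hu.nonneg
      have hB := famVal_nonneg' (fun p hp => (hAB p hp).2) hnn
      positivity

/-- The one-step bound with a slack that is cubic in the free parameter `ε`. -/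
lemma AuxSetup.step (H : AuxSetup q lam Φ ψ) (hq : 2 ≤ q)
    (h0 : -1 / ((q : ℝ) - 1) ≤ lam) (h1 : lam ≤ 1) :
    ∃ t : ℝ, 0 < t ∧ ∃ ε0 : ℝ, 0 < ε0 ∧ ∀ ε : ℝ, 0 ≤ ε → ε ≤ ε0 →
      ∀ (k : ℕ) (ι : Fin k → Type) (_ : ∀ a, Fintype (ι a))
        (v : (a : Fin k) → ι a → Fin q → ℝ),
        (∀ a, Balanced (v a)) → (∀ a, 0 ≤ famVal ψ (v a)) →
        famVal Φ (prodFam lam v) + t * ε * lam ^ 4 * pairTerm (fun a => famVal Φ (v a)) ≤
          lam ^ 2 * ∑ a, famVal Φ (v a) + k * (t * ε ^ 3) := by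
  have : NeZero q := ⟨by omega⟩
  obtain ⟨g, h, t, ht, hgh, hP⟩ := H.main
  obtain ⟨M0, hM0⟩ := H.pot.bounded
  set M := max M0 1 with hMdef
  have hM : ∀ p ∈ stdSimplex ℝ (Fin q), Φ p ≤ M := fun p hp => (hM0 p hp).trans (le_max_left _ _)
  have hM1 : 1 ≤ M := le_max_right _ _
  refine ⟨t, ht, 1 / (t * M * (1 + lam ^ 2)), by positivity, fun ε hε hε0 => ?_⟩
  intro k
  induction k with
  | zero =>
      intro ι inst v _ _
      have hu2 : Φ (fun _ => (q : ℝ)⁻¹) = 0 := by simpa using H.pot.uniform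
      simp [famVal, prodFam, hom, pairTerm, hu2]
  | succ k ih =>
      intro ι inst v hv hψ
      have hv' : ∀ a : Fin k, Balanced (v a.succ) := fun a => hv a.succ
      have hrest := ih (fun a => ι a.succ) (fun a => inst a.succ) (fun a => v a.succ) hv'
        (fun a => hψ a.succ)
      have hnn := prodFam_nonneg hq h0 h1 (fun a => (hv' a).nonneg)
      have hψs := H.prod_nonneg hq h0 h1 k (fun a => ι a.succ) (fun a => inst a.succ)
        (fun a => v a.succ) hv' (fun a => hψ a.succ)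
      have hu := (hv 0).chan hq h0 h1
      have hψu := H.chanAux hq (hv 0).nonneg (hψ 0)
      have hm := merge_ge (n := 6)
        (G := ![fun s => -Φ s, fun _ => -1, ψ, h, fun s => t * ε * Φ s, fun _ => -(t * ε ^ 3)])
        (H := ![fun _ => 1, Φ, g, ψ, Φ, fun _ => 1]) (Ψ := fun p => -Φ p)
        (fun s hs u hu => by
          have h1 := hP s hs u hu
          have h2 := mul_le_mul_of_nonneg_left
            (gain_eps (H.pot.nonneg s hs) (H.pot.nonneg u hu) hε) ht.le
          have e : mergeAvg (fun p => -Φ p) s u = -mergeAvg Φ s u := by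
            simp [mergeAvg, hom, Finset.sum_neg_distrib]
          simp only [Fin.sum_univ_six, Matrix.cons_val_zero, Matrix.cons_val_one,
            Matrix.cons_val, e]
          linarith) hnn hu
      simp only [Fin.sum_univ_six, Matrix.cons_val_zero, Matrix.cons_val_one,
        Matrix.cons_val] at hm
      rw [famVal_prodFam_succ, Fin.sum_univ_succ]
      set A := famVal Φ (prodFam lam (fun a : Fin k => v a.succ)) with hA
      set B0 := famVal Φ (v 0) with hB0
      have hA0 : 0 ≤ A := famVal_nonneg H.pot hnn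
      have hB00 : 0 ≤ B0 := famVal_nonneg H.pot (hv 0).nonneg
      have hsum : ∑ x, ∑ τ, hom (fun p => -Φ p)
            (fun i => prodFam lam (fun a : Fin k => v a.succ) x i * chanMap lam (v 0 τ) i) =
          -∑ x, ∑ τ, hom Φ
            (fun i => prodFam lam (fun a : Fin k => v a.succ) x i * chanMap lam (v 0 τ) i) := by
        simp [hom, Finset.sum_neg_distrib]
      have e5 : famVal (fun s => t * ε * Φ s) (prodFam lam (fun a : Fin k => v a.succ)) = t * ε * A := by
        simp only [hA, famVal, hom, Finset.mul_sum]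
        exact Finset.sum_congr rfl fun _ _ => by ring
      have e6 : ∀ r : ℝ, ∀ (κ : Type) [Fintype κ] (w : κ → Fin q → ℝ),
          famVal (fun _ => r) w = r * ∑ τ, (∑ i, w τ i) / (q : ℝ) := by
        intro r κ _ w
        simp only [famVal, hom, Finset.mul_sum]
        exact Finset.sum_congr rfl fun _ _ => by ring
      rw [hsum, famVal_neg, e5, e6, e6, e6, ← hA, prodFam_mass hv'] at hm
      rw [hu.mass, show famVal Φ (fun τ => chanMap lam (v 0 τ)) = lam ^ 2 * B0 from
        H.chanPot hq (hv 0).nonneg] at hm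
      have hg := mul_nonneg hψs (famVal_nonneg' (fun p hp => (hgh p hp).1) hu.nonneg)
      have hh := mul_nonneg (famVal_nonneg' (fun p hp => (hgh p hp).2) hnn) hψu
      have hB1 : t * ε * lam ^ 2 * B0 ≤ 1 := by
        have h3 : t * ε * (M * (1 + lam ^ 2)) ≤ 1 := by
          have := mul_le_mul_of_nonneg_right hε0
            (show (0 : ℝ) ≤ t * M * (1 + lam ^ 2) by positivity)
          rw [div_mul_cancel₀ _ (by positivity)] at this
          linarith
        nlinarith [mul_nonneg (mul_nonneg ht.le hε)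
          (mul_nonneg (sq_nonneg lam) (sub_nonneg.mpr (famVal_le hM (hv 0)))),
          mul_nonneg (mul_nonneg ht.le hε) (le_trans zero_le_one hM1)]
      have hB0' : (0 : ℝ) ≤ t * ε * lam ^ 2 * B0 := by positivity
      have hη : (0 : ℝ) ≤ t * ε ^ 3 := by positivity
      match k, ι, inst, v, hv, hv', hrest with
      | 0, ι, inst, v, hv, hv', hrest =>
          simp only [pairTerm, Finset.univ_eq_empty, Finset.sum_empty, mul_zero, add_zero,
            Nat.cast_zero, zero_mul] at hrest ⊢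
          push_cast
          nlinarith [mul_nonneg hA0 hB0']
      | 1, ι, inst, v, hv, hv', hrest =>
          simp only [pairTerm, Fin.sum_univ_one, mul_zero, add_zero] at hrest ⊢
          have e0 : (⟨0, by omega⟩ : Fin (1 + 1)) = 0 := rfl
          have e1 : (⟨0 + 1, by omega⟩ : Fin (1 + 1)) = (0 : Fin 1).succ := rfl
          rw [e0, e1, ← hB0]
          push_cast at hrest ⊢
          nlinarith [mul_le_mul_of_nonneg_right hrest (sub_nonneg.mpr hB1), mul_nonneg hη hB0']
      | k + 2, ι, inst, v, hv, hv', hrest =>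
          rw [pairTerm_succ]
          push_cast at hrest ⊢
          nlinarith [mul_nonneg hA0 hB0']

/-- The auxiliary functional is nonnegative at every depth. -/
lemma AuxSetup.lik_nonneg (H : AuxSetup q lam Φ ψ) (hq : 2 ≤ q)
    (h0 : -1 / ((q : ℝ) - 1) ≤ lam) (h1 : lam ≤ 1) :
    ∀ (n : ℕ) (T : Tree n), 0 ≤ famVal ψ (lik q lam n T) := by
  intro n
  induction n with
  | zero =>
      intro T
      refine Finset.sum_nonneg fun τ _ => ?_
      suffices hh : ∀ (i : Fin q) (f : Fin q → ℝ), (∀ j, i = j → f j = 1) →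
          (∀ j, ¬i = j → f j = 0) → 0 ≤ hom ψ f from
        hh τ _ (fun j hj => (lik_zero lam T τ j).trans (if_pos hj))
          (fun j hj => (lik_zero lam T τ j).trans (if_neg hj))
      intro i f h1 h2
      have hf : f = fun j => if i = j then (1 : ℝ) else 0 := funext fun j => by
        split_ifs with h
        · exact h1 j h
        · exact h2 j h
      subst hf
      simp only [hom, Finset.sum_ite_eq, Finset.mem_univ, if_true, div_one]
      exact mul_nonneg (by positivity) (H.aux_delta i)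
  | succ n ih =>
      intro T
      have e : lik q lam (n + 1) T = prodFam lam (fun a => lik q lam n (T.2 a)) :=
        funext fun τ => lik_succ lam n T τ
      have := H.prod_nonneg hq h0 h1 T.1 (fun a => Obs q n (T.2 a))
        (fun a => obsFintype q n (T.2 a)) (fun a => lik q lam n (T.2 a))
        (fun a => (lik_balanced hq h0 h1 n (T.2 a)).1) (fun a => ih (T.2 a))
      rw [e]
      exact this

lemma meanPot_succ_slack (hq : 2 ≤ q) (h0 : -1 / ((q : ℝ) - 1) ≤ lam) (h1 : lam ≤ 1)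
    (hΦ : IsPotential Φ) {c η : ℝ} (hc : 0 ≤ c) (hη : 0 ≤ η) (ν : PMF ℕ) (n : ℕ)
    (hstep : ∀ (k : ℕ) (f : Fin k → Tree n), famVal Φ (lik q lam (n + 1) (node f)) +
        c * pairTerm (fun a => famVal Φ (lik q lam n (f a))) ≤
      lam ^ 2 * ∑ a, famVal Φ (lik q lam n (f a)) + k * η) :
    meanPot q lam Φ ν (n + 1) + ENNReal.ofReal c * branchProb ν * meanPot q lam Φ ν n ^ 2 ≤
      offspringMean ν * ENNReal.ofReal (lam ^ 2) * meanPot q lam Φ ν n +
        offspringMean ν * ENNReal.ofReal η := by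
  classical
  set X := meanPot q lam Φ ν n with hX
  set h := fun T : Tree n => ENNReal.ofReal (famVal Φ (lik q lam n T)) with hh
  have hB : ∀ T : Tree n, 0 ≤ famVal Φ (lik q lam n T) :=
    fun T => famVal_nonneg hΦ (lik_balanced hq h0 h1 n T).1.nonneg
  have hper : ∀ k, ν k * (∑' f : Fin k → Tree n, (∏ a, treeProb ν n (f a)) *
        ENNReal.ofReal (famVal Φ (lik q lam (n + 1) (node f)))) +
      ENNReal.ofReal c * (if 2 ≤ k then ν k else 0) * X ^ 2 ≤
      ((k : ℝ≥0∞) * ν k) * ENNReal.ofReal (lam ^ 2) * X +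
        ((k : ℝ≥0∞) * ν k) * ENNReal.ofReal η := by
    intro k
    have hle : ∀ f : Fin k → Tree n, ENNReal.ofReal (famVal Φ (lik q lam (n + 1) (node f))) +
        ENNReal.ofReal c * ENNReal.ofReal (pairTerm fun a => famVal Φ (lik q lam n (f a))) ≤
        ENNReal.ofReal (lam ^ 2) * ∑ a, h (f a) + (k : ℝ≥0∞) * ENNReal.ofReal η := by
      intro f
      rw [← ENNReal.ofReal_mul hc, hh, ← ENNReal.ofReal_sum_of_nonneg fun a _ => hB (f a),
        ← ENNReal.ofReal_mul (sq_nonneg lam), ← ENNReal.ofReal_natCast k,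
        ← ENNReal.ofReal_mul (Nat.cast_nonneg k), ← ENNReal.ofReal_add
          (famVal_nonneg hΦ (lik_balanced hq h0 h1 (n + 1) (node f)).1.nonneg)
          (mul_nonneg hc (pairTerm_nonneg _ fun a => hB (f a))),
        ← ENNReal.ofReal_add (mul_nonneg (sq_nonneg lam) (Finset.sum_nonneg fun a _ => hB (f a)))
          (mul_nonneg (Nat.cast_nonneg k) hη)]
      exact ENNReal.ofReal_le_ofReal (hstep k f)
    have hsum := ENNReal.tsum_le_tsum fun f => mul_le_mul_right (hle f) (∏ a, treeProb ν n (f a))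
    simp only [mul_add, ENNReal.tsum_add, mul_left_comm _ (ENNReal.ofReal c),
      mul_left_comm _ (ENNReal.ofReal (lam ^ 2)), ENNReal.tsum_mul_left, tsum_tree_sum,
      ENNReal.tsum_mul_right, tsum_pi_fin_prod _ (fun _ => treeProb ν n), tsum_treeProb,
      Finset.prod_const_one, one_mul] at hsum
    have hpair : (if 2 ≤ k then X ^ 2 else 0) ≤ ∑' f : Fin k → Tree n, (∏ a, treeProb ν n (f a)) *
        ENNReal.ofReal (pairTerm fun a => famVal Φ (lik q lam n (f a))) := by
      match k with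
      | 0 => simp
      | 1 => simp
      | j + 2 =>
          rw [if_pos (by omega), hX, meanPot, ← tsum_tree_pair ν n j h]
          refine le_of_eq (tsum_congr fun f => ?_)
          simp only [pairTerm, ENNReal.ofReal_mul (hB _), hh]
    calc ν k * (∑' f : Fin k → Tree n, (∏ a, treeProb ν n (f a)) *
            ENNReal.ofReal (famVal Φ (lik q lam (n + 1) (node f)))) +
          ENNReal.ofReal c * (if 2 ≤ k then ν k else 0) * X ^ 2
        = ν k * ((∑' f : Fin k → Tree n, (∏ a, treeProb ν n (f a)) *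
            ENNReal.ofReal (famVal Φ (lik q lam (n + 1) (node f)))) +
            ENNReal.ofReal c * (if 2 ≤ k then X ^ 2 else 0)) := by split_ifs <;> ring
      _ ≤ ν k * (ENNReal.ofReal (lam ^ 2) * ((k : ℝ≥0∞) * X) + (k : ℝ≥0∞) * ENNReal.ofReal η) :=
          mul_le_mul_right (le_trans (add_le_add le_rfl (mul_le_mul_right hpair _)) hsum) _
      _ = _ := by ring
  have hall := ENNReal.tsum_le_tsum hper
  simp only [ENNReal.tsum_add, ENNReal.tsum_mul_right, ENNReal.tsum_mul_left] at hall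
  refine le_trans (le_of_eq ?_) hall
  congr 1
  rw [meanPot, tsum_tree_succ]
  refine tsum_congr fun k => ?_
  rw [← ENNReal.tsum_mul_left]
  refine tsum_congr fun f => ?_
  show (ν k * ∏ a, treeProb ν n (f a)) * _ = _
  ring

lemma reconDist_tendsto_zero (hq : 2 ≤ q) (h0 : -1 / ((q : ℝ) - 1) ≤ lam) (h1 : lam ≤ 1)
    (hΦ : IsPotential Φ) {ν : PMF ℕ} (hX : Tendsto (meanPot q lam Φ ν) atTop (𝓝 0)) :
    NonReconstruction q lam ν := by
  classical
  rw [NonReconstruction, ENNReal.tendsto_atTop_zero]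
  intro δ hδ
  obtain ⟨ε, hε, hεδ⟩ : ∃ ε : ℝ, 0 < ε ∧ ENNReal.ofReal (2 * ε) ≤ δ := by
    rcases eq_or_ne δ ⊤ with rfl | hd
    · exact ⟨1, one_pos, le_top⟩
    · refine ⟨δ.toReal / 2, by have := ENNReal.toReal_pos hδ.ne' hd; positivity, ?_⟩
      rw [mul_div_cancel₀ _ two_ne_zero, ENNReal.ofReal_toReal hd]
  obtain ⟨K, hK0, hK⟩ := hΦ.coercive ε hε
  have hbd : ∀ n, reconDist q lam ν n ≤
      ENNReal.ofReal ε + ENNReal.ofReal K * meanPot q lam Φ ν n := by
    intro n
    calc reconDist q lam ν n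
        ≤ ∑' T, (treeProb ν n T * ENNReal.ofReal ε +
            ENNReal.ofReal K * (treeProb ν n T * ENNReal.ofReal (famVal Φ (lik q lam n T)))) := by
          refine ENNReal.tsum_le_tsum fun T => ?_
          rw [mul_left_comm (ENNReal.ofReal K), ← mul_add, ← ENNReal.ofReal_mul hK0,
            ← ENNReal.ofReal_add hε.le
              (mul_nonneg hK0 (famVal_nonneg hΦ (lik_balanced hq h0 h1 n T).1.nonneg))]
          exact mul_le_mul_right (ENNReal.ofReal_le_ofReal (treeDist_le hq h0 h1 hK n T)) _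
      _ = _ := by
          rw [ENNReal.tsum_add, ENNReal.tsum_mul_right, ENNReal.tsum_mul_left, tsum_treeProb,
            one_mul]
          rfl
  have hKX : Tendsto (fun n => ENNReal.ofReal K * meanPot q lam Φ ν n) atTop (𝓝 0) := by
    simpa using ENNReal.Tendsto.const_mul hX (Or.inr ENNReal.ofReal_ne_top)
  obtain ⟨N, hN⟩ := ENNReal.tendsto_atTop_zero.mp hKX (ENNReal.ofReal ε) (ENNReal.ofReal_pos.mpr hε)
  refine ⟨N, fun n hn => ?_⟩
  calc reconDist q lam ν n ≤ ENNReal.ofReal ε + ENNReal.ofReal ε :=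
        (hbd n).trans (add_le_add le_rfl (hN n hn))
    _ = ENNReal.ofReal (2 * ε) := by rw [← ENNReal.ofReal_add hε.le hε.le, two_mul]
    _ ≤ δ := hεδ

/-- Nonreconstruction up to and including the threshold, from an auxiliary setup. -/
theorem nonReconstruction_of_aux (hq : 2 ≤ q) (h0 : -1 / ((q : ℝ) - 1) ≤ lam) (h1 : lam ≤ 1)
    (H : AuxSetup q lam Φ ψ) {ν : PMF ℕ}
    (hle : offspringMean ν * ENNReal.ofReal (lam ^ 2) ≤ 1)
    (hstrict : offspringMean ν * ENNReal.ofReal (lam ^ 2) < 1 ∨ (lam ≠ 0 ∧ ∃ k, 2 ≤ k ∧ ν k ≠ 0)) :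
    NonReconstruction q lam ν := by
  classical
  have : NeZero q := ⟨by omega⟩
  obtain ⟨t, ht, ε0, hε0, hst⟩ := H.step hq h0 h1
  refine reconDist_tendsto_zero hq h0 h1 H.pot ?_
  set x := meanPot q lam Φ ν with hx
  set θ := offspringMean ν * ENNReal.ofReal (lam ^ 2) with hθ
  have hrec : ∀ ε : ℝ, 0 ≤ ε → ε ≤ ε0 → ∀ n,
      x (n + 1) + ENNReal.ofReal (t * ε * lam ^ 4) * branchProb ν * x n ^ 2 ≤
        θ * x n + offspringMean ν * ENNReal.ofReal (t * ε ^ 3) := by
    intro ε hε hεle n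
    refine meanPot_succ_slack hq h0 h1 H.pot (by positivity) (by positivity) ν n fun k f => ?_
    have e : lik q lam (n + 1) (node f) = prodFam lam (fun a => lik q lam n (f a)) :=
      funext fun τ => lik_succ lam n (node f) τ
    rw [e]
    exact hst ε hε hεle k (fun a => Obs q n (f a)) (fun a => obsFintype q n (f a))
      (fun a => lik q lam n (f a)) (fun a => (lik_balanced hq h0 h1 n (f a)).1)
      (fun a => H.lik_nonneg hq h0 h1 n (f a))
  obtain ⟨M, hM⟩ := H.pot.bounded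
  have hx0 : x 0 ≠ ⊤ := by
    refine ne_top_of_le_ne_top ENNReal.ofReal_ne_top (b := ENNReal.ofReal M) ?_
    calc x 0 ≤ ∑' T, treeProb ν 0 T * ENNReal.ofReal M :=
          ENNReal.tsum_le_tsum fun T => mul_le_mul_right
            (ENNReal.ofReal_le_ofReal (famVal_le hM (lik_balanced hq h0 h1 0 T).1)) _
      _ = ENNReal.ofReal M := by rw [ENNReal.tsum_mul_right, tsum_treeProb, one_mul]
  have hle' : ∀ n, x (n + 1) ≤ θ * x n := fun n => by simpa using hrec 0 le_rfl hε0.le n
  by_cases hlt : θ < 1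
  · exact tendsto_zero_of_rec (κ := 0) hle hx0 (Or.inl hlt) fun n => by simpa using hle' n
  obtain ⟨hl, k, hk, hνk⟩ := hstrict.resolve_left hlt
  have hmean : offspringMean ν ≠ ⊤ := by
    intro htop
    rw [hθ, htop, ENNReal.top_mul (ENNReal.ofReal_pos.mpr (by positivity)).ne'] at hle
    exact absurd hle (by simp)
  have hbr : branchProb ν ≠ 0 := by
    intro hz
    have := ENNReal.tsum_eq_zero.mp hz k
    rw [if_pos hk] at this
    exact hνk this
  have hbr' : branchProb ν ≠ ⊤ := by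
    refine ne_top_of_le_ne_top ENNReal.one_ne_top ?_
    rw [← ν.tsum_coe]
    exact ENNReal.tsum_le_tsum fun j => by split_ifs <;> simp
  have hanti : Antitone x := antitone_nat_of_succ_le fun n =>
    (hle' n).trans (mul_le_of_le_one_left zero_le hle)
  set L := ⨅ n, x n with hL
  have hlim : Tendsto x atTop (𝓝 L) := tendsto_atTop_iInf hanti
  have hLtop : L ≠ ⊤ := ne_top_of_le_ne_top hx0 (iInf_le _ 0)
  suffices L = 0 by rw [← this]; exact hlim
  by_contra hne
  set Lr := L.toReal with hLr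
  have hLpos : 0 < Lr := ENNReal.toReal_pos hne hLtop
  set β := (branchProb ν).toReal with hβ
  have hβpos : 0 < β := ENNReal.toReal_pos hbr hbr'
  set D := (offspringMean ν).toReal with hD
  have hD0 : 0 ≤ D := ENNReal.toReal_nonneg
  have key : ∀ ε : ℝ, 0 < ε → ε ≤ ε0 → lam ^ 4 * β * Lr ^ 2 ≤ D * ε ^ 2 := by
    intro ε hε hεle
    have h2 : L + ENNReal.ofReal (t * ε * lam ^ 4) * branchProb ν * L ^ 2 ≤
        L + offspringMean ν * ENNReal.ofReal (t * ε ^ 3) := by
      have ht' : Tendsto (fun n => x n + offspringMean ν * ENNReal.ofReal (t * ε ^ 3)) atTop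
          (𝓝 (L + offspringMean ν * ENNReal.ofReal (t * ε ^ 3))) :=
        hlim.add tendsto_const_nhds
      refine ge_of_tendsto' ht' fun n => ?_
      refine le_trans (add_le_add (iInf_le _ (n + 1))
        (mul_le_mul_right (pow_le_pow_left' (iInf_le _ n) 2) _)) ((hrec ε hε.le hεle n).trans ?_)
      exact add_le_add (mul_le_of_le_one_left zero_le hle) le_rfl
    have h3 := (ENNReal.toReal_le_toReal (ENNReal.mul_ne_top
      (ENNReal.mul_ne_top ENNReal.ofReal_ne_top hbr') (ENNReal.pow_ne_top hLtop))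
      (ENNReal.mul_ne_top hmean ENNReal.ofReal_ne_top)).mpr
      (ENNReal.le_of_add_le_add_left hLtop h2)
    rw [ENNReal.toReal_mul, ENNReal.toReal_mul, ENNReal.toReal_mul, ENNReal.toReal_pow,
      ENNReal.toReal_ofReal (by positivity), ENNReal.toReal_ofReal (by positivity),
      ← hβ, ← hLr, ← hD] at h3
    nlinarith [mul_pos ht hε]
  set a := lam ^ 4 * β * Lr ^ 2 with ha
  have ha0 : 0 < a := by positivity
  obtain ⟨ε, hε, hεle, hεa⟩ : ∃ ε : ℝ, 0 < ε ∧ ε ≤ ε0 ∧ D * ε ^ 2 < a := by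
    refine ⟨min ε0 (min 1 (a / (D + 1))), lt_min hε0 (lt_min one_pos (by positivity)),
      min_le_left _ _, ?_⟩
    set e := min ε0 (min 1 (a / (D + 1))) with he
    have he0 : 0 < e := lt_min hε0 (lt_min one_pos (by positivity))
    have he1 : e ≤ 1 := le_trans (min_le_right _ _) (min_le_left _ _)
    have he2 : e * (D + 1) ≤ a := by
      rw [← le_div_iff₀ (by positivity)]
      exact le_trans (min_le_right _ _) (min_le_right _ _)
    nlinarith [mul_nonneg hD0 (mul_nonneg he0.le (sub_nonneg.mpr he1))]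
  exact absurd (key ε hε hεle) (not_le.mpr hεa)

end Vale.Agent.P154
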