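import Vale.Agent.P154.Recursion

/-!
P154: the two tree models of the problem, the `d`-ary tree and the Poisson Galton-Watson tree.
-/

namespace Vale.Agent.P154

open scoped ENNReal NNReal
open ProbabilityTheory

/-- The offspring law of the `d`-ary tree. -/
noncomputable def regularLaw (d : ℕ) : PMF ℕ := PMF.pure d

/-- The Poisson offspring law of mean `d`. -/
noncomputable def poissonLaw (d : ℝ≥0) : PMF ℕ := poissonPMF d

lemma offspringMean_regular (d : ℕ) : offspringMean (regularLaw d) = d := by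
  rw [offspringMean, tsum_eq_single d]
  · simp [regularLaw]
  · intro b hb
    simp [regularLaw, hb]

lemma poissonLaw_apply (d : ℝ≥0) (k : ℕ) :
    poissonLaw d k = ENNReal.ofReal (Real.exp (-d) * (d : ℝ) ^ k / k.factorial) :=
  (poissonPMFReal_ofReal_eq_poissonPMF d k).symm

lemma offspringMean_poisson (d : ℝ≥0) : offspringMean (poissonLaw d) = d := by
  rw [offspringMean, tsum_eq_zero_add' ENNReal.summable]
  simp only [Nat.cast_zero, zero_mul, zero_add]
  have h : ∀ k : ℕ, ((k + 1 : ℕ) : ℝ≥0∞) * poissonLaw d (k + 1) = (d : ℝ≥0∞) * poissonLaw d k := by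
    intro k
    rw [poissonLaw_apply, poissonLaw_apply, ← ENNReal.ofReal_natCast,
      ← ENNReal.ofReal_coe_nnreal, ← ENNReal.ofReal_mul (Nat.cast_nonneg _),
      ← ENNReal.ofReal_mul d.coe_nonneg]
    congr 1
    rw [Nat.factorial_succ]
    push_cast
    field_simp
    ring
  rw [tsum_congr h, ENNReal.tsum_mul_left, (poissonLaw d).tsum_coe, mul_one]

lemma strict_regular {d : ℕ} (hd : 2 ≤ d) : ∃ k, 2 ≤ k ∧ regularLaw d k ≠ 0 :=
  ⟨d, hd, by simp [regularLaw]⟩

lemma strict_poisson {d : ℝ≥0} (hd : 0 < d) : ∃ k, 2 ≤ k ∧ poissonLaw d k ≠ 0 :=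
  ⟨2, le_rfl, by
    rw [poissonLaw_apply]
    exact (ENNReal.ofReal_pos.mpr (by positivity)).ne'⟩

/-- Nonreconstruction on both models from a potential satisfying the pairwise inequality. -/
theorem nonReconstruction_models {q : ℕ} (hq : 2 ≤ q) {lam : ℝ}
    (h0 : -1 / ((q : ℝ) - 1) ≤ lam) (h1 : lam ≤ 1) {Φ : (Fin q → ℝ) → ℝ} (hΦ : IsPotential Φ)
    {c : ℝ} (hc : 0 < c) (hP : PairIneq q lam Φ c) :
    (∀ d : ℕ, 2 ≤ d → (d : ℝ) * lam ^ 2 ≤ 1 → NonReconstruction q lam (regularLaw d)) ∧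
    (∀ d : ℝ≥0, 0 < d → (d : ℝ) * lam ^ 2 ≤ 1 → NonReconstruction q lam (poissonLaw d)) := by
  have key : ∀ (ν : PMF ℕ) (d : ℝ≥0), offspringMean ν = d → (d : ℝ) * lam ^ 2 ≤ 1 →
      (∃ k, 2 ≤ k ∧ ν k ≠ 0) → NonReconstruction q lam ν := by
    intro ν d hmean hd hk
    have he : offspringMean ν * ENNReal.ofReal (lam ^ 2) = ENNReal.ofReal ((d : ℝ) * lam ^ 2) := by
      rw [hmean, ← ENNReal.ofReal_coe_nnreal, ← ENNReal.ofReal_mul d.coe_nonneg]
    refine nonReconstruction_of_pair hq h0 h1 hΦ hc hP (he ▸ ENNReal.ofReal_le_one.mpr hd) ?_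
    by_cases hl : lam = 0
    · exact Or.inl (by simp [he, hl])
    · exact Or.inr ⟨hl, hk⟩
  refine ⟨fun d hd hle => ?_, fun d hd hle => key _ d (offspringMean_poisson d) hle (strict_poisson hd)⟩
  exact key _ (d : ℝ≥0) (by simpa using offspringMean_regular d) (by simpa using hle)
    (strict_regular hd)

end Vale.Agent.P154
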