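import Vale.Agent.P154.Potential
import Vale.Agent.P154.Instances

/-!
P154: from the certificates to nonreconstruction.
-/

namespace Vale.Agent.P154

open scoped BigOperators ENNReal NNReal

lemma card_perm_three : (Fintype.card (Equiv.Perm (Fin 3)) : ℝ) = 6 := by
  rw [Fintype.card_perm, Fintype.card_fin]
  norm_num [Nat.factorial]

lemma tI_nonneg (p : Fin 3 → ℝ) : 0 ≤ tI p :=
  mul_nonneg (by norm_num) (Finset.sum_nonneg fun _ _ => sq_nonneg _)

lemma tI_le_one {p : Fin 3 → ℝ} (hp : p ∈ stdSimplex ℝ (Fin 3)) : tI p ≤ 1 := by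
  have h := hp.2
  simp only [tI, Fin.sum_univ_three] at h ⊢
  nlinarith [mul_nonneg (hp.1 0) (hp.1 1), mul_nonneg (hp.1 0) (hp.1 2),
    mul_nonneg (hp.1 1) (hp.1 2)]

lemma shrink_sum (r : ℝ) (p : Fin 3 → ℝ) :
    ∑ i, shrink r p i = 1 + r * ((∑ i, p i) - 1) := by
  simp only [shrink, Fin.sum_univ_three]
  ring

lemma shrink_mem {r : ℝ} (h0 : 0 ≤ r) (h1 : r ≤ 1) {p : Fin 3 → ℝ}
    (hp : p ∈ stdSimplex ℝ (Fin 3)) : shrink r p ∈ stdSimplex ℝ (Fin 3) := by
  refine ⟨fun i => ?_, by rw [shrink_sum, hp.2]; ring⟩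
  have := mul_nonneg h0 (hp.1 i)
  simp only [shrink]
  nlinarith

lemma chanMap_shrink (lam r : ℝ) {p : Fin 3 → ℝ} (hp : p ∈ stdSimplex ℝ (Fin 3)) :
    chanMap lam (shrink r p) = chanMap (r * lam) p := by
  funext i
  rw [chanMap_eq, chanMap_eq, shrink_sum, hp.2]
  simp only [shrink]
  push_cast
  ring

lemma chanMap_simplex (lam : ℝ) {p : Fin 3 → ℝ} (hp : p ∈ stdSimplex ℝ (Fin 3)) :
    chanMap lam p = shrink lam p := by
  funext i
  rw [chanMap_eq, hp.2]
  simp only [shrink]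
  push_cast
  ring

lemma tI_shrink (r : ℝ) (p : Fin 3 → ℝ) : tI (shrink r p) = r ^ 2 * tI p := by
  simp only [tI, shrink, Fin.sum_univ_three]
  ring

lemma tv_le {ε : ℝ} (hε : 0 < ε) (p : Fin 3 → ℝ) :
    (1 / 2) * ∑ i, |p i - 1 / 3| ≤ ε + 1 / ε * tI p := by
  have h : ∀ i, |p i - 1 / 3| ≤ ε / 3 + 3 / (4 * ε) * (p i - 1 / 3) ^ 2 := by
    intro i
    rw [← sq_abs (p i - 1 / 3)]
    generalize |p i - 1 / 3| = x
    have e : ε / 3 + 3 / (4 * ε) * x ^ 2 - x = 3 / (4 * ε) * (x - 2 * ε / 3) ^ 2 := by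
      field_simp
      ring
    have h2 := mul_nonneg (show (0 : ℝ) ≤ 3 / (4 * ε) by positivity) (sq_nonneg (x - 2 * ε / 3))
    linarith
  have hn : (0 : ℝ) ≤ 1 / ε * ∑ i, (p i - 1 / 3) ^ 2 :=
    mul_nonneg (by positivity) (Finset.sum_nonneg fun _ _ => sq_nonneg _)
  have hsum := Finset.sum_le_sum fun i (_ : i ∈ Finset.univ) => h i
  rw [Finset.sum_add_distrib, Finset.sum_const, Finset.card_univ, Fintype.card_fin,
    ← Finset.mul_sum] at hsum
  have e1 : (3 : ℝ) / (4 * ε) * ∑ i, (p i - 1 / 3) ^ 2 =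
      3 / 4 * (1 / ε * ∑ i, (p i - 1 / 3) ^ 2) := by field_simp
  have e2 : (1 : ℝ) / ε * tI p = 3 / 2 * (1 / ε * ∑ i, (p i - 1 / 3) ^ 2) := by
    simp only [tI]; ring
  rw [e1] at hsum
  rw [e2]
  norm_num at hsum hn ⊢
  linarith

variable {P P2 : ℝ → ℝ → ℝ}

lemma Good.isPotential (h : Good P) : IsPotential (phiOf P) := by
  obtain ⟨M, hM⟩ := h.le_t
  have hnn : ∀ p ∈ stdSimplex ℝ (Fin 3), 0 ≤ phiOf P p :=
    fun p hp => (tI_nonneg p).trans (h.ge_t p hp)
  refine ⟨hnn, ⟨|M|, fun p hp => ?_⟩, ?_, ?_⟩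
  · calc phiOf P p ≤ M * tI p := hM p hp
      _ ≤ |M| * tI p := mul_le_mul_of_nonneg_right (le_abs_self M) (tI_nonneg p)
      _ ≤ |M| := mul_le_of_le_one_right (abs_nonneg M) (tI_le_one hp)
  · have hu : (fun _ => (1 : ℝ) / 3) ∈ stdSimplex ℝ (Fin 3) :=
      ⟨fun _ => by norm_num, by simp⟩
    have ht : tI (fun _ => (1 : ℝ) / 3) = 0 := by simp [tI]
    have h1 := hM _ hu
    have h2 := h.ge_t _ hu
    rw [ht] at h1 h2
    simp only [mul_zero] at h1
    simpa using le_antisymm h1 h2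
  · intro ε hε
    refine ⟨1 / ε, by positivity, fun p hp => ?_⟩
    have := tv_le hε p
    have h2 := mul_le_mul_of_nonneg_left (h.ge_t p hp) (show (0 : ℝ) ≤ 1 / ε by positivity)
    simp only [Nat.cast_ofNat]
    linarith

lemma Good.upper (h : Good P) :
    ∃ M : ℝ, 1 ≤ M ∧ ∀ p ∈ stdSimplex ℝ (Fin 3), phiOf P p ≤ M * tI p := by
  obtain ⟨M, hM⟩ := h.le_t
  exact ⟨max M 1, le_max_right _ _, fun p hp =>
    (hM p hp).trans (mul_le_mul_of_nonneg_right (le_max_left _ _) (tI_nonneg p))⟩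

/-- The average of the potential after a merge. -/
noncomputable def avgMerge (Ψ : (Fin 3 → ℝ) → ℝ) (lam : ℝ) (s p : Fin 3 → ℝ) : ℝ :=
  (∑ σ : Equiv.Perm (Fin 3), hom Ψ (fun i => s i * chanMap lam p (σ i))) / 6

/-- Homogeneous form of an inequality given on the simplex. -/
lemma avgMerge_scaled {Ψ G Φ : (Fin 3 → ℝ) → ℝ} {lam c α β : ℝ}
    {F : (Fin 3 → ℝ) → Fin 3 → ℝ} (hF : ∀ (r : ℝ) w, F (fun j => r * w j) = fun i => r * F w i)
    {s p : Fin 3 → ℝ} (hs : ∀ i, 0 ≤ s i) (hp : ∀ i, 0 ≤ p i)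
    (h : 0 < ∑ i, s i → 0 < ∑ i, p i →
      3 / 2 * ∑ σ : Equiv.Perm (Fin 3),
          hom Ψ (fun i => F (fun j => s j / ∑ k, s k) i *
            chanMap lam (fun j => p j / ∑ k, p k) (σ i)) +
        c * (G (fun j => s j / ∑ k, s k) * Φ (fun j => p j / ∑ k, p k)) ≤
      α * G (fun j => s j / ∑ k, s k) + β * Φ (fun j => p j / ∑ k, p k)) :
    avgMerge Ψ lam (F s) p + c * (hom G s * hom Φ p) ≤
      α * ((∑ i, p i) / 3 * hom G s) + β * ((∑ i, s i) / 3 * hom Φ p) := by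
  have hzero : ∀ w : Fin 3 → ℝ, (∀ i, w i = 0) → hom Ψ w = 0 := by
    intro w hw
    simp [hom, hw]
  rcases (Finset.sum_nonneg fun i (_ : i ∈ Finset.univ) => hs i).eq_or_lt with hS | hS
  · have h0 : ∀ i, s i = 0 := fun i =>
      le_antisymm (le_of_le_of_eq (Finset.single_le_sum (fun j _ => hs j) (Finset.mem_univ i))
        hS.symm) (hs i)
    have hF0 : F s = fun _ => 0 := by
      have := hF 0 s
      rw [show (fun j => (0 : ℝ) * s j) = s from funext fun j => by simp [h0 j]] at this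
      rw [this]
      simp
    have e : avgMerge Ψ lam (F s) p = 0 := by
      simp [avgMerge, hF0, hzero]
    simp [e, hom, h0]
  rcases (Finset.sum_nonneg fun i (_ : i ∈ Finset.univ) => hp i).eq_or_lt with hP0 | hP0
  · have h0 : ∀ i, p i = 0 := fun i =>
      le_antisymm (le_of_le_of_eq (Finset.single_le_sum (fun j _ => hp j) (Finset.mem_univ i))
        hP0.symm) (hp i)
    have e : avgMerge Ψ lam (F s) p = 0 := by
      simp [avgMerge, chanMap_eq, h0, hzero]
    simp [e, hom, h0]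
  have h' := h hS hP0
  set S := ∑ i, s i with hSdef
  set T := ∑ i, p i with hTdef
  have e1 : ∀ σ : Equiv.Perm (Fin 3),
      hom Ψ (fun i => F (fun j => s j / S) i * chanMap lam (fun j => p j / T) (σ i)) =
        (1 / (S * T)) * hom Ψ (fun i => F s i * chanMap lam p (σ i)) := by
    intro σ
    rw [← hom_smul]
    congr 1
    funext i
    rw [show (fun j => s j / S) = fun j => (1 / S) * s j from funext fun j => by ring, hF,
      show (fun j => p j / T) = fun j => (1 / T) * p j from funext fun j => by ring, chanMap_smul]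
    field_simp
  simp only [e1, ← Finset.mul_sum] at h'
  have es : G (fun i => s i / S) = hom G s * 3 / S := by
    rw [hom, ← hSdef]; push_cast; field_simp
  have ep : Φ (fun i => p i / T) = hom Φ p * 3 / T := by
    rw [hom, ← hTdef]; push_cast; field_simp
  rw [es, ep] at h'
  simp only [avgMerge]
  have := mul_le_mul_of_nonneg_left h' (show (0 : ℝ) ≤ S * T / 9 by positivity)
  field_simp at this ⊢
  linarith

/-- Merging a balanced child into a family, from the averaged inequality. -/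
lemma merge_avg {Ψ G Φ : (Fin 3 → ℝ) → ℝ} {lam c α β : ℝ}
    {F : (Fin 3 → ℝ) → Fin 3 → ℝ} {κ ι : Type} [Fintype κ] [Fintype ι]
    {s : κ → Fin 3 → ℝ} {v : ι → Fin 3 → ℝ}
    (hmass : ∑ x, (∑ i, s x i) / (3 : ℝ) = 1) (hv : Balanced v)
    (h : ∀ x τ, avgMerge Ψ lam (F (s x)) (v τ) + c * (hom G (s x) * hom Φ (v τ)) ≤
      α * ((∑ i, v τ i) / 3 * hom G (s x)) + β * ((∑ i, s x i) / 3 * hom Φ (v τ))) :
    (∑ x, ∑ τ, hom Ψ (fun i => F (s x) i * chanMap lam (v τ) i)) +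
        c * (famVal G s * famVal Φ v) ≤ α * famVal G s + β * famVal Φ v := by
  have key : ∀ x, ∑ τ, hom Ψ (fun i => F (s x) i * chanMap lam (v τ) i) =
      ∑ τ, avgMerge Ψ lam (F (s x)) (v τ) := by
    intro x
    simp only [avgMerge]
    rw [← Finset.sum_div, Finset.sum_comm]
    have : ∀ σ : Equiv.Perm (Fin 3),
        ∑ τ, hom Ψ (fun i => F (s x) i * chanMap lam (v τ) (σ i)) =
          ∑ τ, hom Ψ (fun i => F (s x) i * chanMap lam (v τ) i) := by
      intro σ
      obtain ⟨e, he⟩ := hv.sym σ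
      rw [← Equiv.sum_comp e (fun τ => hom Ψ (fun i => F (s x) i * chanMap lam (v τ) i))]
      refine Finset.sum_congr rfl fun τ _ => ?_
      congr 1
      funext i
      rw [← chanMap_perm, show v (e τ) = fun j => v τ (σ j) from funext (he τ)]
    simp only [this, Finset.sum_const, Finset.card_univ, nsmul_eq_mul, card_perm_three]
    field_simp
  have hm : ∑ τ, (∑ i, v τ i) / (3 : ℝ) = 1 := by simpa using hv.mass
  have hsum := Finset.sum_le_sum fun x (_ : x ∈ Finset.univ) =>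
    Finset.sum_le_sum fun τ (_ : τ ∈ Finset.univ) => h x τ
  simp only [Finset.sum_add_distrib, ← Finset.sum_mul, ← Finset.mul_sum] at hsum
  rw [hm, hmass, one_mul, one_mul] at hsum
  simp only [key]
  simpa [famVal] using hsum

/-- The gain term after scaling. -/
lemma gain_bound (hG : Good P) {M : ℝ} (hM1 : 1 ≤ M)
    (hM : ∀ p ∈ stdSimplex ℝ (Fin 3), phiOf P p ≤ M * tI p) {s p : Fin 3 → ℝ}
    (hs : s ∈ stdSimplex ℝ (Fin 3)) (hp : p ∈ stdSimplex ℝ (Fin 3)) {eps κ : ℝ}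
    (he : 0 ≤ eps) (hκ : 0 ≤ κ) :
    eps * κ / M ^ 2 * (phiOf P s * phiOf P p) ≤ eps * κ * (tI s * tI p) := by
  have h := mul_le_mul (hM s hs) (hM p hp) (hG.isPotential.nonneg p hp)
    (mul_nonneg (by linarith) (tI_nonneg s))
  have h2 := mul_le_mul_of_nonneg_left h (show 0 ≤ eps * κ / M ^ 2 by positivity)
  have hMne : M ≠ 0 := by linarith
  have e : eps * κ / M ^ 2 * (M * tI s * (M * tI p)) = eps * κ * (tI s * tI p) := by
    field_simp
  linarith

/-- A single certificate gives the pairwise inequality at every smaller parameter. -/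
lemma SingleCert.pairIneq {l0 : ℝ} (h : SingleCert l0) :
    ∃ P : ℝ → ℝ → ℝ, Good P ∧ ∀ κ, 0 < κ → κ ≤ 1 →
      ∃ c, 0 < c ∧ PairIneq 3 (κ * l0) (phiOf P) c := by
  obtain ⟨P, eps, he, hG, hP⟩ := h
  obtain ⟨M, hM1, hM⟩ := hG.upper
  refine ⟨P, hG, fun κ hκ0 hκ1 => ⟨eps * κ ^ 2 / M ^ 2, by positivity, ?_⟩⟩
  intro s hs p hp
  have h1 := hP s hs _ (shrink_mem hκ0.le hκ1 hp)
  rw [nodeAvg, chanMap_shrink l0 κ hp, tI_shrink] at h1
  have h2 := mul_le_mul_of_nonneg_left (hG.radial κ hκ0.le hκ1 p hp) (sq_nonneg l0)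
  have h3 := gain_bound hG hM1 hM hs hp he.le (sq_nonneg κ)
  rw [card_perm_three]
  norm_num
  linarith

/-- Nonreconstruction for every offspring law from a single certificate. -/
theorem nonReconstruction_of_single {l0 : ℝ} (hl : -(1 / 2) ≤ l0) (hl' : l0 ≤ 1)
    (h : SingleCert l0) {κ : ℝ} (hκ0 : 0 ≤ κ) (hκ1 : κ ≤ 1) {ν : PMF ℕ}
    (hle : offspringMean ν * ENNReal.ofReal ((κ * l0) ^ 2) ≤ 1)
    (hstrict : offspringMean ν * ENNReal.ofReal ((κ * l0) ^ 2) < 1 ∨ ∃ k, 2 ≤ k ∧ ν k ≠ 0) :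
    NonReconstruction 3 (κ * l0) ν := by
  obtain ⟨P, hG, hP⟩ := h.pairIneq
  have h0 : -1 / (((3 : ℕ) : ℝ) - 1) ≤ κ * l0 := by norm_num; nlinarith
  have h1 : κ * l0 ≤ 1 := by nlinarith
  by_cases hlam : κ * l0 = 0
  · -- the zero parameter: every potential step bound holds with no gain
    rcases eq_or_lt_of_le hκ0 with hk | hk
    · obtain ⟨c, hc, hPc⟩ := hP 1 one_pos le_rfl
      have hP0 : PairIneq 3 (κ * l0) (phiOf P) 0 := by
        intro s hs p hp
        have hp0 : shrink 0 p ∈ stdSimplex ℝ (Fin 3) := shrink_mem le_rfl zero_le_one hp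
        have := hPc s hs _ hp0
        rw [one_mul, chanMap_shrink l0 0 hp] at this
        have hz : phiOf P (shrink 0 p) = 0 := by
          refine le_antisymm ?_ (hG.isPotential.nonneg _ hp0)
          simpa using hG.radial 0 le_rfl zero_le_one p hp
        rw [hz] at this
        rw [← hk, zero_mul] at *
        simpa using this
      refine nonReconstruction_of_step (by norm_num) h0 h1 hG.isPotential (c := 0 * (κ * l0) ^ 2)
        (by simp) (fun k _ => ?_) hle (Or.inl (by simp [hlam]))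
      obtain ⟨M, hM⟩ := hG.isPotential.bounded
      exact stepBound_of_pair (by norm_num) h0 h1 hG.isPotential hM le_rfl (by simp) hP0 k
    · obtain ⟨c, hc, hPc⟩ := hP κ hk hκ1
      exact nonReconstruction_of_pair (by norm_num) h0 h1 hG.isPotential hc hPc hle
        (Or.inl (by simp [hlam]))
  · obtain ⟨c, hc, hPc⟩ := hP κ (lt_of_le_of_ne hκ0 fun h => hlam (by simp [← h])) hκ1
    refine nonReconstruction_of_pair (by norm_num) h0 h1 hG.isPotential hc hPc hle ?_
    rcases hstrict with h | h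
    · exact Or.inl h
    · exact Or.inr ⟨hlam, h⟩

end Vale.Agent.P154
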