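import Vale.Agent.P154.Bridge

/-!
P154: the binary and ternary certificates, and the assembly of the final statement from the
four certificates.
-/

namespace Vale.Agent.P154

open scoped BigOperators ENNReal NNReal

lemma shrink_shrink (a b : ℝ) (p : Fin 3 → ℝ) : shrink a (shrink b p) = shrink (b * a) p := by
  funext i
  simp only [shrink]
  ring

lemma chanMap_hom (lam r : ℝ) (w : Fin 3 → ℝ) :
    chanMap lam (fun j => r * w j) = fun i => r * chanMap lam w i :=
  funext (chanMap_smul lam r w)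

lemma prodFam_two (Φ : (Fin 3 → ℝ) → ℝ) (lam : ℝ) {ι : Fin 2 → Type} [∀ a, Fintype (ι a)]
    (v : (a : Fin 2) → ι a → Fin 3 → ℝ) :
    famVal Φ (prodFam lam v) =
      ∑ x, ∑ τ, hom Φ (fun i => chanMap lam (v 0 x) i * chanMap lam (v 1 τ) i) := by
  classical
  rw [famVal, ← Equiv.sum_comp (piFinTwoEquiv ι).symm (fun τ => hom Φ (prodFam lam v τ)),
    Fintype.sum_prod_type]
  refine Finset.sum_congr rfl fun x _ => Finset.sum_congr rfl fun τ _ => ?_
  congr 1
  funext i
  simp [prodFam, Fin.prod_univ_two, piFinTwoEquiv]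

variable {P P2 : ℝ → ℝ → ℝ}

/-- The two-child inequality, at every smaller parameter, for families. -/
lemma node_fam (hG : Good P) {M : ℝ} (hM1 : 1 ≤ M)
    (hM : ∀ p ∈ stdSimplex ℝ (Fin 3), phiOf P p ≤ M * tI p) {l0 eps : ℝ} (he : 0 < eps)
    (h : ∀ s ∈ stdSimplex ℝ (Fin 3), ∀ p ∈ stdSimplex ℝ (Fin 3),
      nodeAvg P2 l0 (shrink l0 s) p + eps * (tI s * tI p) ≤ l0 ^ 2 * (phiOf P s + phiOf P p))
    {κ : ℝ} (hκ0 : 0 ≤ κ) (hκ1 : κ ≤ 1)
    (ι : Fin 2 → Type) (inst : ∀ a, Fintype (ι a)) (v : (a : Fin 2) → ι a → Fin 3 → ℝ)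
    (hv : ∀ a, Balanced (v a)) :
    famVal (phiOf P2) (prodFam (κ * l0) v) +
        eps * (κ ^ 2 * κ ^ 2) / M ^ 2 * (famVal (phiOf P) (v 0) * famVal (phiOf P) (v 1)) ≤
      (κ * l0) ^ 2 * famVal (phiOf P) (v 0) + (κ * l0) ^ 2 * famVal (phiOf P) (v 1) := by
  rw [prodFam_two]
  refine merge_avg (F := chanMap (κ * l0)) (by simpa using (hv 0).mass) (hv 1) fun x τ => ?_
  refine avgMerge_scaled (chanMap_hom _) ((hv 0).nonneg x) ((hv 1).nonneg τ) fun hS hT => ?_
  have hs := mem_simplex_of_nonneg ((hv 0).nonneg x) hS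
  have hp := mem_simplex_of_nonneg ((hv 1).nonneg τ) hT
  set s := fun j => v 0 x j / ∑ k, v 0 x k
  set p := fun j => v 1 τ j / ∑ k, v 1 τ k
  have h1 := h _ (shrink_mem hκ0 hκ1 hs) _ (shrink_mem hκ0 hκ1 hp)
  rw [nodeAvg, chanMap_shrink l0 κ hp, shrink_shrink, ← chanMap_simplex (κ * l0) hs, tI_shrink,
    tI_shrink] at h1
  have h2 := mul_le_mul_of_nonneg_left (hG.radial κ hκ0 hκ1 p hp) (sq_nonneg l0)
  have h2' := mul_le_mul_of_nonneg_left (hG.radial κ hκ0 hκ1 s hs) (sq_nonneg l0)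
  have h3 := gain_bound hG hM1 hM hs hp he.le (mul_nonneg (sq_nonneg κ) (sq_nonneg κ))
  nlinarith

/-- The binary tree. -/
theorem nonReconstruction_of_bin {l0 : ℝ} (hl : 0 ≤ l0) (hl' : l0 ≤ 1) (h : BinCert l0)
    {κ : ℝ} (hκ0 : 0 ≤ κ) (hκ1 : κ ≤ 1) (hle : 2 * (κ * l0) ^ 2 ≤ 1) :
    NonReconstruction 3 (κ * l0) (regularLaw 2) := by
  obtain ⟨P, eps, he, hG, hP⟩ := h
  obtain ⟨M, hM1, hM⟩ := hG.upper
  have h0 : -1 / (((3 : ℕ) : ℝ) - 1) ≤ κ * l0 := by norm_num; nlinarith
  have h1 : κ * l0 ≤ 1 := by nlinarith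
  have hmean : offspringMean (regularLaw 2) * ENNReal.ofReal ((κ * l0) ^ 2) =
      ENNReal.ofReal (2 * (κ * l0) ^ 2) := by
    rw [offspringMean_regular, ENNReal.ofReal_mul (by norm_num)]
    norm_num
  refine nonReconstruction_of_step (by norm_num) h0 h1 hG.isPotential
    (c := eps * (κ ^ 2 * κ ^ 2) / M ^ 2) (by positivity) (fun k hk => ?_)
    (hmean ▸ ENNReal.ofReal_le_one.mpr hle) ?_
  · obtain rfl : k = 2 := by by_contra hne; exact hk (by simp [regularLaw, hne])
    intro ι inst v hv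
    have := node_fam hG hM1 hM he hP hκ0 hκ1 ι inst v hv
    simp only [Fin.sum_univ_two, mul_add]
    exact this
  · rcases eq_or_lt_of_le hκ0 with hk | hk
    · exact Or.inl (by simp [hmean, ← hk])
    · exact Or.inr ⟨by positivity, strict_regular le_rfl⟩

/-- Two merged children stay in the smaller triangle. -/
lemma merged_ge {lam l0 r : ℝ} (hlam0 : 0 ≤ lam) (hlam : lam ≤ l0) (hl : l0 ≤ 1)
    (hr : 0 < r) (hr1 : r ≤ 1)
    (hm : (1 - 2 * ((1 - l0) / 3)) ^ 2 + ((1 - l0) / 3) ^ 2 ≤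
      ((3 / (1 - r)) - 1) * ((1 - l0) / 3) ^ 2)
    (hr2 : r < 1) {x y : Fin 3 → ℝ} (hx : ∀ i, 0 ≤ x i) (hy : ∀ i, 0 ≤ y i) (i : Fin 3) :
    (1 - r) / 3 * ∑ j, chanMap lam x j * chanMap lam y j ≤ chanMap lam x i * chanMap lam y i := by
  set S := ∑ j, x j with hS
  set T := ∑ j, y j with hT
  have hS0 : 0 ≤ S := Finset.sum_nonneg fun j _ => hx j
  have hT0 : 0 ≤ T := Finset.sum_nonneg fun j _ => hy j
  have hsum : ∀ w : Fin 3 → ℝ, ∑ j, chanMap lam w j = ∑ j, w j := fun w => sum_chanMap lam w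
  set m := (1 - l0) / 3 with hmdef
  have hm0 : 0 ≤ m := by rw [hmdef]; linarith
  have hlow : ∀ (w : Fin 3 → ℝ), (∀ j, 0 ≤ w j) → ∀ j, m * ∑ k, w k ≤ chanMap lam w j := by
    intro w hw j
    rw [chanMap_eq, hmdef]
    push_cast
    nlinarith [mul_nonneg hlam0 (hw j), Finset.sum_nonneg fun k (_ : k ∈ Finset.univ) => hw k,
      mul_le_mul_of_nonneg_right hlam (Finset.sum_nonneg fun k (_ : k ∈ Finset.univ) => hw k)]
  have ha := hlow x hx
  have hb := hlow y hy
  rw [← hS] at ha
  rw [← hT] at hb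
  have sa := hsum x
  have sb := hsum y
  rw [← hS] at sa
  rw [← hT] at sb
  generalize hA : chanMap lam x = a at *
  generalize hB : chanMap lam y = b at *
  have key : ∀ i j k : Fin 3, a i + a j + a k = S → b i + b j + b k = T →
      a j * b j + a k * b k ≤ (3 / (1 - r) - 1) * (a i * b i) := by
    intro i j k hsA hsB
    have e1 : a j * b j + a k * b k ≤
        (a j + a k - m * S) * (b j + b k - m * T) + m * S * (m * T) := by
      nlinarith [mul_nonneg (sub_nonneg.mpr (ha j)) (sub_nonneg.mpr (hb k)),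
        mul_nonneg (sub_nonneg.mpr (ha k)) (sub_nonneg.mpr (hb j))]
    have hA2 : a j + a k - m * S ≤ (1 - 2 * m) * S := by nlinarith [ha i]
    have hB2 : b j + b k - m * T ≤ (1 - 2 * m) * T := by nlinarith [hb i]
    have hA3 : 0 ≤ a j + a k - m * S := by nlinarith [ha j, ha k]
    have hB3 : 0 ≤ b j + b k - m * T := by nlinarith [hb j, hb k]
    have e2 := mul_le_mul hA2 hB2 hB3 (le_trans hA3 hA2)
    have e3 := mul_le_mul_of_nonneg_right hm (mul_nonneg hS0 hT0)
    have e4 : m * S * (m * T) ≤ a i * b i := mul_le_mul (ha i) (hb i) (mul_nonneg hm0 hT0)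
      (le_trans (mul_nonneg hm0 hS0) (ha i))
    have hk0 : 0 ≤ 3 / (1 - r) - 1 := by
      rw [sub_nonneg, le_div_iff₀ (by linarith)]; linarith
    nlinarith [mul_le_mul_of_nonneg_left e4 hk0]
  have hr' : 0 < 1 - r := by linarith
  simp only [Fin.sum_univ_three] at sa sb ⊢
  have main : a 0 * b 0 + a 1 * b 1 + a 2 * b 2 ≤ 3 / (1 - r) * (a i * b i) := by
    fin_cases i
    · have := key 0 1 2 sa sb; simp only [Fin.isValue, Fin.zero_eta] at *; linarith
    · have := key 1 0 2 (by linarith) (by linarith); simp only [Fin.isValue, Fin.mk_one] at *; linarith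
    · have := key 2 0 1 (by linarith) (by linarith); simp only [Fin.isValue, Fin.reduceFinMk] at *; linarith
  have := mul_le_mul_of_nonneg_left main (show 0 ≤ (1 - r) / 3 by positivity)
  calc (1 - r) / 3 * (a 0 * b 0 + a 1 * b 1 + a 2 * b 2)
      ≤ (1 - r) / 3 * (3 / (1 - r) * (a i * b i)) := this
    _ = a i * b i := by field_simp

/-- The ternary tree. -/
theorem nonReconstruction_of_ter {l0 r : ℝ} (hl : 0 ≤ l0) (hl' : l0 ≤ 1) (hr : 0 < r) (hr2 : r < 1)
    (hm : (1 - 2 * ((1 - l0) / 3)) ^ 2 + ((1 - l0) / 3) ^ 2 ≤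
      ((3 / (1 - r)) - 1) * ((1 - l0) / 3) ^ 2)
    (h : TerCert l0 r) {κ : ℝ} (hκ0 : 0 ≤ κ) (hκ1 : κ ≤ 1) (hle : 3 * (κ * l0) ^ 2 ≤ 1) :
    NonReconstruction 3 (κ * l0) (regularLaw 3) := by
  obtain ⟨P, P2, eps, he, hG, hP2, hP⟩ := h
  obtain ⟨M, hM1, hM⟩ := hG.upper
  have h0 : -1 / (((3 : ℕ) : ℝ) - 1) ≤ κ * l0 := by norm_num; nlinarith
  have h1 : κ * l0 ≤ 1 := by nlinarith
  have hlam0 : 0 ≤ κ * l0 := mul_nonneg hκ0 hl
  have hlam : κ * l0 ≤ l0 := by nlinarith
  have hmean : offspringMean (regularLaw 3) * ENNReal.ofReal ((κ * l0) ^ 2) =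
      ENNReal.ofReal (3 * (κ * l0) ^ 2) := by
    rw [offspringMean_regular, ENNReal.ofReal_mul (by norm_num)]
    norm_num
  refine nonReconstruction_of_step (by norm_num) h0 h1 hG.isPotential
    (c := eps * (κ ^ 2 * κ ^ 2) / M ^ 2) (by positivity) (fun k hk => ?_)
    (hmean ▸ ENNReal.ofReal_le_one.mpr hle) ?_
  · obtain rfl : k = 3 := by by_contra hne; exact hk (by simp [regularLaw, hne])
    intro ι inst v hv
    have hv' : ∀ a : Fin 2, Balanced (v a.succ) := fun a => hv a.succ
    have hA := node_fam hG hM1 hM he hP2 hκ0 hκ1 (fun a => ι a.succ) (fun a => inst a.succ)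
      (fun a => v a.succ) hv'
    have hnn := prodFam_nonneg (by norm_num) h0 h1 (fun a => (hv' a).nonneg)
    have hB := merge_avg (Ψ := phiOf P) (G := phiOf P2) (Φ := phiOf P) (lam := κ * l0) (c := 0)
      (α := 1) (β := (κ * l0) ^ 2) (F := id)
      (s := prodFam (κ * l0) (fun a : Fin 2 => v a.succ))
      (by simpa using prodFam_mass hv') (hv 0) fun x τ => by
        refine avgMerge_scaled (fun r w => rfl) (hnn x) ((hv 0).nonneg τ) fun hS hT => ?_
        have hs := mem_simplex_of_nonneg (hnn x) hS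
        have hp := mem_simplex_of_nonneg ((hv 0).nonneg τ) hT
        have hge : ∀ i, (1 - r) / 3 ≤ prodFam (κ * l0) (fun a : Fin 2 => v a.succ) x i /
            ∑ j, prodFam (κ * l0) (fun a : Fin 2 => v a.succ) x j := by
          intro i
          rw [le_div_iff₀ hS]
          have hh := merged_ge hlam0 hlam hl' hr hr2.le hm hr2 ((hv' 0).nonneg (x 0))
            ((hv' 1).nonneg (x 1)) i
          simpa [prodFam, Fin.prod_univ_two] using hh
        set s := fun j => prodFam (κ * l0) (fun a : Fin 2 => v a.succ) x j /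
            ∑ k, prodFam (κ * l0) (fun a : Fin 2 => v a.succ) x k with hsdef
        set p := fun j => v 0 τ j / ∑ k, v 0 τ k
        have hs' : shrink (1 / r) s ∈ stdSimplex ℝ (Fin 3) := by
          refine ⟨fun i => ?_, by rw [shrink_sum, hs.2]; ring⟩
          have h3 : (1 - r) / 3 ≤ s i := hge i
          have h4 : shrink (1 / r) s i = 1 / r * (s i - (1 - r) / 3) := by
            simp only [shrink]
            field_simp
            ring
          rw [h4]
          exact mul_nonneg (by positivity) (by linarith)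
        have he1 : shrink r (shrink (1 / r) s) = s := by
          rw [shrink_shrink]
          funext i
          simp only [shrink]
          field_simp
          ring
        have h1' := hP _ hs' _ (shrink_mem hκ0 hκ1 hp)
        rw [nodeAvg, chanMap_shrink l0 κ hp, he1] at h1'
        have h2 := mul_le_mul_of_nonneg_left (hG.radial κ hκ0 hκ1 p hp) (sq_nonneg l0)
        simp only [id, zero_mul, add_zero, one_mul]
        nlinarith
    simp only [zero_mul, add_zero, one_mul, id_eq] at hB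
    rw [famVal_prodFam_succ, Fin.sum_univ_three]
    change _ + _ * (famVal (phiOf P) (v 1) * famVal (phiOf P) (v 2)) ≤
      (κ * l0) ^ 2 * famVal (phiOf P) (v 1) + (κ * l0) ^ 2 * famVal (phiOf P) (v 2) at hA
    show _ + _ * (famVal (phiOf P) (v 1) * famVal (phiOf P) (v 2)) ≤ _
    linarith
  · rcases eq_or_lt_of_le hκ0 with hk | hk
    · exact Or.inl (by simp [hmean, ← hk])
    · exact Or.inr ⟨by positivity, strict_regular (by norm_num)⟩

lemma mean_le_one {ν : PMF ℕ} (h : ∀ k, 2 ≤ k → ν k = 0) : offspringMean ν ≤ 1 := by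
  calc offspringMean ν ≤ ∑' k, ν k := by
        refine ENNReal.tsum_le_tsum fun k => ?_
        rcases Nat.lt_or_ge k 2 with hk | hk
        · calc (k : ℝ≥0∞) * ν k ≤ 1 * ν k := by
                gcongr
                exact_mod_cast Nat.lt_succ_iff.mp hk
            _ = ν k := one_mul _
        · simp [h k hk]
    _ = 1 := ν.tsum_coe

/-- Every offspring law, `-1/4 ≤ lam ≤ 1/2`. -/
theorem nonReconstruction_band (h12 : SingleCert (1 / 2)) (h14 : SingleCert (-1 / 4))
    {lam : ℝ} (hlo : -1 / 4 ≤ lam) (hhi : lam ≤ 1 / 2) {ν : PMF ℕ}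
    (hle : offspringMean ν * ENNReal.ofReal (lam ^ 2) ≤ 1) : NonReconstruction 3 lam ν := by
  have hstrict : offspringMean ν * ENNReal.ofReal (lam ^ 2) < 1 ∨ ∃ k, 2 ≤ k ∧ ν k ≠ 0 := by
    by_cases hk : ∃ k, 2 ≤ k ∧ ν k ≠ 0
    · exact Or.inr hk
    · push Not at hk
      refine Or.inl ?_
      calc offspringMean ν * ENNReal.ofReal (lam ^ 2) ≤ 1 * ENNReal.ofReal (lam ^ 2) :=
            mul_le_mul_left (mean_le_one hk) _
        _ < 1 := by rw [one_mul, ENNReal.ofReal_lt_one]; nlinarith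
  rcases le_total 0 lam with h | h
  · have e : lam = 2 * lam * (1 / 2) := by ring
    rw [e] at hle hstrict ⊢
    exact nonReconstruction_of_single (by norm_num) (by norm_num) h12 (by linarith) (by linarith)
      hle hstrict
  · have e : lam = -4 * lam * (-1 / 4) := by ring
    rw [e] at hle hstrict ⊢
    exact nonReconstruction_of_single (by norm_num) (by norm_num) h14 (by linarith) (by linarith)
      hle hstrict

lemma sq_le_of_mean {ν : PMF ℕ} {lam : ℝ} {N : ℕ} (hN : 0 < N)
    (hmean : (N : ℝ≥0∞) ≤ offspringMean ν)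
    (hle : offspringMean ν * ENNReal.ofReal (lam ^ 2) ≤ 1) : (N : ℝ) * lam ^ 2 ≤ 1 := by
  have h := le_trans (mul_le_mul_left hmean (ENNReal.ofReal (lam ^ 2))) hle
  rw [← ENNReal.ofReal_natCast, ← ENNReal.ofReal_mul (Nat.cast_nonneg N),
    ENNReal.ofReal_le_one] at h
  exact h

/-- The statement assembled from the four certificates: every offspring law in the band, all
regular trees in the ferromagnetic case, every law of mean at least `4` in the ferromagnetic
case, and every law of mean at least `16`. -/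
theorem assembly (h12 : SingleCert (1 / 2)) (h14 : SingleCert (-1 / 4))
    (hb : BinCert (70711 / 100000)) (ht : TerCert (57736 / 100000) (25 / 28)) :
    (∀ (lam : ℝ) (ν : PMF ℕ), -1 / 4 ≤ lam → lam ≤ 1 / 2 →
        offspringMean ν * ENNReal.ofReal (lam ^ 2) ≤ 1 → NonReconstruction 3 lam ν) ∧
    (∀ (lam : ℝ) (d : ℕ), 0 ≤ lam → 2 ≤ d → (d : ℝ) * lam ^ 2 ≤ 1 →
        NonReconstruction 3 lam (regularLaw d)) ∧
    (∀ (lam : ℝ) (ν : PMF ℕ), 0 ≤ lam → 4 ≤ offspringMean ν →
        offspringMean ν * ENNReal.ofReal (lam ^ 2) ≤ 1 → NonReconstruction 3 lam ν) ∧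
    (∀ (lam : ℝ) (ν : PMF ℕ), 16 ≤ offspringMean ν →
        offspringMean ν * ENNReal.ofReal (lam ^ 2) ≤ 1 → NonReconstruction 3 lam ν) := by
  refine ⟨fun lam ν h1 h2 h3 => nonReconstruction_band h12 h14 h1 h2 h3, ?_, ?_, ?_⟩
  · intro lam d h0 hd hle
    rcases (show d = 2 ∨ d = 3 ∨ 4 ≤ d by omega) with rfl | rfl | h4
    · have e : lam = lam / (70711 / 100000) * (70711 / 100000) := by field_simp
      push_cast at hle
      have hk : lam / (70711 / 100000) ≤ 1 := by
        rw [div_le_one (by norm_num)]; nlinarith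
      rw [e]
      exact nonReconstruction_of_bin (by norm_num) (by norm_num) hb (by positivity) hk
        (by rwa [← e])
    · have e : lam = lam / (57736 / 100000) * (57736 / 100000) := by field_simp
      push_cast at hle
      have hk : lam / (57736 / 100000) ≤ 1 := by
        rw [div_le_one (by norm_num)]; nlinarith
      rw [e]
      exact nonReconstruction_of_ter (by norm_num) (by norm_num) (by norm_num) (by norm_num)
        (by norm_num) ht (by positivity) hk (by rwa [← e])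
    · have h4' : (4 : ℝ) ≤ d := by exact_mod_cast h4
      refine nonReconstruction_band h12 h14 (by linarith) (by nlinarith) ?_
      rw [offspringMean_regular, ← ENNReal.ofReal_natCast,
        ← ENNReal.ofReal_mul (Nat.cast_nonneg d)]
      exact ENNReal.ofReal_le_one.mpr hle
  · intro lam ν h0 h4 hle
    have := sq_le_of_mean (N := 4) (by norm_num) h4 hle
    push_cast at this
    exact nonReconstruction_band h12 h14 (by linarith) (by nlinarith) hle
  · intro lam ν h16 hle
    have := sq_le_of_mean (N := 16) (by norm_num) h16 hle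
    push_cast at this
    exact nonReconstruction_band h12 h14 (by nlinarith) (by nlinarith) hle

end Vale.Agent.P154
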