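import Vale.Agent.P154.Aux3Defs
import Vale.Agent.P154.Bridge
import Vale.Agent.P154.Aux3Model
import Vale.Agent.P154.AuxModel

/-!
P154: soundness of the check for one row of a budget table with three states at the channel
`-1/2`.

A row asks for `e * avgMerge W (s, T u) ≤ e * W s + D s * Φ u`, with `W`, `D`, `Φ` polynomials in
the two invariants.  It is certified by a polynomial `G` in the three symmetric functions of the
merged vector: `G` dominates `a * Z * W` (one check in three variables) and its sum over the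
relabellings is dominated by the right side (one check in the four invariants).
-/

namespace Vale.Agent.P154.BudgetRow

open scoped BigOperators
open Kron

/-- The value of a list of terms at the two invariants of a point. -/
noncomputable def polyT (L : List Term) (p : Fin 3 → ℝ) : ℝ := evalT L ![tI p, cI p, 0, 0]

/-- The terms read at the second point. -/
def toSnd (L : List Term) : List Term :=
  L.map fun t => (if t.2.2.2.1 + t.2.2.2.2 = 0 then t.1 else 0, 0, 0, t.2.1, t.2.2.1)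

/-- Only the first two variables occur. -/
def firstOnly (L : List Term) : Bool :=
  L.all fun t => decide (t.2.2.2.1 = 0) && decide (t.2.2.2.2 = 0)

/-- Multiplication of all coefficients. -/
def smulT (z : ℤ) (L : List Term) : List Term := L.map fun t => (z * t.1, t.2)

/-- The second point written through its image under the channel `-1/2`. -/
def unChan (L : List Term) : List Term :=
  L.map fun t => (t.1 * 4 ^ t.2.2.2.1 * (-8) ^ t.2.2.2.2, t.2)

/-- The constant part is nonnegative. -/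
def constOK (L : List Term) : Bool :=
  L.all fun t => decide (0 ≤ t.1) || !decide (t.2.1 + t.2.2.1 + t.2.2.2.1 + t.2.2.2.2 = 0)

/-- The data of one row. -/
structure Row where
  W : List Term
  D : List Term
  G : List Term
  a : ℕ
  e : ℕ
  kR : ℕ
  kG : ℕ
  kP : ℕ
  I : ℕ
  J : ℕ
  P : Bern.Poly
  cfg : Bern.Cfg
  cov : Bern.Cover
  lay : Lay
  R3 : Bern.Poly
  cfg3 : Bern.Cfg
  cov3 : Bern.Cover
  lay3 : Lay

/-- The right side of a row. -/
def rhsT (Φ : List Term) (r : Row) : List Term :=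
  smulT r.e r.W ++ lmul r.D (toSnd Φ)

/-- The polynomial of the identity in the four invariants, which vanishes. -/
def sumPoly {α : Type} (o : Ops α) (Φ : List Term) (r : Row) (x : Fin 4 → α) : α :=
  let z := Aux3.three o (x 0) (x 1)
  let y := Aux3.three o (x 2) (x 3)
  o.add (o.mul (o.cst r.kR)
      (Aux3.evO o (Aux3.scaleT 6 2 r.I r.J (unChan (rhsT Φ r))) (Aux3.invs o z y)))
    (o.mul (o.cst (-1))
      (o.add (o.mul (o.cst r.kG) (Aux3.six o r.G z y))
        (o.mul (o.cst r.kP)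
          (Aux3.evO o (Aux3.scaleT 6 2 r.I r.J (unChan (Aux3.toTerms r.P))) (Aux3.invs o z y)))))

/-- The symmetric functions of a merged vector, through its total and its invariants. -/
def symVec {α : Type} (o : Ops α) (y t c : α) : Fin 4 → α :=
  ![o.mul (o.cst 9) y,
    o.mul (o.cst 27) (o.mul (o.mul y y) (o.add (o.cst 1) (o.mul (o.cst (-1)) t))),
    o.mul (o.cst 27) (o.mul (o.mul y (o.mul y y))
      (o.add (o.cst 1) (o.add (o.mul (o.cst (-3)) t) (o.mul (o.cst 2) c)))),
    o.cst 0]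

/-- The polynomial of the identity in three variables, which vanishes. -/
def domPoly {α : Type} (o : Ops α) (r : Row) (x : Fin 4 → α) : α :=
  let y := x 2
  let u := o.add (o.mul (o.cst 3) y) (o.cst (-1))
  o.add (o.mul (o.mul y y)
      (o.add (Aux3.evO o r.G (symVec o y (x 0) (x 1)))
        (o.mul (o.cst (-3 * r.a)) (o.mul y (Aux3.evO o r.W ![x 0, x 1, o.cst 0, o.cst 0])))))
    (o.mul (o.cst (-1)) (o.mul (o.mul (o.mul u u) (o.mul u u))
      (Aux3.evO o (Aux3.toTerms r.R3) ![x 0, x 1, o.mul y y, o.mul y (o.mul y y)])))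

/-- The box of the check in three variables. -/
def box3 : Bern.Box := ⟨⟨0, 1, 0⟩, ⟨0, 1, 0⟩, ⟨0, 1, 1⟩, ⟨0, 1, 24⟩⟩

/-- The check of one row. -/
def rowCheck (Φ : List Term) (r : Row) : Bool :=
  decide (0 < r.a) && decide (0 < r.e) && decide (0 < r.kG) &&
    decide (r.e * r.kR * (6 ^ r.I * 2 ^ r.J) = 6 * r.a * r.kG) &&
    firstOnly r.W && firstOnly r.D && firstOnly Φ && constOK r.G &&
    Aux3.scaleOK r.I r.J (unChan (rhsT Φ r)) &&
    Aux3.scaleOK r.I r.J (unChan (Aux3.toTerms r.P)) &&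
    Bern.check r.cfg r.P r.cov && zeroOK r.lay (sumPoly kOps Φ r r.lay.var) &&
    Bern.shapeOK r.cfg3 r.R3 && Bern.coverOK r.cfg3 r.R3 r.cov3 box3 &&
    zeroOK r.lay3 (domPoly kOps r r.lay3.var)

lemma evalT_smulT (z : ℤ) (x : Fin 4 → ℝ) : ∀ L, evalT (smulT z L) x = z * evalT L x
  | [] => by simp [smulT, evalT]
  | t :: L => by
      have := evalT_smulT z x L
      simp only [evalT, smulT] at this
      simp only [evalT, smulT, List.map_cons, List.sum_cons, termVal, this]
      push_cast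
      ring

lemma evalT_first : ∀ (L : List Term), firstOnly L = true → ∀ x : Fin 4 → ℝ,
    evalT L x = evalT L ![x 0, x 1, 0, 0]
  | [], _, x => by simp [evalT]
  | (z, a, b, c, d) :: L, h, x => by
      simp only [firstOnly, List.all_cons, Bool.and_eq_true, decide_eq_true_eq] at h
      obtain ⟨⟨rfl, rfl⟩, h⟩ := h
      have := evalT_first L h x
      simp only [evalT] at this
      simp only [evalT, List.map_cons, List.sum_cons, termVal, this]
      simp

lemma evalT_toSnd : ∀ (L : List Term), firstOnly L = true → ∀ x : Fin 4 → ℝ,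
    evalT (toSnd L) x = evalT L ![x 2, x 3, 0, 0]
  | [], _, x => by simp [toSnd, evalT]
  | (z, a, b, c, d) :: L, h, x => by
      simp only [firstOnly, List.all_cons, Bool.and_eq_true, decide_eq_true_eq] at h
      obtain ⟨⟨rfl, rfl⟩, h⟩ := h
      have := evalT_toSnd L h x
      simp only [evalT, toSnd] at this
      simp only [evalT, toSnd, List.map_cons, List.sum_cons, termVal, this]
      simp

lemma evalT_unChan (x : Fin 4 → ℝ) : ∀ L,
    evalT (unChan L) x = evalT L ![x 0, x 1, 4 * x 2, -8 * x 3]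
  | [] => by simp [unChan, evalT]
  | t :: L => by
      have := evalT_unChan x L
      simp only [evalT, unChan] at this
      simp only [evalT, unChan, List.map_cons, List.sum_cons, termVal, this, Matrix.cons_val_zero,
        Matrix.cons_val_one, Matrix.cons_val]
      push_cast
      ring

lemma constOK_sound : ∀ (L : List Term), constOK L = true → 0 ≤ evalT L (![0, 0, 0, 0] : Fin 4 → ℝ)
  | [], _ => by simp [evalT]
  | (z, a, b, c, d) :: L, h => by
      simp only [constOK, List.all_cons, Bool.and_eq_true, Bool.or_eq_true, decide_eq_true_eq,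
        Bool.not_eq_true', decide_eq_false_iff_not] at h
      have ih := constOK_sound L (by simpa [constOK] using h.2)
      simp only [evalT] at ih
      simp only [evalT, List.map_cons, List.sum_cons, termVal, Matrix.cons_val_zero,
        Matrix.cons_val_one, Matrix.cons_val]
      refine add_nonneg ?_ ih
      by_cases hz : a + b + c + d = 0
      · obtain ⟨rfl, rfl, rfl, rfl⟩ : a = 0 ∧ b = 0 ∧ c = 0 ∧ d = 0 := by omega
        have : 0 ≤ z := h.1.resolve_right fun hne => hne rfl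
        simpa using this
      · rcases (show a ≠ 0 ∨ b ≠ 0 ∨ c ≠ 0 ∨ d ≠ 0 by omega) with h' | h' | h' | h' <;> simp [h']

variable {L : Lay}

lemma rel_symVec {y t c : (Fin 4 → ℝ) → ℝ} {vy vt vc : KV} (hy : Rel L y vy) (ht : Rel L t vt)
    (hc : Rel L c vc) (i : Fin 4) :
    Rel L (fun x => symVec rOps (y x) (t x) (c x) i) (symVec kOps vy vt vc i) := by
  fin_cases i
  · exact rel_mul (rel_cst L 9) hy
  · exact rel_mul (rel_cst L 27)
      (rel_mul (rel_mul hy hy) (rel_add (rel_cst L 1) (rel_mul (rel_cst L (-1)) ht)))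
  · exact rel_mul (rel_cst L 27) (rel_mul (rel_mul hy (rel_mul hy hy))
      (rel_add (rel_cst L 1) (rel_add (rel_mul (rel_cst L (-3)) ht) (rel_mul (rel_cst L 2) hc))))
  · exact rel_cst L 0

lemma rel_vec2 {a b c d : (Fin 4 → ℝ) → ℝ} {va vb vc vd : KV} (ha : Rel L a va) (hb : Rel L b vb)
    (hc : Rel L c vc) (hd : Rel L d vd) (i : Fin 4) :
    Rel L (fun x => (![a x, b x, c x, d x] : Fin 4 → ℝ) i) ((![va, vb, vc, vd] : Fin 4 → KV) i) := by
  fin_cases i
  exacts [ha, hb, hc, hd]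

lemma rel_domPoly (r : Row) :
    Rel L (fun x => domPoly rOps r x) (domPoly kOps r L.var) := by
  have hy := rel_var L 2
  have h0 := rel_var L 0
  have h1 := rel_var L 1
  have hu := rel_add (rel_mul (rel_cst L 3) hy) (rel_cst L (-1))
  have hT := Aux3.rel_evO (F := fun x => symVec rOps (x 2) (x 0) (x 1))
    (V := symVec kOps (L.var 2) (L.var 0) (L.var 1)) (rel_symVec hy h0 h1) r.G
  have hW := Aux3.rel_evO (F := fun x => ![x 0, x 1, rOps.cst 0, rOps.cst 0])
    (V := ![L.var 0, L.var 1, kOps.cst 0, kOps.cst 0])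
    (rel_vec2 h0 h1 (rel_cst L 0) (rel_cst L 0)) r.W
  have hR := Aux3.rel_evO
    (F := fun x => ![x 0, x 1, rOps.mul (x 2) (x 2), rOps.mul (x 2) (rOps.mul (x 2) (x 2))])
    (V := ![L.var 0, L.var 1, kOps.mul (L.var 2) (L.var 2),
      kOps.mul (L.var 2) (kOps.mul (L.var 2) (L.var 2))])
    (rel_vec2 h0 h1 (rel_mul hy hy) (rel_mul hy (rel_mul hy hy))) (Aux3.toTerms r.R3)
  have key := rel_add (rel_mul (rel_mul hy hy)
      (rel_add hT (rel_mul (rel_cst L (-3 * r.a)) (rel_mul hy hW))))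
    (rel_mul (rel_cst L (-1)) (rel_mul (rel_mul (rel_mul hu hu) (rel_mul hu hu)) hR))
  simp only [domPoly]
  with_reducible exact key

lemma domPoly_zero (r : Row) (h : zeroOK L (domPoly kOps r L.var) = true) (x : Fin 4 → ℝ) :
    domPoly rOps r x = 0 :=
  rel_zero (rel_domPoly r) h x

lemma rel_sumPoly (Φ : List Term) (r : Row) :
    Rel L (fun x => sumPoly rOps Φ r x) (sumPoly kOps Φ r L.var) := by
  have hz := Aux3.rel_three (rel_var L 0) (rel_var L 1)
  have hy := Aux3.rel_three (rel_var L 2) (rel_var L 3)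
  have hA := Aux3.rel_evO
    (F := fun x => Aux3.invs rOps (Aux3.three rOps (x 0) (x 1)) (Aux3.three rOps (x 2) (x 3)))
    (V := Aux3.invs kOps (Aux3.three kOps (L.var 0) (L.var 1)) (Aux3.three kOps (L.var 2) (L.var 3)))
    (Aux3.rel_invs hz hy)
  have key := rel_add
    (rel_mul (rel_cst L r.kR) (hA (Aux3.scaleT 6 2 r.I r.J (unChan (rhsT Φ r)))))
    (rel_mul (rel_cst L (-1))
      (rel_add (rel_mul (rel_cst L r.kG) (Aux3.rel_six r.G hz hy))
        (rel_mul (rel_cst L r.kP)
          (hA (Aux3.scaleT 6 2 r.I r.J (unChan (Aux3.toTerms r.P)))))))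
  simp only [sumPoly]
  with_reducible exact key

lemma sumPoly_zero (Φ : List Term) (r : Row) (h : zeroOK L (sumPoly kOps Φ r L.var) = true)
    (x : Fin 4 → ℝ) : sumPoly rOps Φ r x = 0 :=
  rel_zero (rel_sumPoly Φ r) h x

lemma tI_half {u : Fin 3 → ℝ} (hu : u ∈ stdSimplex ℝ (Fin 3)) :
    4 * tI (chanMap (-1 / 2) u) = tI u ∧ -8 * cI (chanMap (-1 / 2) u) = cI u := by
  rw [chanMap_simplex _ hu]
  constructor <;> (simp only [tI, cI, shrink, Fin.sum_univ_three, Fin.prod_univ_three]; ring)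

/-- The node bound of a row: `G` dominates `a * Z * W` at every merged vector. -/
lemma node_le {r : Row} (hG0 : constOK r.G = true) (hW : firstOnly r.W = true)
    (hs3 : Bern.shapeOK r.cfg3 r.R3 = true)
    (hb : Bern.coverOK r.cfg3 r.R3 r.cov3 box3 = true)
    (hid : zeroOK r.lay3 (domPoly kOps r r.lay3.var) = true)
    {s u : Fin 3 → ℝ} (hs : s ∈ stdSimplex ℝ (Fin 3)) (hu : u ∈ stdSimplex ℝ (Fin 3))
    (hu2 : ∀ i, u i ≤ 1 / 2) :
    (r.a : ℝ) * (mergePow 1 s u * polyT r.W (fun i => s i * u i / ∑ j, s j * u j)) ≤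
      evalT r.G (Aux3.prodVec s u) := by
  have hs3' : s 0 + s 1 + s 2 = 1 := by simpa [Fin.sum_univ_three] using hs.2
  have hnn : ∀ i, 0 ≤ s i * u i := fun i => mul_nonneg (hs.1 i) (hu.1 i)
  set S := ∑ j, s j * u j with hS
  have hSu : S ≤ 1 / 2 := by
    calc S ≤ ∑ j, s j * (1 / 2) :=
          Finset.sum_le_sum fun j _ => mul_le_mul_of_nonneg_left (hu2 j) (hs.1 j)
      _ = 1 / 2 := by rw [← Finset.sum_mul, hs.2, one_mul]
  rcases (Finset.sum_nonneg fun j (_ : j ∈ Finset.univ) => hnn j).eq_or_lt with h | h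
  · have hz : ∀ i, s i * u i = 0 := fun i =>
      (Finset.sum_eq_zero_iff_of_nonneg fun j _ => hnn j).mp h.symm i (Finset.mem_univ i)
    have e : Aux3.prodVec s u = ![0, 0, 0, 0] := by simp [Aux3.prodVec, hz]
    have hm : mergePow 1 s u = 0 := by simp [mergePow, hz]
    rw [e, hm, zero_mul, mul_zero]
    exact constOK_sound r.G hG0
  · set p : Fin 3 → ℝ := fun i => s i * u i / S with hp
    have hpm : p ∈ stdSimplex ℝ (Fin 3) :=
      ⟨fun i => div_nonneg (hnn i) h.le, by rw [hp, ← Finset.sum_div, div_self h.ne']⟩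
    have hp3 : p 0 + p 1 + p 2 = 1 := by simpa [Fin.sum_univ_three] using hpm.2
    obtain ⟨ρ, v, hρ, hv, e1, e2⟩ := Aux3.param hpm
    have hS1 : 0 ≤ S := h.le
    have hmem : box3.Mem ρ v S 0 := by
      simp only [Set.mem_Icc] at hρ hv
      refine ⟨?_, ?_, ?_, ?_⟩ <;> simp [Bern.Ax.Mem, box3, hρ, hv, hS1] <;> linarith
    have hR := Bern.coverOK_sound hs3 r.cov3 box3 hb ρ v S 0 hmem
    rw [← e1, ← e2, show S ^ 2 * Bern.Tv 0 = S ^ 2 by simp [Bern.Tv],
      show S ^ 3 * Bern.Kv 0 = S ^ 3 by simp [Bern.Kv]] at hR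
    have key := domPoly_zero r hid ![tI p, cI p, S, 0]
    have esym : symVec rOps S (tI p) (cI p) = Aux3.prodVec s u := by
      have hmul : ∀ i, s i * u i = p i * S := fun i => by simp only [hp]; rw [div_mul_cancel₀ _ h.ne']
      funext i
      fin_cases i <;>
        simp [symVec, Aux3.prodVec, rOps, hmul, tI, cI, Fin.sum_univ_three,
          Fin.prod_univ_three] <;>
        (rw [show p 2 = 1 - p 0 - p 1 by linarith]; ring)
    simp only [domPoly, Matrix.cons_val_zero, Matrix.cons_val_one, Matrix.cons_val, esym,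
      Aux3.evO_r, Aux3.evalT_toTerms] at key
    simp only [rOps] at key
    push_cast at key
    have eR : (![tI p, cI p, S * S, S * (S * S)] : Fin 4 → ℝ) = ![tI p, cI p, S ^ 2, S ^ 3] := by
      funext i
      fin_cases i <;> simp <;> ring
    rw [eR] at key
    have hm : mergePow 1 s u = 3 * S := by
      simp only [mergePow, pow_one, ← Finset.mul_sum, ← hS]
      push_cast
      ring
    rw [hm]
    simp only [polyT]
    have h4 : 0 ≤ (3 * S + -1) * (3 * S + -1) * ((3 * S + -1) * (3 * S + -1)) *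
        r.R3.eval ![tI p, cI p, S ^ 2, S ^ 3] := mul_nonneg (mul_self_nonneg _) hR
    have h5 : 0 ≤ S * S *
        (evalT r.G (Aux3.prodVec s u) + -3 * (r.a : ℝ) * (S * evalT r.W ![tI p, cI p, 0, 0])) := by
      linarith
    have := nonneg_of_mul_nonneg_right h5 (mul_pos h h)
    linarith

/-- Soundness of the check of one row. -/
theorem row_sound {Φ : List Term} {r : Row} (h : rowCheck Φ r = true) {s u : Fin 3 → ℝ}
    (hs : s ∈ stdSimplex ℝ (Fin 3)) (hu : u ∈ stdSimplex ℝ (Fin 3)) :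
    (r.e : ℝ) * mergeAvg (polyT r.W) s (chanMap (-1 / 2) u) ≤
      (r.e : ℝ) * polyT r.W s + polyT r.D s * polyT Φ u := by
  simp only [rowCheck, Bool.and_eq_true, decide_eq_true_eq] at h
  obtain ⟨⟨⟨⟨⟨⟨⟨⟨⟨⟨⟨⟨⟨⟨ha, he⟩, hkG⟩, hbal⟩, hW⟩, hD⟩, hΦ⟩, hG0⟩, hsc⟩, hscP⟩, hb⟩, hid⟩, hs3⟩,
    hb3⟩, hid3⟩ := h
  set u' := chanMap (-1 / 2) u with hu'
  have hu'm : u' ∈ stdSimplex ℝ (Fin 3) := by
    rw [hu', chanMap_simplex _ hu]
    refine ⟨fun i => ?_, ?_⟩
    · have h1 : u i ≤ 1 := hu.2 ▸ Finset.single_le_sum (fun j _ => hu.1 j) (Finset.mem_univ i)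
      simp only [shrink]; linarith
    · have := hu.2
      simp only [Fin.sum_univ_three] at this
      simp only [shrink, Fin.sum_univ_three]; linarith
  have hu'2 : ∀ i, u' i ≤ 1 / 2 := fun i => by
    rw [hu', chanMap_simplex _ hu, shrink]
    linarith [hu.1 i]
  have hs3' : s 0 + s 1 + s 2 = 1 := by simpa [Fin.sum_univ_three] using hs.2
  have hu3 : u' 0 + u' 1 + u' 2 = 1 := by simpa [Fin.sum_univ_three] using hu'm.2
  have key := sumPoly_zero Φ r hid ![3 * s 0, 3 * s 1, 3 * u' 0, 3 * u' 1]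
  have et : ∀ p : Fin 3 → ℝ, p 0 + p 1 + p 2 = 1 →
      Aux3.three rOps (3 * p 0) (3 * p 1) = (3 * p 0, 3 * p 1, 3 * p 2) := by
    intro p hp
    simp only [Aux3.three, rOps, Prod.mk.injEq, true_and]
    push_cast
    linarith
  obtain ⟨hA, hB⟩ := tI_half hu
  rw [← hu'] at hA hB
  have einv : Aux3.invs rOps (3 * s 0, 3 * s 1, 3 * s 2) (3 * u' 0, 3 * u' 1, 3 * u' 2) =
      ![6 * tI s, 2 * cI s, 6 * tI u', 2 * cI u'] := by
    funext i
    fin_cases i <;>
      (simp [Aux3.invs, Aux3.sq3, Aux3.cu3, Aux3.ctr, rOps, tI, cI, Fin.sum_univ_three,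
          Fin.prod_univ_three]
       ring)
  have esum : Aux3.six rOps r.G (3 * s 0, 3 * s 1, 3 * s 2) (3 * u' 0, 3 * u' 1, 3 * u' 2) =
      ∑ σ : Equiv.Perm (Fin 3), evalT r.G (Aux3.prodVec s (u' ∘ σ)) := by
    have epr : ∀ w : Fin 3 → ℝ,
        Aux3.prods rOps (3 * s 0, 3 * s 1, 3 * s 2) (3 * w 0, 3 * w 1, 3 * w 2) =
          Aux3.prodVec s w := by
      intro w
      funext i
      fin_cases i <;> simp [Aux3.prods, Aux3.prodVec, rOps] <;> ring
    have e : ∀ (σ : Equiv.Perm (Fin 3)) (i j k : Fin 3), σ 0 = i → σ 1 = j → σ 2 = k →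
        Aux3.prodVec s (u' ∘ σ) =
          Aux3.prods rOps (3 * s 0, 3 * s 1, 3 * s 2) (3 * u' i, 3 * u' j, 3 * u' k) := by
      rintro σ _ _ _ rfl rfl rfl
      exact (epr (u' ∘ σ)).symm
    rw [Aux3.perm_three, Finset.sum_insert (by decide), Finset.sum_insert (by decide),
      Finset.sum_insert (by decide), Finset.sum_insert (by decide), Finset.sum_insert (by decide),
      Finset.sum_singleton, e (Equiv.refl _) 0 1 2 rfl rfl rfl,
      e (Equiv.subLeft 0) 0 2 1 (by decide) (by decide) (by decide),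
      e (Equiv.subLeft 1) 1 0 2 (by decide) (by decide) (by decide),
      e (Equiv.addRight 1) 1 2 0 (by decide) (by decide) (by decide),
      e (Equiv.addRight 2) 2 0 1 (by decide) (by decide) (by decide),
      e (Equiv.subLeft 2) 2 1 0 (by decide) (by decide) (by decide)]
    simp only [Aux3.six, Aux3.evO_r]
    show (_ + _) + ((_ + _) + (_ + _)) = _
    ring
  simp only [sumPoly, Matrix.cons_val_zero, Matrix.cons_val_one, Matrix.cons_val, et s hs3',
    et u' hu3, esum, einv, Aux3.evO_r] at key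
  simp only [rOps] at key
  push_cast at key
  have hsR := Aux3.evalT_scale 6 2 r.I r.J ![tI s, cI s, tI u', cI u'] _ hsc
  have hsP := Aux3.evalT_scale 6 2 r.I r.J ![tI s, cI s, tI u', cI u'] _ hscP
  simp only [Matrix.cons_val_zero, Matrix.cons_val_one, Matrix.cons_val, evalT_unChan, hA,
    hB] at hsR hsP
  push_cast at hsR hsP
  rw [hsR, hsP, Aux3.evalT_toTerms] at key
  obtain ⟨ρ, v, hρ, hv, e1, e2⟩ := Aux3.param hs
  obtain ⟨ρ', v', hρ', hv', e3, e4⟩ := Aux3.param hu
  have hP := Bern.check_sound hb hρ hv hρ' hv'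
  rw [← e1, ← e2, ← e3, ← e4] at hP
  have erhs : evalT (rhsT Φ r) ![tI s, cI s, tI u, cI u] =
      (r.e : ℝ) * polyT r.W s + polyT r.D s * polyT Φ u := by
    rw [rhsT, Aux3.evalT_append, evalT_smulT, evalT_lmul, evalT_toSnd _ hΦ,
      evalT_first _ hW, evalT_first _ hD]
    simp [polyT]
  rw [erhs] at key
  set X := (r.e : ℝ) * polyT r.W s + polyT r.D s * polyT Φ u
  set Sg := ∑ σ : Equiv.Perm (Fin 3), evalT r.G (Aux3.prodVec s (u' ∘ σ)) with hSg
  have h1 : (r.kG : ℝ) * Sg ≤ (r.kR : ℝ) * ((6 : ℝ) ^ r.I * 2 ^ r.J * X) := by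
    have : 0 ≤ (r.kP : ℝ) * ((6 : ℝ) ^ r.I * 2 ^ r.J * r.P.eval ![tI s, cI s, tI u, cI u]) :=
      mul_nonneg (Nat.cast_nonneg _) (mul_nonneg (by positivity) hP)
    linarith
  have h2 := Finset.sum_le_sum fun (σ : Equiv.Perm (Fin 3)) (_ : σ ∈ Finset.univ) =>
    node_le hG0 hW hs3 hb3 hid3 hs (Aux3.mem_simplex_comp hu'm σ) fun i => hu'2 (σ i)
  rw [← Finset.mul_sum, ← hSg] at h2
  rw [mergeAvg_eq, Aux3.card_three]
  simp only [Function.comp_apply] at h2 ⊢
  generalize hM : (∑ σ : Equiv.Perm (Fin 3),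
    mergePow 1 s (u' ∘ σ) * polyT r.W (fun i => s i * u' (σ i) / ∑ j, s j * u' (σ j))) = M
      at h2 ⊢
  have hbal' : (r.e : ℝ) * r.kR * ((6 : ℝ) ^ r.I * 2 ^ r.J) = 6 * (r.a : ℝ) * r.kG := by
    exact_mod_cast hbal
  have hpos : (0 : ℝ) < 6 * (r.a : ℝ) * r.kG := by
    have : (0 : ℝ) < r.a := by exact_mod_cast ha
    have : (0 : ℝ) < r.kG := by exact_mod_cast hkG
    positivity
  refine le_of_mul_le_mul_left ?_ hpos
  calc 6 * (r.a : ℝ) * r.kG * ((r.e : ℝ) * (M / 6)) = (r.e : ℝ) * (r.kG * ((r.a : ℝ) * M)) := by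
        ring
    _ ≤ (r.e : ℝ) * ((r.kR : ℝ) * ((6 : ℝ) ^ r.I * 2 ^ r.J * X)) :=
        mul_le_mul_of_nonneg_left
          ((mul_le_mul_of_nonneg_left h2 (Nat.cast_nonneg _)).trans h1) (Nat.cast_nonneg _)
    _ = 6 * (r.a : ℝ) * r.kG * X := by rw [← hbal']; ring

end Vale.Agent.P154.BudgetRow
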