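import Vale.Agent.P154.BudgetRow
import Vale.Agent.P154.BudgetStep

/-!
P154: budget tables with three states, piecewise polynomial in the budget.
-/

namespace Vale.Agent.P154.BudgetRow

open scoped BigOperators
open Kron

variable {q : ℕ}

lemma hom_sum {n : ℕ} (w : Fin n → ℝ) (F : Fin n → (Fin q → ℝ) → ℝ) (v : Fin q → ℝ) :
    hom (fun p => ∑ m, w m * F m p) v = ∑ m, w m * hom (F m) v := by
  simp only [hom, Finset.mul_sum]
  exact Finset.sum_congr rfl fun m _ => by ring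

lemma mergeAvg_sum {n : ℕ} (w : Fin n → ℝ) (F : Fin n → (Fin q → ℝ) → ℝ) (s u : Fin q → ℝ) :
    mergeAvg (fun p => ∑ m, w m * F m p) s u = ∑ m, w m * mergeAvg (F m) s u := by
  simp only [mergeAvg, hom_sum, Finset.mul_sum]
  rw [Finset.sum_comm]
  exact Finset.sum_congr rfl fun m _ => Finset.sum_congr rfl fun σ _ => by ring

/-- The merge inequality of a nonnegative combination of checked rows. -/
theorem rows_merge {Φ : List Term} {n : ℕ} {rows : Fin n → Row}
    (h : ∀ m, rowCheck Φ (rows m) = true) {w : Fin n → ℝ} (hw : ∀ m, 0 ≤ w m) {s u : Fin 3 → ℝ}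
    (hs : s ∈ stdSimplex ℝ (Fin 3)) (hu : u ∈ stdSimplex ℝ (Fin 3)) :
    mergeAvg (fun p => ∑ m, w m * polyT (rows m).W p) s (chanMap (-1 / 2) u) ≤
      ∑ m, w m * polyT (rows m).W s +
        (∑ m, w m * (polyT (rows m).D s / ((rows m).e : ℝ))) * polyT Φ u := by
  rw [mergeAvg_sum, Finset.sum_mul, ← Finset.sum_add_distrib]
  refine Finset.sum_le_sum fun m _ => ?_
  have he : (0 : ℝ) < ((rows m).e : ℝ) := by
    have := h m
    simp only [rowCheck, Bool.and_eq_true, decide_eq_true_eq] at this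
    have h1 : 0 < (rows m).e := by tauto
    exact_mod_cast h1
  have hr := row_sound (h m) hs hu
  have : mergeAvg (polyT (rows m).W) s (chanMap (-1 / 2) u) ≤
      polyT (rows m).W s + polyT (rows m).D s / ((rows m).e : ℝ) * polyT Φ u := by
    refine le_of_mul_le_mul_left (hr.trans_eq ?_) he
    field_simp
  calc w m * mergeAvg (polyT (rows m).W) s (chanMap (-1 / 2) u)
      ≤ w m * (polyT (rows m).W s + polyT (rows m).D s / ((rows m).e : ℝ) * polyT Φ u) :=
        mul_le_mul_of_nonneg_left this (hw m)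
    _ = _ := by ring

lemma abs_inv_le {p : Fin 3 → ℝ} (hp : p ∈ stdSimplex ℝ (Fin 3)) : |tI p| ≤ 1 ∧ |cI p| ≤ 1 := by
  obtain ⟨r, v, ⟨r0, r1⟩, ⟨v0, v1⟩, e1, e2⟩ := Aux3.param hp
  have hv : |Bern.Tv v| ≤ 1 ∧ |Bern.Kv v| ≤ 1 := by
    simp only [Bern.Tv, Bern.Kv, abs_le]
    refine ⟨⟨?_, ?_⟩, ?_, ?_⟩ <;> nlinarith [mul_nonneg v0 (sub_nonneg.mpr v1), sq_nonneg (v - 1)]
  rw [e1, e2, abs_mul, abs_mul, abs_pow, abs_pow, abs_of_nonneg r0]
  exact ⟨mul_le_one₀ (pow_le_one₀ r0 r1) (abs_nonneg _) hv.1,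
    mul_le_one₀ (pow_le_one₀ r0 r1) (abs_nonneg _) hv.2⟩

lemma bddOn_polyT (L : List Term) : BddOn (polyT L) := by
  induction L with
  | nil => exact ⟨0, fun p _ => by simp [polyT, evalT]⟩
  | cons t L ih =>
      obtain ⟨M, hM⟩ := ih
      refine ⟨|(t.1 : ℝ)| + M, fun p hp => ?_⟩
      have := hM p hp
      simp only [polyT, evalT] at this
      simp only [polyT, evalT, List.map_cons, List.sum_cons]
      refine (abs_add_le _ _).trans (add_le_add ?_ this)
      obtain ⟨ht, hc⟩ := abs_inv_le hp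
      simp only [termVal, abs_mul, abs_pow, Matrix.cons_val_zero, Matrix.cons_val_one,
        Matrix.cons_val, abs_zero]
      refine le_trans ?_ (le_of_eq (mul_one |(t.1 : ℝ)|))
      rw [mul_assoc, mul_assoc, mul_assoc]
      refine mul_le_mul_of_nonneg_left ?_ (abs_nonneg _)
      have z : ∀ k : ℕ, (0 : ℝ) ^ k ≤ 1 := fun k => by rcases eq_or_ne k 0 with h | h <;> simp [h]
      refine mul_le_one₀ (pow_le_one₀ (abs_nonneg _) ht) (by positivity) ?_
      refine mul_le_one₀ (pow_le_one₀ (abs_nonneg _) hc) (by positivity) ?_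
      exact mul_le_one₀ (z _) (by positivity) (z _)

/-- The rows of a polynomial at one point, with a trivial second point. -/
def posPoly (L : List Term) : Bern.Poly :=
  ⟨[(1, 0)], L.map fun t => ((t.2.1, t.2.2.1), [t.1])⟩

/-- Nonnegativity on the triangle from the checker. -/
lemma polyT_nonneg {L : List Term} {c : Bern.Cfg} {cv : Bern.Cover} (hL : firstOnly L = true)
    (h : Bern.check c (posPoly L) cv = true) {p : Fin 3 → ℝ} (hp : p ∈ stdSimplex ℝ (Fin 3)) :
    0 ≤ polyT L p := by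
  obtain ⟨r, v, hr, hv, e1, e2⟩ := Aux3.param hp
  have := Bern.check_sound h hr hv (s := 1) (w := 0) (by simp) (by simp)
  rw [← e1, ← e2] at this
  have e : ∀ L : List Term, firstOnly L = true →
      (posPoly L).eval ![tI p, cI p, (1 : ℝ) ^ 2 * Bern.Tv 0, 1 ^ 3 * Bern.Kv 0] = polyT L p := by
    intro L hL
    induction L with
    | nil => simp [posPoly, Bern.Poly.eval, polyT, evalT]
    | cons t L ih =>
        obtain ⟨z, a, b, c, d⟩ := t
        simp only [firstOnly, List.all_cons, Bool.and_eq_true, decide_eq_true_eq] at hL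
        obtain ⟨⟨rfl, rfl⟩, hL⟩ := hL
        have := ih hL
        simp only [posPoly, Bern.Poly.eval, polyT, evalT] at this
        simp only [posPoly, Bern.Poly.eval, polyT, evalT, List.map_cons, List.sum_cons, this,
          termVal]
        simp [Bern.rowEval, Bern.Tv]
        ring
  rwa [e L hL] at this

/-- Uniform Lipschitz and first-order bounds for a family over the simplex, with finitely many
break points. -/
def Smooth (R : ℝ) (V D : (Fin q → ℝ) → ℝ → ℝ) : Prop :=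
  ∃ (L C : ℝ) (B : Finset ℝ), 0 ≤ L ∧ 0 ≤ C ∧ ∀ s ∈ stdSimplex ℝ (Fin q),
    (∀ x y, 0 ≤ x → x ≤ y → y ≤ R → |V s y - V s x| ≤ L * (y - x)) ∧
    (∀ x, 0 ≤ x → x ≤ R → |D s x| ≤ L) ∧
    ∀ A e, 0 ≤ A → 0 ≤ e → A + e ≤ R → V s A + e * D s A ≤ V s (A + e) + C * e * (e + inside B A e)

lemma pow_taylor {A e R : ℝ} (hA : 0 ≤ A) (he : 0 ≤ e) (hR : A + e ≤ R) (h1 : 1 ≤ R) :
    ∀ k : ℕ, 0 ≤ (A + e) ^ k - A ^ k - k * A ^ (k - 1) * e ∧
      (A + e) ^ k - A ^ k - k * A ^ (k - 1) * e ≤ (k : ℝ) ^ 2 * R ^ k * e ^ 2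
  | 0 => by simp
  | k + 1 => by
      obtain ⟨h, h'⟩ := pow_taylor hA he hR h1 k
      have e1 : (A + e) ^ (k + 1) - A ^ (k + 1) - ((k + 1 : ℕ) : ℝ) * A ^ (k + 1 - 1) * e =
          (A + e) * ((A + e) ^ k - A ^ k - k * A ^ (k - 1) * e) + k * A ^ (k - 1) * e ^ 2 := by
        rcases k with _ | j
        · simp
        · simp only [Nat.add_sub_cancel]
          push_cast
          ring
      rw [e1]
      refine ⟨by positivity, ?_⟩
      have h2 : (A + e) * ((A + e) ^ k - A ^ k - k * A ^ (k - 1) * e) ≤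
          R * ((k : ℝ) ^ 2 * R ^ k * e ^ 2) := mul_le_mul hR h' h (by linarith)
      have h3 : A ^ (k - 1) ≤ R ^ (k + 1) :=
        (pow_le_pow_left₀ hA (by linarith) _).trans (pow_le_pow_right₀ h1 (by omega))
      have h4 : (k : ℝ) * A ^ (k - 1) * e ^ 2 ≤ (k : ℝ) * R ^ (k + 1) * e ^ 2 := by gcongr
      have h5 : 0 ≤ ((k : ℝ) + 1) * R ^ (k + 1) * e ^ 2 := by
        have : 0 ≤ R := by linarith
        positivity
      push_cast
      rw [pow_succ R k] at h4 h5 ⊢
      linarith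

/-- A polynomial in the budget with bounded coefficient functions. -/
lemma smooth_poly {N : ℕ} {R : ℝ} {a : Fin N → (Fin q → ℝ) → ℝ} (ha : ∀ k, BddOn (a k)) :
    Smooth R (fun s r => ∑ k : Fin N, a k s * r ^ (k : ℕ))
      (fun s r => ∑ k : Fin N, a k s * ((k : ℕ) * r ^ ((k : ℕ) - 1))) := by
  choose M hM using ha
  set R' := max R 1 with hR'
  set C := ∑ k : Fin N, |M k| * ((k : ℕ) ^ 2 * R' ^ (k : ℕ) : ℝ) with hC
  set L := ∑ k : Fin N, |M k| * (((k : ℕ) + (k : ℕ) ^ 2 * R') * R' ^ (k : ℕ) : ℝ) with hL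
  have h1 : 1 ≤ R' := le_max_right _ _
  have hR0 : 0 ≤ R' := le_trans zero_le_one h1
  have hd : ∀ (k : Fin N) x, 0 ≤ x → x ≤ R →
      ((k : ℕ) : ℝ) * x ^ ((k : ℕ) - 1) ≤ (k : ℕ) * R' ^ (k : ℕ) := fun k x hx hxR =>
    mul_le_mul_of_nonneg_left ((pow_le_pow_left₀ hx (hxR.trans (le_max_left _ _)) _).trans
      (pow_le_pow_right₀ h1 (Nat.sub_le _ _))) (Nat.cast_nonneg _)
  refine ⟨L, C, ∅, by positivity, by positivity, fun s hs => ?_⟩
  have hb : ∀ k, |a k s| ≤ |M k| := fun k => (hM k s hs).trans (le_abs_self _)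
  refine ⟨fun x y hx hxy hy => ?_, fun x hx hxR => ?_, fun A e hA he hAe => ?_⟩
  · rw [← Finset.sum_sub_distrib, hL, Finset.sum_mul]
    refine (Finset.abs_sum_le_sum_abs _ _).trans (Finset.sum_le_sum fun k _ => ?_)
    obtain ⟨t0, t1⟩ := pow_taylor hx (sub_nonneg.mpr hxy)
      (show x + (y - x) ≤ R' by linarith [le_max_left R 1]) h1 (k : ℕ)
    rw [add_sub_cancel] at t0 t1
    have e1 : (y - x) ^ 2 ≤ R' * (y - x) := by
      rw [sq]
      exact mul_le_mul_of_nonneg_right (by linarith [le_max_left R 1]) (sub_nonneg.mpr hxy)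
    have e2 := mul_le_mul_of_nonneg_left e1 (show (0 : ℝ) ≤ (k : ℕ) ^ 2 * R' ^ (k : ℕ) by positivity)
    have e3 := mul_le_mul_of_nonneg_right (hd k x hx (hxy.trans hy)) (sub_nonneg.mpr hxy)
    have e4 : 0 ≤ ((k : ℕ) : ℝ) * x ^ ((k : ℕ) - 1) * (y - x) := by
      have := sub_nonneg.mpr hxy
      positivity
    have e5 : |y ^ (k : ℕ) - x ^ (k : ℕ)| ≤
        ((k : ℕ) + (k : ℕ) ^ 2 * R') * R' ^ (k : ℕ) * (y - x) := by
      rw [abs_of_nonneg (by linarith)]
      linarith
    calc |a k s * y ^ (k : ℕ) - a k s * x ^ (k : ℕ)| = |a k s| * |y ^ (k : ℕ) - x ^ (k : ℕ)| := by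
          rw [← mul_sub, abs_mul]
      _ ≤ |M k| * (((k : ℕ) + (k : ℕ) ^ 2 * R') * R' ^ (k : ℕ) * (y - x)) :=
          mul_le_mul (hb k) e5 (abs_nonneg _) (abs_nonneg _)
      _ = _ := by ring
  · refine (Finset.abs_sum_le_sum_abs _ _).trans (Finset.sum_le_sum fun k _ => ?_)
    rw [abs_mul, abs_of_nonneg (show (0 : ℝ) ≤ (k : ℕ) * x ^ ((k : ℕ) - 1) by positivity)]
    refine mul_le_mul (hb k) ((hd k x hx hxR).trans ?_) (by positivity) (abs_nonneg _)
    rw [add_mul]
    exact le_add_of_nonneg_right (by positivity)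
  · have hi : inside (∅ : Finset ℝ) A e = 0 := by simp [inside]
    rw [hi, add_zero, Finset.mul_sum, ← Finset.sum_add_distrib, hC, Finset.sum_mul, Finset.sum_mul,
      ← Finset.sum_add_distrib]
    refine Finset.sum_le_sum fun k _ => ?_
    obtain ⟨t0, t1⟩ := pow_taylor hA he (show A + e ≤ R' by linarith [le_max_left R 1]) h1 (k : ℕ)
    have h2 : -(|M k| * ((k : ℕ) ^ 2 * R' ^ (k : ℕ) * e ^ 2)) ≤
        a k s * ((A + e) ^ (k : ℕ) - A ^ (k : ℕ) - (k : ℕ) * A ^ ((k : ℕ) - 1) * e) := by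
      refine le_trans (neg_le_neg ?_) (neg_abs_le _)
      rw [abs_mul, abs_of_nonneg t0]
      exact mul_le_mul (hb k) t1 t0 (abs_nonneg _)
    linarith

/-- Two pieces glued at `b`. -/
noncomputable def glue (b : ℝ) (V W : (Fin q → ℝ) → ℝ → ℝ) (s : Fin q → ℝ) (r : ℝ) : ℝ :=
  if r < b then V s r else W s r

lemma inside_mono {B B' : Finset ℝ} (h : B ⊆ B') (A e : ℝ) : inside B A e ≤ inside B' A e :=
  Nat.cast_le.mpr (Finset.card_le_card (Finset.filter_subset_filter _ h))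

lemma smooth_glue {R b : ℝ} {V DV W DW : (Fin q → ℝ) → ℝ → ℝ} (hV : Smooth R V DV)
    (hW : Smooth R W DW) (hb : ∀ s ∈ stdSimplex ℝ (Fin q), V s b = W s b) :
    Smooth R (glue b V W) (glue b DV DW) := by
  obtain ⟨L1, C1, B1, hL1, hC1, h1⟩ := hV
  obtain ⟨L2, C2, B2, hL2, hC2, h2⟩ := hW
  classical
  set L := max L1 L2 with hLdef
  set C := max (max C1 C2) (2 * L) with hCdef
  have hL0 : 0 ≤ L := hL1.trans (le_max_left _ _)
  have hC0 : 0 ≤ C := hC1.trans ((le_max_left _ _).trans (le_max_left _ _))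
  refine ⟨L, C, insert b (B1 ∪ B2), hL0, hC0, fun s hs => ?_⟩
  obtain ⟨a1, a2, a3⟩ := h1 s hs
  obtain ⟨b1, b2, b3⟩ := h2 s hs
  have hlip : ∀ x y, 0 ≤ x → x ≤ y → y ≤ R → |glue b V W s y - glue b V W s x| ≤ L * (y - x) := by
    intro x y hx hxy hy
    simp only [glue]
    by_cases hyb : y < b
    · rw [if_pos hyb, if_pos (lt_of_le_of_lt hxy hyb)]
      exact (a1 x y hx hxy hy).trans
        (mul_le_mul_of_nonneg_right (le_max_left _ _) (sub_nonneg.mpr hxy))
    · rw [if_neg hyb]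
      rw [not_lt] at hyb
      by_cases hxb : x < b
      · rw [if_pos hxb]
        calc |W s y - V s x| = |(W s y - W s b) + (V s b - V s x)| := by rw [hb s hs]; congr 1; ring
          _ ≤ L2 * (y - b) + L1 * (b - x) := (abs_add_le _ _).trans (add_le_add
              (b1 b y (by linarith) hyb hy) (a1 x b hx hxb.le (hyb.trans hy)))
          _ ≤ L * (y - b) + L * (b - x) := add_le_add
              (mul_le_mul_of_nonneg_right (le_max_right _ _) (sub_nonneg.mpr hyb))
              (mul_le_mul_of_nonneg_right (le_max_left _ _) (sub_nonneg.mpr hxb.le))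
          _ = L * (y - x) := by ring
      · rw [if_neg hxb]
        exact (b1 x y hx hxy hy).trans
          (mul_le_mul_of_nonneg_right (le_max_right _ _) (sub_nonneg.mpr hxy))
  have hder : ∀ x, 0 ≤ x → x ≤ R → |glue b DV DW s x| ≤ L := by
    intro x hx hxR
    simp only [glue]
    split_ifs
    · exact (a2 x hx hxR).trans (le_max_left _ _)
    · exact (b2 x hx hxR).trans (le_max_right _ _)
  refine ⟨hlip, hder, fun A e hA he hAe => ?_⟩
  have mono : ∀ (C' : ℝ) (B' : Finset ℝ), C' ≤ C → B' ⊆ B1 ∪ B2 →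
      C' * e * (e + inside B' A e) ≤ C * e * (e + inside (insert b (B1 ∪ B2)) A e) := by
    intro C' B' hC' hB'
    refine mul_le_mul (mul_le_mul_of_nonneg_right hC' he)
      (add_le_add le_rfl (inside_mono (hB'.trans (Finset.subset_insert _ _)) A e))
      (add_nonneg he (Nat.cast_nonneg _)) (mul_nonneg hC0 he)
  by_cases hAb : b ≤ A
  · simp only [glue, if_neg (not_lt.mpr hAb), if_neg (not_lt.mpr (show b ≤ A + e by linarith))]
    exact (b3 A e hA he hAe).trans (add_le_add le_rfl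
      (mono C2 B2 ((le_max_right _ _).trans (le_max_left _ _)) Finset.subset_union_right))
  rw [not_le] at hAb
  by_cases hAeb : A + e ≤ b
  · have e1 : glue b V W s (A + e) = V s (A + e) := by
      simp only [glue]
      split_ifs with h
      · rfl
      · rw [show A + e = b by linarith]
        exact (hb s hs).symm
    rw [e1]
    simp only [glue, if_pos hAb]
    exact (a3 A e hA he hAe).trans (add_le_add le_rfl
      (mono C1 B1 ((le_max_left _ _).trans (le_max_left _ _)) Finset.subset_union_left))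
  · rw [not_le] at hAeb
    have hone : (1 : ℝ) ≤ inside (insert b (B1 ∪ B2)) A e := by
      have : 0 < ((insert b (B1 ∪ B2)).filter fun x => A < x ∧ x < A + e).card :=
        Finset.card_pos.mpr ⟨b, Finset.mem_filter.mpr ⟨Finset.mem_insert_self _ _, hAb, hAeb⟩⟩
      unfold inside
      exact_mod_cast this
    have d1 := (abs_le.mp (hlip A (A + e) hA (by linarith) hAe)).1
    have d2 := mul_le_mul_of_nonneg_left (abs_le.mp (hder A hA (by linarith))).2 he
    have d3 : 2 * L * e ≤ C * e * (e + inside (insert b (B1 ∪ B2)) A e) := by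
      calc 2 * L * e = 2 * L * e * 1 := (mul_one _).symm
        _ ≤ C * e * (e + inside (insert b (B1 ∪ B2)) A e) :=
          mul_le_mul (mul_le_mul_of_nonneg_right (le_max_right _ _) he) (by linarith) zero_le_one
            (mul_nonneg hC0 he)
    linarith

lemma Smooth.bdd {R : ℝ} {V D : (Fin q → ℝ) → ℝ → ℝ} (h : Smooth R V D)
    (h0 : BddOn (V · 0)) {A : ℝ} (hA : A ∈ Set.Icc 0 R) : BddOn (V · A) ∧ BddOn (D · A) := by
  obtain ⟨L, C, B, _, _, hs⟩ := h
  obtain ⟨M, hM⟩ := h0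
  refine ⟨⟨M + L * A, fun p hp => ?_⟩, L, fun p hp => (hs p hp).2.1 A hA.1 hA.2⟩
  have := (hs p hp).1 0 A le_rfl hA.1 hA.2
  rw [sub_zero] at this
  calc |V p A| = |V p 0 + (V p A - V p 0)| := by rw [add_sub_cancel]
    _ ≤ M + L * A := (abs_add_le _ _).trans (add_le_add (hM p hp) this)

lemma Smooth.continuousOn {R : ℝ} {V D : (Fin q → ℝ) → ℝ → ℝ} (h : Smooth R V D)
    {s : Fin q → ℝ} (hs : s ∈ stdSimplex ℝ (Fin q)) : ContinuousOn (V s) (Set.Icc 0 R) := by
  obtain ⟨L, C, B, hL, _, hh⟩ := h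
  refine LipschitzOnWith.continuousOn (K := L.toNNReal) (LipschitzOnWith.of_dist_le_mul ?_)
  intro x hx y hy
  rw [Real.dist_eq, Real.dist_eq, Real.coe_toNNReal L hL]
  rcases le_total x y with hxy | hxy
  · rw [abs_sub_comm, abs_sub_comm x y, abs_of_nonneg (sub_nonneg.mpr hxy)]
    exact (hh s hs).1 x y hx.1 hxy hy.2
  · rw [abs_of_nonneg (sub_nonneg.mpr hxy)]
    exact (hh s hs).1 y x hy.1 hxy hx.2

end Vale.Agent.P154.BudgetRow
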