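import Mathlib

/-!
P154: the bound for a Poisson number of children from a one-child inequality.
-/

namespace Vale.Agent.P154

open scoped BigOperators
open Filter Topology ProbabilityTheory

/-- The binomial average of a sequence. -/
noncomputable def binAvg (h : ℝ) (j : ℕ) (a : ℕ → ℝ) : ℝ :=
  ∑ i ∈ Finset.range (j + 1), (j.choose i : ℝ) * (h ^ i * (1 - h) ^ (j - i) * a i)

/-- The Poisson weight. -/
noncomputable def poisWeight (d : ℝ) (k : ℕ) : ℝ := Real.exp (-d) * d ^ k / k.factorial

lemma binAvg_succ (h : ℝ) (j : ℕ) (a : ℕ → ℝ) :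
    binAvg h (j + 1) a = (1 - h) * binAvg h j a + h * binAvg h j fun i => a (i + 1) := by
  have := Finset.sum_choose_succ_mul (fun i k => h ^ i * (1 - h) ^ k * a i) j
  rw [binAvg, this, binAvg, binAvg, Finset.mul_sum, Finset.mul_sum]
  congr 1 <;> refine Finset.sum_congr rfl fun i hi => ?_
  · have : i ≤ j := by simpa [Nat.lt_succ_iff] using hi
    rw [show j + 1 - i = j - i + 1 by omega, pow_succ]
    ring
  · rw [pow_succ]
    ring

lemma binAvg_le {h : ℝ} (h0 : 0 ≤ h) (h1 : h ≤ 1) {j : ℕ} {a b : ℕ → ℝ} {r c : ℝ}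
    (hab : ∀ i, r * a i ≤ b i + c) : r * binAvg h j a ≤ binAvg h j b + c := by
  have hone : (∑ i ∈ Finset.range (j + 1), (j.choose i : ℝ) * (h ^ i * (1 - h) ^ (j - i))) = 1 := by
    have := add_pow h (1 - h) j
    rw [add_sub_cancel, one_pow] at this
    exact (Finset.sum_congr rfl fun i _ => by ring).trans this.symm
  calc r * binAvg h j a = ∑ i ∈ Finset.range (j + 1),
        (j.choose i : ℝ) * (h ^ i * (1 - h) ^ (j - i)) * (r * a i) := by
        rw [binAvg, Finset.mul_sum]
        exact Finset.sum_congr rfl fun i _ => by ring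
    _ ≤ ∑ i ∈ Finset.range (j + 1),
        (j.choose i : ℝ) * (h ^ i * (1 - h) ^ (j - i)) * (b i + c) :=
      Finset.sum_le_sum fun i _ => mul_le_mul_of_nonneg_left (hab i)
        (mul_nonneg (Nat.cast_nonneg _) (mul_nonneg (pow_nonneg h0 _) (pow_nonneg (by linarith) _)))
    _ = binAvg h j b + c := by
      simp only [mul_add, Finset.sum_add_distrib, ← Finset.sum_mul, hone, one_mul, binAvg]
      congr 1
      exact Finset.sum_congr rfl fun i _ => by ring

/-- The break points strictly inside an interval. -/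
noncomputable def inside (B : Finset ℝ) (A e : ℝ) : ℝ :=
  ((B.filter fun x => A < x ∧ x < A + e).card : ℝ)

lemma inside_add (B : Finset ℝ) {A e : ℝ} (he : 0 ≤ e) :
    ((B.filter fun x => A + e < x).card : ℝ) + inside B A e ≤
      ((B.filter fun x => A < x).card : ℝ) := by
  classical
  rw [inside, ← Nat.cast_add, ← Finset.card_union_of_disjoint]
  · refine Nat.cast_le.mpr (Finset.card_le_card fun x hx => ?_)
    simp only [Finset.mem_union, Finset.mem_filter] at hx ⊢
    rcases hx with ⟨a, b⟩ | ⟨a, b, c⟩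
    · exact ⟨a, by linarith⟩
    · exact ⟨a, b⟩
  · refine Finset.disjoint_left.mpr fun x hx hx' => ?_
    simp only [Finset.mem_filter] at hx hx'
    linarith [hx.2, hx'.2.2]

/-- The bound for a binomial number of children. -/
lemma binAvg_chain {a b : ℕ → ℝ → ℝ} {X C R h : ℝ} (B : Finset ℝ) (hC : 0 ≤ C) (hX : 0 ≤ X)
    (h0 : 0 ≤ h) (h1 : h ≤ 1) {N : ℕ} (hR : N * (h * X) ≤ R)
    (hstep : ∀ i, ∀ A ∈ Set.Icc (0 : ℝ) R, a (i + 1) A ≤ a i A + X * b i A)
    (htay : ∀ i, ∀ A e : ℝ, 0 ≤ A → 0 ≤ e → A + e ≤ R →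
      a i A + e * b i A ≤ a i (A + e) + C * e * (e + inside B A e)) :
    ∀ j ≤ N, binAvg h j (fun i => a i ((N - j : ℕ) * (h * X))) ≤
      a 0 (N * (h * X)) + j * (C * (h * X) ^ 2) +
        C * (h * X) * ((B.filter fun x => ((N - j : ℕ) : ℝ) * (h * X) < x).card : ℝ) := by
  intro j
  induction j with
  | zero =>
      intro _
      simp only [binAvg, Nat.sub_zero, zero_add, Finset.sum_range_one, Nat.choose_self,
        Nat.cast_one, pow_zero, one_mul, Nat.cast_zero, zero_mul, add_zero]
      exact le_add_of_nonneg_right (mul_nonneg (mul_nonneg hC (mul_nonneg h0 hX)) (Nat.cast_nonneg _))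
  | succ j ih =>
      intro hj
      have hA : ((N - j : ℕ) : ℝ) * (h * X) = ((N - (j + 1) : ℕ) : ℝ) * (h * X) + h * X := by
        rw [show N - j = N - (j + 1) + 1 by omega]
        push_cast
        ring
      have hAR : ((N - j : ℕ) : ℝ) * (h * X) ≤ R := by
        refine le_trans (mul_le_mul_of_nonneg_right ?_ (mul_nonneg h0 hX)) hR
        exact_mod_cast Nat.sub_le N j
      set A := ((N - (j + 1) : ℕ) : ℝ) * (h * X) with hAdef
      have hA0 : 0 ≤ A := by positivity
      have hmem : A ∈ Set.Icc (0 : ℝ) R := ⟨hA0, by nlinarith [mul_nonneg h0 hX]⟩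
      rw [binAvg_succ]
      have e1 : binAvg h j (fun i => a (i + 1) A) ≤ binAvg h j (fun i => a i A + X * b i A) := by
        have := binAvg_le (r := 1) (c := 0) (j := j) h0 h1 (a := fun i => a (i + 1) A)
          (b := fun i => a i A + X * b i A) fun i => by simpa using hstep i A hmem
        simpa using this
      have e2 : (1 : ℝ) * binAvg h j (fun i => a i A + h * (X * b i A)) ≤
          binAvg h j (fun i => a i (A + h * X)) + C * (h * X) * (h * X + inside B A (h * X)) :=
        binAvg_le h0 h1 fun i => by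
          have := htay i A (h * X) hA0 (mul_nonneg h0 hX) (by linarith)
          linarith
      have e3 : binAvg h j (fun i => a i A + h * (X * b i A)) =
          (1 - h) * binAvg h j (fun i => a i A) +
            h * binAvg h j (fun i => a i A + X * b i A) := by
        simp only [binAvg, Finset.mul_sum, ← Finset.sum_add_distrib]
        exact Finset.sum_congr rfl fun i _ => by ring
      have ih' := ih (by omega)
      rw [hA] at ih'
      have := mul_le_mul_of_nonneg_left e1 h0
      have hin := mul_le_mul_of_nonneg_left (inside_add B (A := A) (mul_nonneg h0 hX))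
        (mul_nonneg hC (mul_nonneg h0 hX))
      push_cast
      linarith

/-- The Poisson average of a bounded sequence is the limit of the binomial averages. -/
lemma binAvg_tendsto {a : ℕ → ℝ} {d M : ℝ} (hd : 0 ≤ d) (hM : ∀ i, |a i| ≤ M) :
    Tendsto (fun N : ℕ => binAvg (d / N) N a) atTop (𝓝 (∑' k, poisWeight d k * a k)) := by
  have hr : Tendsto (fun n : ℕ => (n : ℝ) * (d / n)) atTop (𝓝 d) := by
    refine tendsto_const_nhds.congr' ?_
    filter_upwards [eventually_ge_atTop 1] with n hn
    rw [mul_div_cancel₀]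
    exact_mod_cast (by omega : n ≠ 0)
  have e : ∀ N : ℕ, binAvg (d / N) N a =
      ∑' i, (N.choose i : ℝ) * (d / N) ^ i * (1 - d / N) ^ (N - i) * a i := by
    intro N
    rw [tsum_eq_sum (s := Finset.range (N + 1))]
    · exact Finset.sum_congr rfl fun i _ => by ring
    · intro i hi
      simp only [Finset.mem_range, not_lt] at hi
      simp [Nat.choose_eq_zero_of_lt (show N < i by omega)]
  simp only [e]
  refine tendsto_tsum_of_dominated_convergence (bound := fun i => d ^ i / i.factorial * M)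
    ((Real.summable_pow_div_factorial d).mul_right M) (fun i => ?_) ?_
  · exact (tendsto_choose_mul_pow_of_tendsto_mul_atTop i hr).mul_const (a i)
  · filter_upwards [eventually_ge_atTop (⌈d⌉₊ + 1)] with N hN i
    have hNd : d ≤ N := le_trans (Nat.le_ceil d) (by exact_mod_cast (by omega : ⌈d⌉₊ ≤ N))
    have hN0 : (0 : ℝ) < N := by exact_mod_cast (by omega : 0 < N)
    have hu : 0 ≤ 1 - d / N := sub_nonneg.mpr ((div_le_one hN0).mpr hNd)
    have hu1 : 1 - d / N ≤ 1 := sub_le_self _ (by positivity)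
    rw [norm_mul, norm_mul, Real.norm_of_nonneg (by positivity),
      Real.norm_of_nonneg (pow_nonneg hu _), Real.norm_eq_abs]
    have hp : (1 - d / N) ^ (N - i) ≤ 1 := pow_le_one₀ hu hu1
    have hc : (N.choose i : ℝ) * (d / N) ^ i ≤ d ^ i / i.factorial := by
      calc (N.choose i : ℝ) * (d / N) ^ i ≤ (N : ℝ) ^ i / i.factorial * (d / N) ^ i :=
            mul_le_mul_of_nonneg_right (Nat.choose_le_pow_div i N) (by positivity)
        _ = d ^ i / i.factorial := by rw [div_pow]; field_simp
    have hM0 : 0 ≤ M := le_trans (abs_nonneg _) (hM i)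
    calc (N.choose i : ℝ) * (d / N) ^ i * (1 - d / N) ^ (N - i) * |a i|
        ≤ d ^ i / i.factorial * 1 * M := by gcongr; exact hM i
      _ = _ := by rw [mul_one]

/-- The bound for a Poisson number of children. -/
theorem poisson_tilt {a b : ℕ → ℝ → ℝ} {d X C R M : ℝ} (B : Finset ℝ) (hC : 0 ≤ C) (hd : 0 ≤ d)
    (hX : 0 ≤ X) (hR : d * X ≤ R) (hbd : ∀ i, |a i 0| ≤ M)
    (hstep : ∀ i, ∀ A ∈ Set.Icc (0 : ℝ) R, a (i + 1) A ≤ a i A + X * b i A)
    (htay : ∀ i, ∀ A e : ℝ, 0 ≤ A → 0 ≤ e → A + e ≤ R →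
      a i A + e * b i A ≤ a i (A + e) + C * e * (e + inside B A e)) :
    ∑' k, poisWeight d k * a k 0 ≤ a 0 (d * X) := by
  have hlim : Tendsto (fun N : ℕ => a 0 (d * X) + (C * (d * X) ^ 2 + C * (d * X) * B.card) / N)
      atTop (𝓝 (a 0 (d * X))) := by
    simpa using tendsto_const_nhds.add
      (tendsto_const_div_atTop_nhds_zero_nat (C * (d * X) ^ 2 + C * (d * X) * B.card))
  refine le_of_tendsto_of_tendsto (binAvg_tendsto hd hbd) hlim ?_
  filter_upwards [eventually_ge_atTop (⌈d⌉₊ + 1)] with N hN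
  have hNd : d ≤ N := le_trans (Nat.le_ceil d) (by exact_mod_cast (by omega : ⌈d⌉₊ ≤ N))
  have hN0 : (0 : ℝ) < N := by exact_mod_cast (by omega : 0 < N)
  have e1 : (N : ℝ) * (d / N * X) = d * X := by field_simp
  have h := binAvg_chain B hC hX (div_nonneg hd hN0.le) ((div_le_one hN0).mpr hNd) (N := N)
    (by rw [e1]; exact hR) hstep htay N le_rfl
  rw [e1, Nat.sub_self, Nat.cast_zero, zero_mul] at h
  refine h.trans ?_
  have hcard : ((B.filter fun x => (0 : ℝ) < x).card : ℝ) ≤ B.card :=
    Nat.cast_le.mpr (Finset.card_filter_le _ _)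
  calc a 0 (d * X) + (N : ℝ) * (C * (d / N * X) ^ 2) +
        C * (d / N * X) * ((B.filter fun x => (0 : ℝ) < x).card : ℝ)
      ≤ a 0 (d * X) + (N : ℝ) * (C * (d / N * X) ^ 2) + C * (d / N * X) * B.card :=
        add_le_add le_rfl (mul_le_mul_of_nonneg_left hcard (by positivity))
    _ = _ := by field_simp; ring

end Vale.Agent.P154
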