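import Vale.Agent.P154.AuxStep
import Vale.Agent.P154.PoissonTilt

/-!
P154: expectations over independent children, one child at a time, and the bound for a Poisson
number of children from a one-child inequality with a free budget variable.
-/

namespace Vale.Agent.P154

open scoped BigOperators ENNReal NNReal
open Filter Topology

variable {q : ℕ}

/-- Bounded on the simplex. -/
def BddOn (F : (Fin q → ℝ) → ℝ) : Prop := ∃ M : ℝ, ∀ p ∈ stdSimplex ℝ (Fin q), |F p| ≤ M

lemma abs_famVal_le {F : (Fin q → ℝ) → ℝ} {M : ℝ} (hM : ∀ p ∈ stdSimplex ℝ (Fin q), |F p| ≤ M)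
    {ι : Type} [Fintype ι] {v : ι → Fin q → ℝ} (hv : ∀ τ i, 0 ≤ v τ i)
    (hmass : ∑ τ, (∑ i, v τ i) / (q : ℝ) = 1) : |famVal F v| ≤ M := by
  refine (Finset.abs_sum_le_sum_abs _ _).trans ?_
  calc ∑ τ, |hom F (v τ)| ≤ ∑ τ, (∑ i, v τ i) / (q : ℝ) * M := by
        refine Finset.sum_le_sum fun τ _ => ?_
        rcases (Finset.sum_nonneg fun i (_ : i ∈ Finset.univ) => hv τ i).eq_or_lt with h | h
        · simp [hom, ← h]
        · rw [hom, abs_mul, abs_of_nonneg (div_nonneg h.le (Nat.cast_nonneg q))]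
          exact mul_le_mul_of_nonneg_left (hM _ (mem_simplex_of_nonneg (hv τ) h))
            (div_nonneg h.le (Nat.cast_nonneg q))
    _ = M := by rw [← Finset.sum_mul, hmass, one_mul]

/-- Homogeneous form of an upper bound for a merge through the channel. -/
lemma merge_chan_scaled [NeZero q] {lam : ℝ} {n : ℕ} {G H : Fin n → (Fin q → ℝ) → ℝ}
    {Ψ : (Fin q → ℝ) → ℝ}
    (hP : ∀ s ∈ stdSimplex ℝ (Fin q), ∀ u ∈ stdSimplex ℝ (Fin q),
      mergeAvg Ψ s (chanMap lam u) ≤ ∑ j, G j s * H j u)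
    {s u : Fin q → ℝ} (hs : ∀ i, 0 ≤ s i) (hu : ∀ i, 0 ≤ u i) :
    (∑ σ : Equiv.Perm (Fin q), hom Ψ (fun i => s i * chanMap lam u (σ i))) /
        (Fintype.card (Equiv.Perm (Fin q)) : ℝ) ≤ ∑ j, hom (G j) s * hom (H j) u := by
  have hq : (q : ℝ) ≠ 0 := Nat.cast_ne_zero.mpr (NeZero.ne q)
  rcases (Finset.sum_nonneg fun i (_ : i ∈ Finset.univ) => hs i).eq_or_lt with hS | hS
  · have h0 : ∀ i, s i = 0 := fun i =>
      le_antisymm (le_of_le_of_eq (Finset.single_le_sum (fun j _ => hs j) (Finset.mem_univ i))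
        hS.symm) (hs i)
    simp [hom, h0]
  rcases (Finset.sum_nonneg fun i (_ : i ∈ Finset.univ) => hu i).eq_or_lt with hU | hU
  · have h0 : ∀ i, u i = 0 := fun i =>
      le_antisymm (le_of_le_of_eq (Finset.single_le_sum (fun j _ => hu j) (Finset.mem_univ i))
        hU.symm) (hu i)
    simp [hom, h0, chanMap_eq]
  set S := ∑ i, s i with hSdef
  set U := ∑ i, u i with hUdef
  have h := hP _ (mem_simplex_of_nonneg hs hS) _ (mem_simplex_of_nonneg hu hU)
  rw [← hSdef, ← hUdef] at h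
  have e1 : ∀ σ : Equiv.Perm (Fin q),
      hom Ψ (fun i => s i / S * chanMap lam (fun j => u j / U) (σ i)) =
        (1 / (S * U)) * hom Ψ (fun i => s i * chanMap lam u (σ i)) := by
    intro σ
    rw [← hom_smul]
    congr 1
    funext i
    rw [show (fun j => u j / U) = fun j => (1 / U) * u j from funext fun j => by ring, chanMap_smul]
    field_simp
  simp only [mergeAvg, e1, ← Finset.mul_sum] at h
  have e2 : ∀ j, G j (fun i => s i / S) * H j (fun i => u i / U) =
      ((q : ℝ) ^ 2 / (S * U)) * (hom (G j) s * hom (H j) u) := by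
    intro j
    simp only [hom, ← hSdef, ← hUdef]
    field_simp
  simp only [e2, ← Finset.mul_sum] at h
  have := mul_le_mul_of_nonneg_left h (show (0 : ℝ) ≤ S * U / (q : ℝ) ^ 2 by positivity)
  field_simp at this ⊢
  linarith

/-- The upper bound for a pair of families, the second one balanced and seen through the
channel. -/
lemma merge_chan_le [NeZero q] {lam : ℝ} {n : ℕ} {G H : Fin n → (Fin q → ℝ) → ℝ}
    {Ψ : (Fin q → ℝ) → ℝ}
    (hP : ∀ s ∈ stdSimplex ℝ (Fin q), ∀ u ∈ stdSimplex ℝ (Fin q),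
      mergeAvg Ψ s (chanMap lam u) ≤ ∑ j, G j s * H j u)
    {κ ι : Type} [Fintype κ] [Fintype ι] {s : κ → Fin q → ℝ} {u : ι → Fin q → ℝ}
    (hs : ∀ x i, 0 ≤ s x i) (hu : Balanced u) :
    ∑ x, ∑ τ, hom Ψ (fun i => s x i * chanMap lam (u τ) i) ≤
      ∑ j, famVal (G j) s * famVal (H j) u := by
  have hN : (Fintype.card (Equiv.Perm (Fin q)) : ℝ) ≠ 0 :=
    Nat.cast_ne_zero.mpr Fintype.card_ne_zero
  have key : ∀ x, ∑ τ, hom Ψ (fun i => s x i * chanMap lam (u τ) i) =
      ∑ τ, (∑ σ : Equiv.Perm (Fin q), hom Ψ (fun i => s x i * chanMap lam (u τ) (σ i))) /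
        (Fintype.card (Equiv.Perm (Fin q)) : ℝ) := by
    intro x
    rw [← Finset.sum_div, Finset.sum_comm]
    have : ∀ σ : Equiv.Perm (Fin q),
        ∑ τ, hom Ψ (fun i => s x i * chanMap lam (u τ) (σ i)) =
          ∑ τ, hom Ψ (fun i => s x i * chanMap lam (u τ) i) := by
      intro σ
      obtain ⟨e, he⟩ := hu.sym σ
      rw [← Equiv.sum_comp e (fun τ => hom Ψ (fun i => s x i * chanMap lam (u τ) i))]
      refine Finset.sum_congr rfl fun τ _ => ?_
      congr 1
      funext i
      rw [← chanMap_perm, show u (e τ) = fun j => u τ (σ j) from funext (he τ)]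
    simp only [this, Finset.sum_const, Finset.card_univ, nsmul_eq_mul]
    field_simp
  have e : ∑ j, famVal (G j) s * famVal (H j) u =
      ∑ x, ∑ τ, ∑ j, hom (G j) (s x) * hom (H j) (u τ) := by
    simp only [famVal, Finset.sum_mul_sum]
    rw [Finset.sum_comm]
    exact Finset.sum_congr rfl fun x _ => Finset.sum_comm
  simp only [e, key]
  exact Finset.sum_le_sum fun x _ => Finset.sum_le_sum fun τ _ =>
    merge_chan_scaled hP (hs x) (hu.nonneg τ)

/-- The probability of the subtrees of `k` children, as a real number. -/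
noncomputable def childProb (ν : PMF ℕ) (n k : ℕ) (f : Fin k → Tree n) : ℝ :=
  (∏ a, treeProb ν n (f a)).toReal

/-- The expectation of a functional of the posterior of a vertex with `k` independent children. -/
noncomputable def childMean (q : ℕ) (lam : ℝ) (F : (Fin q → ℝ) → ℝ) (ν : PMF ℕ) (n k : ℕ) : ℝ :=
  ∑' f : Fin k → Tree n,
    childProb ν n k f * famVal F (prodFam lam fun a => lik q lam n (f a))

/-- The expectation of a functional of the posterior at depth `n`, as a real number. -/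
noncomputable def treeMean (q : ℕ) (lam : ℝ) (F : (Fin q → ℝ) → ℝ) (ν : PMF ℕ) (n : ℕ) : ℝ :=
  ∑' T : Tree n, (treeProb ν n T).toReal * famVal F (lik q lam n T)

variable {lam : ℝ} {ν : PMF ℕ} {n k : ℕ}

lemma tsum_childProb (ν : PMF ℕ) (n k : ℕ) :
    ∑' f : Fin k → Tree n, ∏ a, treeProb ν n (f a) = 1 := by
  rw [tsum_pi_fin_prod k (fun _ => treeProb ν n)]
  simp [tsum_treeProb]

lemma childProb_nonneg (f : Fin k → Tree n) : 0 ≤ childProb ν n k f := ENNReal.toReal_nonneg

lemma summable_childProb : Summable (childProb ν n k) :=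
  ENNReal.summable_toReal (by rw [tsum_childProb]; exact ENNReal.one_ne_top)

lemma summable_treeProb : Summable fun T : Tree n => (treeProb ν n T).toReal :=
  ENNReal.summable_toReal (by rw [tsum_treeProb]; exact ENNReal.one_ne_top)

lemma tsum_childProb_toReal : ∑' f, childProb ν n k f = 1 := by
  have h := ENNReal.tsum_toReal_eq (f := fun f : Fin k → Tree n => ∏ a, treeProb ν n (f a))
    fun f => ne_top_of_le_ne_top ENNReal.one_ne_top ((ENNReal.le_tsum f).trans_eq
      (tsum_childProb ν n k))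
  rw [tsum_childProb] at h
  simpa [childProb] using h.symm

lemma tsum_treeProb_toReal : ∑' T, (treeProb ν n T).toReal = 1 := by
  have h := ENNReal.tsum_toReal_eq (f := treeProb ν n) fun T =>
    ne_top_of_le_ne_top ENNReal.one_ne_top ((ENNReal.le_tsum T).trans_eq (tsum_treeProb ν n))
  rw [tsum_treeProb] at h
  simpa using h.symm

lemma prodFam_lik_facts (hq : 2 ≤ q) (h0 : -1 / ((q : ℝ) - 1) ≤ lam) (h1 : lam ≤ 1)
    (f : Fin k → Tree n) :
    (∀ τ i, 0 ≤ prodFam lam (fun a => lik q lam n (f a)) τ i) ∧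
      ∑ τ, (∑ i, prodFam lam (fun a => lik q lam n (f a)) τ i) / (q : ℝ) = 1 := by
  haveI : NeZero q := ⟨by omega⟩
  exact ⟨prodFam_nonneg hq h0 h1 (fun a => (lik_balanced hq h0 h1 n (f a)).1.nonneg),
    prodFam_mass (fun a => (lik_balanced hq h0 h1 n (f a)).1)⟩

lemma summable_childTerm (hq : 2 ≤ q) (h0 : -1 / ((q : ℝ) - 1) ≤ lam) (h1 : lam ≤ 1)
    {F : (Fin q → ℝ) → ℝ} (hF : BddOn F) :
    Summable fun f : Fin k → Tree n =>
      childProb ν n k f * famVal F (prodFam lam fun a => lik q lam n (f a)) := by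
  obtain ⟨M, hM⟩ := hF
  refine Summable.of_norm_bounded ((summable_childProb (ν := ν) (n := n) (k := k)).mul_right M) fun f => ?_
  obtain ⟨a, b⟩ := prodFam_lik_facts hq h0 h1 f
  rw [norm_mul, Real.norm_of_nonneg (childProb_nonneg f), Real.norm_eq_abs]
  exact mul_le_mul_of_nonneg_left (abs_famVal_le hM a b) (childProb_nonneg f)

lemma summable_treeTerm (hq : 2 ≤ q) (h0 : -1 / ((q : ℝ) - 1) ≤ lam) (h1 : lam ≤ 1)
    {F : (Fin q → ℝ) → ℝ} (hF : BddOn F) :
    Summable fun T : Tree n => (treeProb ν n T).toReal * famVal F (lik q lam n T) := by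
  haveI : NeZero q := ⟨by omega⟩
  obtain ⟨M, hM⟩ := hF
  refine Summable.of_norm_bounded ((summable_treeProb (ν := ν) (n := n)).mul_right M) fun T => ?_
  have hb := (lik_balanced hq h0 h1 n T).1
  rw [norm_mul, Real.norm_of_nonneg ENNReal.toReal_nonneg, Real.norm_eq_abs]
  exact mul_le_mul_of_nonneg_left (abs_famVal_le hM hb.nonneg hb.mass) ENNReal.toReal_nonneg

lemma abs_childMean_le (hq : 2 ≤ q) (h0 : -1 / ((q : ℝ) - 1) ≤ lam) (h1 : lam ≤ 1)
    {F : (Fin q → ℝ) → ℝ} {M : ℝ} (hM : ∀ p ∈ stdSimplex ℝ (Fin q), |F p| ≤ M) :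
    |childMean q lam F ν n k| ≤ M := by
  have h := tsum_of_norm_bounded (g := fun f => childProb ν n k f * M)
    ((summable_childProb (ν := ν) (n := n) (k := k)).mul_right M).hasSum
    (f := fun f => childProb ν n k f * famVal F (prodFam lam fun a => lik q lam n (f a))) fun f => by
      obtain ⟨a, b⟩ := prodFam_lik_facts hq h0 h1 f
      rw [norm_mul, Real.norm_of_nonneg (childProb_nonneg f), Real.norm_eq_abs]
      exact mul_le_mul_of_nonneg_left (abs_famVal_le hM a b) (childProb_nonneg f)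
  rwa [tsum_mul_right, tsum_childProb_toReal, one_mul, Real.norm_eq_abs] at h

/-- Linear inequalities between functionals pass to the expectations. -/
lemma childMean_comb_le (hq : 2 ≤ q) (h0 : -1 / ((q : ℝ) - 1) ≤ lam) (h1 : lam ≤ 1)
    {F G K : (Fin q → ℝ) → ℝ} (hF : BddOn F) (hG : BddOn G) (hK : BddOn K) {r c : ℝ}
    (h : ∀ p ∈ stdSimplex ℝ (Fin q), F p + r * G p ≤ K p + c) :
    childMean q lam F ν n k + r * childMean q lam G ν n k ≤ childMean q lam K ν n k + c := by
  have key : ∀ f : Fin k → Tree n,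
      childProb ν n k f * famVal F (prodFam lam fun a => lik q lam n (f a)) +
        r * (childProb ν n k f * famVal G (prodFam lam fun a => lik q lam n (f a))) ≤
      childProb ν n k f * famVal K (prodFam lam fun a => lik q lam n (f a)) +
        childProb ν n k f * c := by
    intro f
    obtain ⟨hnn, hmass⟩ := prodFam_lik_facts hq h0 h1 f
    set w := prodFam lam fun a => lik q lam n (f a) with hw
    have : famVal F w + r * famVal G w ≤ famVal K w + c := by
      calc famVal F w + r * famVal G w = ∑ τ, (hom F (w τ) + r * hom G (w τ)) := by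
            rw [Finset.sum_add_distrib, ← Finset.mul_sum]; rfl
        _ ≤ ∑ τ, (hom K (w τ) + (∑ i, w τ i) / (q : ℝ) * c) := by
            refine Finset.sum_le_sum fun τ _ => ?_
            rcases (Finset.sum_nonneg fun i (_ : i ∈ Finset.univ) => hnn τ i).eq_or_lt with hz | hz
            · simp [hom, ← hz]
            · have := mul_le_mul_of_nonneg_left (h _ (mem_simplex_of_nonneg (hnn τ) hz))
                (div_nonneg hz.le (Nat.cast_nonneg q))
              simp only [hom]
              linarith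
        _ = famVal K w + c := by
            rw [Finset.sum_add_distrib, ← Finset.sum_mul, hmass, one_mul]; rfl
    have := mul_le_mul_of_nonneg_left this (childProb_nonneg (ν := ν) f)
    linarith
  have sF := summable_childTerm (ν := ν) (n := n) (k := k) hq h0 h1 hF
  have sG := (summable_childTerm (ν := ν) (n := n) (k := k) hq h0 h1 hG).mul_left r
  have sK := summable_childTerm (ν := ν) (n := n) (k := k) hq h0 h1 hK
  have hsum := (sF.add sG).tsum_le_tsum key (sK.add ((summable_childProb (ν := ν) (n := n) (k := k)).mul_right c))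
  rwa [sF.tsum_add sG, sK.tsum_add ((summable_childProb (ν := ν) (n := n) (k := k)).mul_right c), tsum_mul_left, tsum_mul_right,
    tsum_childProb_toReal, one_mul] at hsum

/-- With no children the posterior is uniform. -/
lemma childMean_zero [NeZero q] (F : (Fin q → ℝ) → ℝ) :
    childMean q lam F ν n 0 = F fun _ => (1 : ℝ) / q := by
  have hq : (q : ℝ) ≠ 0 := Nat.cast_ne_zero.mpr (NeZero.ne q)
  rw [childMean, tsum_eq_single (default : Fin 0 → Tree n)
    (fun b hb => absurd (Subsingleton.elim b _) hb)]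
  simp [childProb, famVal, prodFam, hom, hq]

/-- The term of one choice of the children in `childMean`. -/
noncomputable def childTerm (q : ℕ) (lam : ℝ) (F : (Fin q → ℝ) → ℝ) (ν : PMF ℕ) (n k : ℕ)
    (f : Fin k → Tree n) : ℝ :=
  childProb ν n k f * famVal F (prodFam lam fun a => lik q lam n (f a))

lemma childTerm_succ_le (hq : 2 ≤ q) (h0 : -1 / ((q : ℝ) - 1) ≤ lam) (h1 : lam ≤ 1)
    {m : ℕ} {G H : Fin m → (Fin q → ℝ) → ℝ} {Ψ : (Fin q → ℝ) → ℝ}
    (hP : ∀ s ∈ stdSimplex ℝ (Fin q), ∀ u ∈ stdSimplex ℝ (Fin q),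
      mergeAvg Ψ s (chanMap lam u) ≤ ∑ j, G j s * H j u) (g : Fin (k + 1) → Tree n) :
    childTerm q lam Ψ ν n (k + 1) g ≤
      ∑ j, ((treeProb ν n (g 0)).toReal * famVal (H j) (lik q lam n (g 0))) *
        childTerm q lam (G j) ν n k (fun a => g a.succ) := by
  haveI : NeZero q := ⟨by omega⟩
  have hp : childProb ν n (k + 1) g =
      (treeProb ν n (g 0)).toReal * childProb ν n k (fun a => g a.succ) := by
    simp [childProb, Fin.prod_univ_succ, ENNReal.toReal_mul]
  have hb := merge_chan_le hP (s := prodFam lam fun a : Fin k => lik q lam n (g a.succ))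
    (prodFam_lik_facts hq h0 h1 _).1 (lik_balanced hq h0 h1 n (g 0)).1
  have hfam := famVal_prodFam_succ Ψ lam (fun a => lik q lam n (g a))
  simp only [childTerm]
  rw [hp, hfam]
  refine (mul_le_mul_of_nonneg_left hb
    (mul_nonneg ENNReal.toReal_nonneg (childProb_nonneg _))).trans_eq ?_
  rw [Finset.mul_sum]
  exact Finset.sum_congr rfl fun j _ => by ring

/-- One more child, under a bilinear upper bound for the merge. -/
theorem childMean_succ_le (hq : 2 ≤ q) (h0 : -1 / ((q : ℝ) - 1) ≤ lam) (h1 : lam ≤ 1)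
    {m : ℕ} {G H : Fin m → (Fin q → ℝ) → ℝ} {Ψ : (Fin q → ℝ) → ℝ} (hΨ : BddOn Ψ)
    (hG : ∀ j, BddOn (G j)) (hH : ∀ j, BddOn (H j))
    (hP : ∀ s ∈ stdSimplex ℝ (Fin q), ∀ u ∈ stdSimplex ℝ (Fin q),
      mergeAvg Ψ s (chanMap lam u) ≤ ∑ j, G j s * H j u) :
    childMean q lam Ψ ν n (k + 1) ≤
      ∑ j, childMean q lam (G j) ν n k * treeMean q lam (H j) ν n := by
  have sΨ : Summable (childTerm q lam Ψ ν n (k + 1)) := summable_childTerm hq h0 h1 hΨ
  have sG : ∀ j, Summable (childTerm q lam (G j) ν n k) :=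
    fun j => summable_childTerm hq h0 h1 (hG j)
  have sH := fun j => summable_treeTerm (ν := ν) (n := n) hq h0 h1 (hH j)
  have hle := fun g => childTerm_succ_le (ν := ν) hq h0 h1 hP (n := n) (k := k) g
  have emean : ∀ (F : (Fin q → ℝ) → ℝ) (i : ℕ),
      childMean q lam F ν n i = ∑' f, childTerm q lam F ν n i f := fun F i => rfl
  simp only [emean, treeMean]
  generalize hψ : childTerm q lam Ψ ν n (k + 1) = ψ at *
  generalize hφ : (fun j => childTerm q lam (G j) ν n k) = φ
  generalize hη : (fun j T => (treeProb ν n T).toReal * famVal (H j) (lik q lam n T)) = η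
  have eφ : ∀ j, childTerm q lam (G j) ν n k = φ j := fun j => congrFun hφ j
  have eη : ∀ j T, (treeProb ν n T).toReal * famVal (H j) (lik q lam n T) = η j T :=
    fun j T => congrFun (congrFun hη j) T
  simp only [eφ, eη] at sG sH hle ⊢
  set e : Tree n × (Fin k → Tree n) ≃ (Fin (k + 1) → Tree n) :=
    Fin.consEquiv fun _ : Fin (k + 1) => Tree n
  have hs : Summable (ψ ∘ e) := sΨ.comp_injective e.injective
  have hr : ∀ j, Summable fun z : Tree n × (Fin k → Tree n) => η j z.1 * φ j z.2 :=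
    fun j => summable_mul_of_summable_norm (sH j).norm (sG j).norm
  have key : ∀ z, (ψ ∘ e) z ≤ ∑ j, η j z.1 * φ j z.2 := by
    rintro ⟨T, f⟩
    have h := hle (e (T, f))
    simpa [e, Fin.consEquiv] using h
  rw [← e.tsum_eq]
  refine (hs.tsum_le_tsum key (summable_sum fun j _ => hr j)).trans_eq ?_
  rw [Summable.tsum_finsetSum fun j _ => hr j]
  refine Finset.sum_congr rfl fun j _ => ?_
  rw [mul_comm]
  exact (tsum_mul_tsum_of_summable_norm (sH j).norm (sG j).norm).symm

/-- The mean at the next depth, through the number of children. -/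
lemma meanPot_succ_childMean (hq : 2 ≤ q) (h0 : -1 / ((q : ℝ) - 1) ≤ lam) (h1 : lam ≤ 1)
    {F : (Fin q → ℝ) → ℝ} (hF : BddOn F) (hnn : ∀ p ∈ stdSimplex ℝ (Fin q), 0 ≤ F p) :
    meanPot q lam F ν (n + 1) = ∑' k, ν k * ENNReal.ofReal (childMean q lam F ν n k) := by
  rw [meanPot, tsum_tree_succ]
  refine tsum_congr fun k => ?_
  rw [childMean, ENNReal.ofReal_tsum_of_nonneg (fun f => mul_nonneg (childProb_nonneg f)
    (famVal_nonneg' hnn (prodFam_lik_facts hq h0 h1 f).1)) (summable_childTerm hq h0 h1 hF),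
    ← ENNReal.tsum_mul_left]
  refine tsum_congr fun f => ?_
  rw [ENNReal.ofReal_mul (childProb_nonneg f), childProb, ENNReal.ofReal_toReal
    (ne_top_of_le_ne_top ENNReal.one_ne_top ((ENNReal.le_tsum f).trans_eq (tsum_childProb ν n k)))]
  have e : lik q lam (n + 1) (node f) = prodFam lam (fun a => lik q lam n (f a)) :=
    funext fun τ => lik_succ lam n (node f) τ
  rw [← e, ← mul_assoc]
  rfl

/-- The real mean agrees with the mean potential. -/
lemma treeMean_eq (hq : 2 ≤ q) (h0 : -1 / ((q : ℝ) - 1) ≤ lam) (h1 : lam ≤ 1)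
    {F : (Fin q → ℝ) → ℝ} (hF : BddOn F) (hnn : ∀ p ∈ stdSimplex ℝ (Fin q), 0 ≤ F p) :
    meanPot q lam F ν n = ENNReal.ofReal (treeMean q lam F ν n) := by
  rw [treeMean, ENNReal.ofReal_tsum_of_nonneg (fun T => mul_nonneg ENNReal.toReal_nonneg
    (famVal_nonneg' hnn (lik_balanced hq h0 h1 n T).1.nonneg)) (summable_treeTerm hq h0 h1 hF)]
  refine tsum_congr fun T => ?_
  rw [ENNReal.ofReal_mul ENNReal.toReal_nonneg, ENNReal.ofReal_toReal
    (ne_top_of_le_ne_top ENNReal.one_ne_top ((ENNReal.le_tsum T).trans_eq (tsum_treeProb ν n)))]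

/-- A Poisson number of children: the bound from a one-child inequality with a budget. -/
theorem treeMean_poisson_le (hq : 2 ≤ q) (h0 : -1 / ((q : ℝ) - 1) ≤ lam) (h1 : lam ≤ 1)
    {F Φ : (Fin q → ℝ) → ℝ} {V D : (Fin q → ℝ) → ℝ → ℝ} {R C : ℝ} {d : ℝ≥0} (B : Finset ℝ)
    (hC : 0 ≤ C)
    (hF : BddOn F) (hF0 : ∀ p ∈ stdSimplex ℝ (Fin q), 0 ≤ F p)
    (hΦ : BddOn Φ) (hΦ0 : ∀ p ∈ stdSimplex ℝ (Fin q), 0 ≤ Φ p)
    (hV : ∀ A ∈ Set.Icc (0 : ℝ) R, BddOn (V · A)) (hD : ∀ A ∈ Set.Icc (0 : ℝ) R, BddOn (D · A))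
    (hFV : ∀ p ∈ stdSimplex ℝ (Fin q), F p ≤ V p 0)
    (hmerge : ∀ A ∈ Set.Icc (0 : ℝ) R, ∀ s ∈ stdSimplex ℝ (Fin q), ∀ u ∈ stdSimplex ℝ (Fin q),
      mergeAvg (V · A) s (chanMap lam u) ≤ V s A + D s A * Φ u)
    (htay : ∀ s ∈ stdSimplex ℝ (Fin q), ∀ A e : ℝ, 0 ≤ A → 0 ≤ e → A + e ≤ R →
      V s A + e * D s A ≤ V s (A + e) + C * e * (e + inside B A e))
    {ν : PMF ℕ} (n : ℕ) (hν : ∀ k, ν k = poissonLaw d k)
    (hR : (d : ℝ) * treeMean q lam Φ ν n ≤ R) :
    treeMean q lam F ν (n + 1) ≤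
      V (fun _ => (1 : ℝ) / q) ((d : ℝ) * treeMean q lam Φ ν n) := by
  haveI : NeZero q := ⟨by omega⟩
  set X := treeMean q lam Φ ν n with hXdef
  have hX : 0 ≤ X := tsum_nonneg fun T => mul_nonneg ENNReal.toReal_nonneg
    (famVal_nonneg' hΦ0 (lik_balanced hq h0 h1 n T).1.nonneg)
  have hR0 : 0 ≤ R := le_trans (mul_nonneg d.coe_nonneg hX) hR
  have m0 : (0 : ℝ) ∈ Set.Icc (0 : ℝ) R := ⟨le_rfl, hR0⟩
  have hone : treeMean q lam (fun _ => (1 : ℝ)) ν n = 1 := by
    have e : ∀ T : Tree n, famVal (fun _ => (1 : ℝ)) (lik q lam n T) = 1 := fun T =>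
      (famVal_const _ _).trans (lik_balanced hq h0 h1 n T).1.mass
    simp only [treeMean, e, mul_one]
    have h := ENNReal.tsum_toReal_eq (f := treeProb ν n) fun T =>
      ne_top_of_le_ne_top ENNReal.one_ne_top ((ENNReal.le_tsum T).trans_eq (tsum_treeProb ν n))
    rw [tsum_treeProb] at h
    simpa using h.symm
  set a := fun (k : ℕ) (A : ℝ) => childMean q lam (V · A) ν n k with ha
  set b := fun (k : ℕ) (A : ℝ) => childMean q lam (D · A) ν n k with hb
  obtain ⟨M, hM⟩ := hV 0 m0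
  have key := poisson_tilt (a := a) (b := b) B hC d.coe_nonneg hX hR
    (fun i => abs_childMean_le hq h0 h1 hM)
    (fun i A hA => by
      have h := childMean_succ_le (ν := ν) (n := n) (k := i) hq h0 h1
        (G := ![(V · A), (D · A)]) (H := ![fun _ => (1 : ℝ), Φ]) (hV A hA)
        (fun j => by fin_cases j; exacts [hV A hA, hD A hA])
        (fun j => by
          fin_cases j
          · exact ⟨1, fun p _ => by simp⟩
          · exact hΦ)
        (fun s hs u hu => by simpa [Fin.sum_univ_two] using hmerge A hA s hs u hu)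
      simp only [Fin.sum_univ_two, Matrix.cons_val_zero, Matrix.cons_val_one, hone, mul_one,
        ← hXdef] at h
      simp only [ha, hb]
      linarith)
    (fun i A e hA he hAe => childMean_comb_le hq h0 h1 (hV A ⟨hA, by linarith⟩)
      (hD A ⟨hA, by linarith⟩) (hV _ ⟨by linarith, hAe⟩) fun p hp => htay p hp A e hA he hAe)
  have ha0 : a 0 ((d : ℝ) * X) = V (fun _ => (1 : ℝ) / q) ((d : ℝ) * X) := childMean_zero _
  rw [ha0] at key
  have hle : ∀ k, childMean q lam F ν n k ≤ a k 0 := by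
    intro k
    have hz : BddOn (fun _ : Fin q → ℝ => (0 : ℝ)) := ⟨0, fun p _ => by simp⟩
    simpa using childMean_comb_le (ν := ν) (n := n) (k := k) hq h0 h1 hF hz (hV 0 m0)
      (r := 0) (c := 0) fun p hp => by simpa using hFV p hp
  have hnnF : ∀ k, 0 ≤ childMean q lam F ν n k := fun k => tsum_nonneg fun f =>
    mul_nonneg (childProb_nonneg f) (famVal_nonneg' hF0 (prodFam_lik_facts hq h0 h1 f).1)
  have hw0 : ∀ k, 0 ≤ poisWeight d k := fun k => by
    have := d.coe_nonneg
    unfold poisWeight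
    positivity
  obtain ⟨MF, hMF⟩ := hF
  have hsw : Summable (poisWeight d) := by
    have := (Real.summable_pow_div_factorial (d : ℝ)).mul_left (Real.exp (-(d : ℝ)))
    exact this.congr fun k => by rw [poisWeight]; ring
  have hsF : Summable fun k => poisWeight d k * childMean q lam F ν n k :=
    Summable.of_norm_bounded (hsw.mul_right MF) fun k => by
      rw [norm_mul, Real.norm_of_nonneg (hw0 k), Real.norm_eq_abs]
      exact mul_le_mul_of_nonneg_left (abs_childMean_le hq h0 h1 hMF) (hw0 k)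
  have hsV : Summable fun k => poisWeight d k * a k 0 :=
    Summable.of_norm_bounded (hsw.mul_right M) fun k => by
      rw [norm_mul, Real.norm_of_nonneg (hw0 k), Real.norm_eq_abs]
      exact mul_le_mul_of_nonneg_left (abs_childMean_le hq h0 h1 hM) (hw0 k)
  have hsum : treeMean q lam F ν (n + 1) = ∑' k, poisWeight d k * childMean q lam F ν n k := by
    refine (ENNReal.ofReal_eq_ofReal_iff (tsum_nonneg fun T => mul_nonneg ENNReal.toReal_nonneg
        (famVal_nonneg' hF0 (lik_balanced hq h0 h1 _ T).1.nonneg))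
      (tsum_nonneg fun k => mul_nonneg (hw0 k) (hnnF k))).mp ?_
    show ENNReal.ofReal (treeMean q lam F ν (n + 1)) = _
    rw [← treeMean_eq hq h0 h1 ⟨MF, hMF⟩ hF0, meanPot_succ_childMean hq h0 h1 ⟨MF, hMF⟩ hF0,
      ENNReal.ofReal_tsum_of_nonneg (fun k => mul_nonneg (hw0 k) (hnnF k)) hsF]
    refine tsum_congr fun k => ?_
    rw [hν, poissonLaw_apply, ENNReal.ofReal_mul (hw0 k), poisWeight]
  rw [hsum]
  exact le_trans (hsF.tsum_le_tsum (fun k => mul_le_mul_of_nonneg_left (hle k) (hw0 k)) hsV) key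

/-- One child against a budget: a multiplier form of the step `r ↦ r + kap`. -/
lemma childMean_budget_succ (hq : 2 ≤ q) (h0 : -1 / ((q : ℝ) - 1) ≤ lam) (h1 : lam ≤ 1)
    {V W β Φ : (Fin q → ℝ) → ℝ} {kap : ℝ} (hV : BddOn V) (hW : BddOn W) (hβ : BddOn β)
    (hΦ : BddOn Φ) (hβ0 : ∀ p ∈ stdSimplex ℝ (Fin q), 0 ≤ β p)
    (hstep : ∀ s ∈ stdSimplex ℝ (Fin q), ∀ u ∈ stdSimplex ℝ (Fin q),
      mergeAvg V s (chanMap lam u) ≤ W s + β s * (lam ^ 2 * Φ u - kap))
    (hX : lam ^ 2 * treeMean q lam Φ ν n ≤ kap) :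
    childMean q lam V ν n (k + 1) ≤ childMean q lam W ν n k := by
  haveI : NeZero q := ⟨by omega⟩
  obtain ⟨MΦ, hMΦ⟩ := hΦ
  have hlin : ∀ c : ℝ, BddOn fun p => c * Φ p - kap := fun c =>
    ⟨|c| * MΦ + |kap|, fun p hp => (abs_sub _ _).trans (add_le_add
      (by rw [abs_mul]; exact mul_le_mul_of_nonneg_left (hMΦ p hp) (abs_nonneg _)) le_rfl)⟩
  have h := childMean_succ_le (ν := ν) (n := n) (k := k) hq h0 h1 (G := ![W, β])
    (H := ![fun _ => (1 : ℝ), fun u => lam ^ 2 * Φ u - kap]) hV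
    (fun j => by fin_cases j; exacts [hW, hβ])
    (fun j => by
      fin_cases j
      · exact ⟨1, fun p _ => by simp⟩
      · exact hlin _)
    (fun s hs u hu => by simpa [Fin.sum_univ_two] using hstep s hs u hu)
  simp only [Fin.sum_univ_two, Matrix.cons_val_zero, Matrix.cons_val_one] at h
  have hb0 : 0 ≤ childMean q lam β ν n k := tsum_nonneg fun f =>
    mul_nonneg (childProb_nonneg f) (famVal_nonneg' hβ0 (prodFam_lik_facts hq h0 h1 f).1)
  have hmass : ∀ T : Tree n, famVal (fun _ => (1 : ℝ)) (lik q lam n T) = 1 := fun T =>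
    (famVal_const _ _).trans (lik_balanced hq h0 h1 n T).1.mass
  have hone : treeMean q lam (fun _ => (1 : ℝ)) ν n = 1 := by
    simp only [treeMean, hmass, mul_one]
    exact tsum_treeProb_toReal
  have hlow : treeMean q lam (fun u => lam ^ 2 * Φ u - kap) ν n =
      lam ^ 2 * treeMean q lam Φ ν n - kap := by
    have e : ∀ T : Tree n, famVal (fun u => lam ^ 2 * Φ u - kap) (lik q lam n T) =
        lam ^ 2 * famVal Φ (lik q lam n T) - kap := by
      intro T
      have hm : ∑ τ, (∑ i, lik q lam n T τ i) / (q : ℝ) = 1 := (lik_balanced hq h0 h1 n T).1.mass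
      calc famVal (fun u => lam ^ 2 * Φ u - kap) (lik q lam n T)
          = ∑ τ, (lam ^ 2 * hom Φ (lik q lam n T τ) - kap * ((∑ i, lik q lam n T τ i) / (q : ℝ))) :=
            Finset.sum_congr rfl fun τ _ => by simp only [hom]; ring
        _ = _ := by rw [Finset.sum_sub_distrib, ← Finset.mul_sum, ← Finset.mul_sum, hm, mul_one]; rfl
    simp only [treeMean, e, mul_sub]
    rw [((summable_treeTerm hq h0 h1 ⟨MΦ, hMΦ⟩).mul_left (lam ^ 2) |>.congr fun T => by ring).tsum_sub
      (summable_treeProb.mul_right kap), tsum_mul_right, tsum_treeProb_toReal, one_mul,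
      ← tsum_mul_left]
    congr 1
    exact tsum_congr fun T => by ring
  rw [hone, hlow, mul_one] at h
  nlinarith [mul_nonneg hb0 (sub_nonneg.mpr hX)]

/-- The iteration over the children of a vertex with a fixed budget for each. -/
theorem childMean_budget_fin (hq : 2 ≤ q) (h0 : -1 / ((q : ℝ) - 1) ≤ lam) (h1 : lam ≤ 1)
    {Φ : (Fin q → ℝ) → ℝ} {V β : (Fin q → ℝ) → ℝ → ℝ} {kap : ℝ} {d : ℕ} (_hkap : 0 ≤ kap)
    (hΦ : BddOn Φ) (hV : ∀ j ≤ d, BddOn (V · ((j : ℝ) * kap)))
    (hβ : ∀ j < d, BddOn (β · ((j : ℝ) * kap)))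
    (hβ0 : ∀ j < d, ∀ p ∈ stdSimplex ℝ (Fin q), 0 ≤ β p ((j : ℝ) * kap))
    (hstep : ∀ j < d, ∀ s ∈ stdSimplex ℝ (Fin q), ∀ u ∈ stdSimplex ℝ (Fin q),
      mergeAvg (V · ((j : ℝ) * kap)) s (chanMap lam u) ≤
        V s (((j : ℝ) + 1) * kap) + β s ((j : ℝ) * kap) * (lam ^ 2 * Φ u - kap))
    (hX : lam ^ 2 * treeMean q lam Φ ν n ≤ kap) :
    childMean q lam (V · 0) ν n d ≤ V (fun _ => (1 : ℝ) / q) ((d : ℝ) * kap) := by
  haveI : NeZero q := ⟨by omega⟩
  suffices ∀ j ≤ d, childMean q lam (V · 0) ν n d ≤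
      childMean q lam (V · ((j : ℝ) * kap)) ν n (d - j) by
    have h := this d le_rfl
    rwa [Nat.sub_self, childMean_zero] at h
  intro j
  induction j with
  | zero => intro _; simp
  | succ j ih =>
      intro hj
      refine (ih (by omega)).trans ?_
      rw [show d - j = d - (j + 1) + 1 by omega]
      push_cast
      have hm := hV (j + 1) hj
      push_cast at hm
      exact childMean_budget_succ hq h0 h1 (hV j (by omega)) hm (hβ j (by omega)) hΦ
        (hβ0 j (by omega)) (hstep j (by omega)) hX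

end Vale.Agent.P154
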