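import Mathlib

/-!
P154: the broadcasting model on random trees, stated directly from the definition.

`Tree n` is a rooted tree cut at depth `n`, children ordered (the order is only a labelling).
`Conf n T` is a full assignment of spins to all vertices of `T`, the root included.
`Obs n T` is an assignment of spins to the vertices at distance `n` from the root.
-/

namespace Vale.Agent.P154

open scoped ENNReal BigOperators
open Filter

/-- A rooted tree cut at depth `n`. -/
def Tree : ℕ → Type
  | 0 => Unit
  | n + 1 => Σ k : ℕ, (Fin k → Tree n)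

/-- Spins of all vertices of a tree of depth at most `n`, root included. -/
def Conf (q : ℕ) : (n : ℕ) → Tree n → Type
  | 0, _ => Fin q
  | n + 1, T => Fin q × ((a : Fin T.1) → Conf q n (T.2 a))

/-- Spins of the vertices at distance `n` from the root. -/
def Obs (q : ℕ) : (n : ℕ) → Tree n → Type
  | 0, _ => Fin q
  | n + 1, T => (a : Fin T.1) → Obs q n (T.2 a)

noncomputable instance confFintype (q : ℕ) : (n : ℕ) → (T : Tree n) → Fintype (Conf q n T)
  | 0, _ => inferInstanceAs (Fintype (Fin q))
  | n + 1, T => by
      letI : ∀ a : Fin T.1, Fintype (Conf q n (T.2 a)) := fun a => confFintype q n (T.2 a)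
      exact inferInstanceAs (Fintype (Fin q × ((a : Fin T.1) → Conf q n (T.2 a))))

noncomputable instance obsFintype (q : ℕ) : (n : ℕ) → (T : Tree n) → Fintype (Obs q n T)
  | 0, _ => inferInstanceAs (Fintype (Fin q))
  | n + 1, T => by
      letI : ∀ a : Fin T.1, Fintype (Obs q n (T.2 a)) := fun a => obsFintype q n (T.2 a)
      exact inferInstanceAs (Fintype ((a : Fin T.1) → Obs q n (T.2 a)))

/-- The spin of the root. -/
def rootSpin (q : ℕ) : (n : ℕ) → (T : Tree n) → Conf q n T → Fin q
  | 0, _, c => c
  | _ + 1, _, c => c.1

/-- The spins observed at depth `n`. -/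
def leaves (q : ℕ) : (n : ℕ) → (T : Tree n) → Conf q n T → Obs q n T
  | 0, _, c => c
  | n + 1, T, c => fun a => leaves q n (T.2 a) (c.2 a)

/-- The Potts channel from the parent spin `i` to the child spin `j`. -/
noncomputable def potts (q : ℕ) (lam : ℝ) (i j : Fin q) : ℝ :=
  (if i = j then lam else 0) + (1 - lam) / q

/-- The probability of a configuration given the spin of the root: the product over the edges. -/
noncomputable def confWeight (q : ℕ) (lam : ℝ) : (n : ℕ) → (T : Tree n) → Conf q n T → ℝ
  | 0, _, _ => 1
  | n + 1, T, c => ∏ a : Fin T.1,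
      potts q lam c.1 (rootSpin q n (T.2 a) (c.2 a)) * confWeight q lam n (T.2 a) (c.2 a)

open Classical in
/-- The joint probability that the root has spin `i` and the observed spins are `τ`
(the root spin is uniform). -/
noncomputable def joint (q : ℕ) (lam : ℝ) (n : ℕ) (T : Tree n) (i : Fin q) (τ : Obs q n T) : ℝ :=
  ∑ c : Conf q n T,
    if rootSpin q n T c = i ∧ leaves q n T c = τ then confWeight q lam n T c / q else 0

/-- For a fixed tree: the expectation over the observed spins of the total variation distance
between the posterior of the root and the uniform law. It is the sum over `τ` of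
`P(τ) * (1/2) * ∑ i, |P(i | τ) - 1/q|`, written without division. -/
noncomputable def treeDist (q : ℕ) (lam : ℝ) (n : ℕ) (T : Tree n) : ℝ :=
  ∑ τ : Obs q n T, (1 / 2) *
    ∑ i : Fin q, |joint q lam n T i τ - (∑ j : Fin q, joint q lam n T j τ) / q|

/-- The law of the Galton-Watson tree cut at depth `n`, offspring law `ν`. -/
noncomputable def treeProb (ν : PMF ℕ) : (n : ℕ) → Tree n → ℝ≥0∞
  | 0, _ => 1
  | n + 1, T => ν T.1 * ∏ a : Fin T.1, treeProb ν n (T.2 a)

/-- The quantity `a_n` of the problem: expectation over the tree and the spins. -/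
noncomputable def reconDist (q : ℕ) (lam : ℝ) (ν : PMF ℕ) (n : ℕ) : ℝ≥0∞ :=
  ∑' T : Tree n, treeProb ν n T * ENNReal.ofReal (treeDist q lam n T)

/-- Nonreconstruction: `a_n → 0`. -/
def NonReconstruction (q : ℕ) (lam : ℝ) (ν : PMF ℕ) : Prop :=
  Tendsto (reconDist q lam ν) atTop (nhds 0)

/-- Mean number of children. -/
noncomputable def offspringMean (ν : PMF ℕ) : ℝ≥0∞ := ∑' k : ℕ, (k : ℝ≥0∞) * ν k

end Vale.Agent.P154
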