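import Mathlib

/-!
P154: polynomial identities in four variables checked by one evaluation at a Kronecker point.
-/

namespace Vale.Agent.P154.Kron

/-- Operations used by generic computations. -/
structure Ops (α : Type) where
  add : α → α → α
  mul : α → α → α
  cst : ℤ → α

/-- A term: a coefficient and four exponents. -/
abbrev Term := ℤ × ℕ × ℕ × ℕ × ℕ

/-- The value of a term. -/
def termVal {R : Type} [CommRing R] (x : Fin 4 → R) (t : Term) : R :=
  (t.1 : R) * x 0 ^ t.2.1 * x 1 ^ t.2.2.1 * x 2 ^ t.2.2.2.1 * x 3 ^ t.2.2.2.2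

/-- The value of a list of terms. -/
def evalT {R : Type} [CommRing R] (L : List Term) (x : Fin 4 → R) : R := (L.map (termVal x)).sum

/-- Degree bounds in the four variables and a bound on the sum of absolute coefficients. -/
structure Bd where
  a : ℕ
  b : ℕ
  c : ℕ
  d : ℕ
  n : ℕ

/-- A value at the Kronecker point with its bounds. -/
abbrev KV := ℤ × Bd

/-- Operations on values with bounds. -/
def kOps : Ops KV where
  add p q := (p.1 + q.1,
    ⟨max p.2.a q.2.a, max p.2.b q.2.b, max p.2.c q.2.c, max p.2.d q.2.d, p.2.n + q.2.n⟩)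
  mul p q := (p.1 * q.1,
    if p.2.n * q.2.n = 0 then ⟨0, 0, 0, 0, 0⟩
    else ⟨p.2.a + q.2.a, p.2.b + q.2.b, p.2.c + q.2.c, p.2.d + q.2.d, p.2.n * q.2.n⟩)
  cst z := (z, ⟨0, 0, 0, 0, z.natAbs⟩)

/-- Operations on real numbers. -/
def rOps : Ops ℝ where
  add := (· + ·)
  mul := (· * ·)
  cst z := (z : ℝ)

/-- Layout: bits per slot and the four strides. -/
structure Lay where
  W : ℕ
  s1 : ℕ
  s2 : ℕ
  s3 : ℕ
  s4 : ℕ

/-- The index of an exponent vector. -/
def Lay.idx (L : Lay) (i j k l : ℕ) : ℕ := i + L.s1 * (j + L.s2 * (k + L.s3 * l))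

/-- The Kronecker point. -/
def Lay.pt (L : Lay) : Fin 4 → ℤ :=
  ![((2 ^ L.W : ℕ) : ℤ), ((2 ^ (L.W * L.s1) : ℕ) : ℤ), ((2 ^ (L.W * (L.s1 * L.s2)) : ℕ) : ℤ),
    ((2 ^ (L.W * (L.s1 * L.s2 * L.s3)) : ℕ) : ℤ)]

/-- The variables. -/
def Lay.var (L : Lay) : Fin 4 → KV :=
  ![(((2 ^ L.W : ℕ) : ℤ), ⟨1, 0, 0, 0, 1⟩), (((2 ^ (L.W * L.s1) : ℕ) : ℤ), ⟨0, 1, 0, 0, 1⟩),
    (((2 ^ (L.W * (L.s1 * L.s2)) : ℕ) : ℤ), ⟨0, 0, 1, 0, 1⟩),
    (((2 ^ (L.W * (L.s1 * L.s2 * L.s3)) : ℕ) : ℤ), ⟨0, 0, 0, 1, 1⟩)]

/-- A term within the bounds. -/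
def InBd (B : Bd) (t : Term) : Prop :=
  t.2.1 ≤ B.a ∧ t.2.2.1 ≤ B.b ∧ t.2.2.2.1 ≤ B.c ∧ t.2.2.2.2 ≤ B.d

/-- Sum of absolute values of the coefficients. -/
def absT (L : List Term) : ℕ := (L.map (fun t => t.1.natAbs)).sum

/-- The function `f` is a polynomial within the bounds whose value at the point is `v.1`. -/
def Rel (L : Lay) (f : (Fin 4 → ℝ) → ℝ) (v : KV) : Prop :=
  ∃ T : List Term, (∀ t ∈ T, InBd v.2 t) ∧ absT T ≤ v.2.n ∧ (∀ x, f x = evalT T x) ∧
    v.1 = evalT T L.pt

variable {L : Lay} {f g : (Fin 4 → ℝ) → ℝ} {p q : KV}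

lemma rel_cst (L : Lay) (z : ℤ) : Rel L (fun _ => rOps.cst z) (kOps.cst z) :=
  ⟨[(z, 0, 0, 0, 0)], by simp [InBd], by simp [absT, kOps], fun x => by simp [evalT, termVal, rOps],
    by simp [evalT, termVal, kOps]⟩

lemma rel_var (L : Lay) (i : Fin 4) : Rel L (fun x => x i) (L.var i) := by
  fin_cases i
  · exact ⟨[(1, 1, 0, 0, 0)], by simp [InBd, Lay.var], by simp [absT, Lay.var],
      fun x => by simp [evalT, termVal], by simp [evalT, termVal, Lay.var, Lay.pt]⟩
  · exact ⟨[(1, 0, 1, 0, 0)], by simp [InBd, Lay.var], by simp [absT, Lay.var],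
      fun x => by simp [evalT, termVal], by simp [evalT, termVal, Lay.var, Lay.pt]⟩
  · exact ⟨[(1, 0, 0, 1, 0)], by simp [InBd, Lay.var], by simp [absT, Lay.var],
      fun x => by simp [evalT, termVal], by simp [evalT, termVal, Lay.var, Lay.pt]⟩
  · exact ⟨[(1, 0, 0, 0, 1)], by simp [InBd, Lay.var], by simp [absT, Lay.var],
      fun x => by simp [evalT, termVal], by simp [evalT, termVal, Lay.var, Lay.pt]⟩

lemma rel_add (hp : Rel L f p) (hq : Rel L g q) :
    Rel L (fun x => rOps.add (f x) (g x)) (kOps.add p q) := by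
  obtain ⟨S, s1, s2, s3, s4⟩ := hp
  obtain ⟨T, t1, t2, t3, t4⟩ := hq
  refine ⟨S ++ T, ?_, ?_, ?_, ?_⟩
  · intro t ht
    simp only [List.mem_append] at ht
    simp only [InBd, kOps, le_max_iff]
    rcases ht with h | h
    · obtain ⟨u1, u2, u3, u4⟩ := s1 t h
      exact ⟨Or.inl u1, Or.inl u2, Or.inl u3, Or.inl u4⟩
    · obtain ⟨u1, u2, u3, u4⟩ := t1 t h
      exact ⟨Or.inr u1, Or.inr u2, Or.inr u3, Or.inr u4⟩
  · simp only [absT, List.map_append, List.sum_append, kOps] at *
    omega
  · intro x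
    simp [rOps, s3, t3, evalT]
  · simp [kOps, s4, t4, evalT]

/-- Product of two terms. -/
def tmul (s t : Term) : Term :=
  (s.1 * t.1, s.2.1 + t.2.1, s.2.2.1 + t.2.2.1, s.2.2.2.1 + t.2.2.2.1, s.2.2.2.2 + t.2.2.2.2)

/-- Product of two lists of terms. -/
def lmul (S T : List Term) : List Term := S.flatMap (fun s => T.map (tmul s))

lemma termVal_tmul {R : Type} [CommRing R] (x : Fin 4 → R) (s t : Term) :
    termVal x (tmul s t) = termVal x s * termVal x t := by
  simp only [termVal, tmul, Int.cast_mul, pow_add]; ring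

lemma evalT_lmul {R : Type} [CommRing R] (x : Fin 4 → R) (S T : List Term) :
    evalT (lmul S T) x = evalT S x * evalT T x := by
  induction S with
  | nil => simp [lmul, evalT]
  | cons s S ih =>
      simp only [lmul, evalT, List.flatMap_cons, List.map_append, List.sum_append, List.map_cons,
        List.sum_cons] at ih ⊢
      rw [ih, List.map_map, add_mul]
      congr 1
      rw [← List.sum_map_mul_left]
      exact congrArg List.sum (List.map_congr_left fun t _ => termVal_tmul x s t)

lemma absT_lmul (S T : List Term) : absT (lmul S T) = absT S * absT T := by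
  induction S with
  | nil => simp [lmul, absT]
  | cons s S ih =>
      simp only [lmul, absT, List.flatMap_cons, List.map_append, List.sum_append, List.map_cons,
        List.sum_cons] at ih ⊢
      rw [ih, List.map_map, Nat.add_mul]
      congr 1
      rw [← List.sum_map_mul_left]
      exact congrArg List.sum (List.map_congr_left fun t _ => Int.natAbs_mul s.1 t.1)

lemma rel_mul (hp : Rel L f p) (hq : Rel L g q) :
    Rel L (fun x => rOps.mul (f x) (g x)) (kOps.mul p q) := by
  obtain ⟨S, s1, s2, s3, s4⟩ := hp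
  obtain ⟨T, t1, t2, t3, t4⟩ := hq
  by_cases hz : p.2.n * q.2.n = 0
  · have hl : absT (lmul S T) = 0 :=
      Nat.eq_zero_of_le_zero (hz ▸ (absT_lmul S T).le.trans (Nat.mul_le_mul s2 t2))
    have h0 : ∀ u ∈ lmul S T, u.1 = 0 := by
      intro u hu
      simp only [absT, List.sum_eq_zero_iff] at hl
      exact Int.natAbs_eq_zero.1 (hl _ (List.mem_map_of_mem hu))
    have hev : ∀ {R : Type} [CommRing R] (x : Fin 4 → R), evalT (lmul S T) x = 0 := by
      intro R _ x
      refine List.sum_eq_zero fun z hz' => ?_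
      simp only [List.mem_map] at hz'
      obtain ⟨u, hu, rfl⟩ := hz'
      simp [termVal, h0 u hu]
    refine ⟨[], by simp, by simp [absT], ?_, ?_⟩
    · intro x
      change f x * g x = evalT [] x
      rw [s3, t3, ← evalT_lmul, hev]
      simp [evalT]
    · change p.1 * q.1 = evalT [] L.pt
      rw [s4, t4, ← evalT_lmul, hev]
      simp [evalT]
  refine ⟨lmul S T, ?_, ?_, ?_, ?_⟩
  · intro t ht
    simp only [lmul, List.mem_flatMap, List.mem_map] at ht
    obtain ⟨u, hu, v, hv, rfl⟩ := ht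
    obtain ⟨u1, u2, u3, u4⟩ := s1 u hu
    obtain ⟨v1, v2, v3, v4⟩ := t1 v hv
    simp only [InBd, tmul, kOps, if_neg hz]
    omega
  · rw [absT_lmul]; simp only [kOps, if_neg hz]; exact Nat.mul_le_mul s2 t2
  · intro x
    simp [rOps, s3, t3, evalT_lmul]
  · simp [kOps, s4, t4, evalT_lmul]

/-- Small coefficients are determined by the value at a large base. -/
lemma digits_zero (B : ℤ) : ∀ (M : ℕ) (c : ℕ → ℤ),
    (∀ i < M, 2 * |c i| < B) → ∑ i ∈ Finset.range M, c i * B ^ i = 0 → ∀ i < M, c i = 0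
  | 0, _, _, _ => by simp
  | M + 1, c, hc, h => by
      have h0 := hc 0 (by omega)
      have hB : 0 < B := lt_of_le_of_lt (by positivity) h0
      rw [Finset.sum_range_succ'] at h
      have e : ∑ i ∈ Finset.range M, c (i + 1) * B ^ (i + 1) =
          B * ∑ i ∈ Finset.range M, c (i + 1) * B ^ i := by
        rw [Finset.mul_sum]; exact Finset.sum_congr rfl fun i _ => by ring
      rw [e, pow_zero, mul_one] at h
      set S := ∑ i ∈ Finset.range M, c (i + 1) * B ^ i with hS
      have hS0 : S = 0 := by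
        by_contra hne
        have h1 : 1 ≤ |S| := abs_pos.2 hne
        have h2 : |c 0| = B * |S| := by
          rw [show c 0 = -(B * S) by linarith, abs_neg, abs_mul, abs_of_pos hB]
        nlinarith [abs_nonneg (c 0)]
      have hc0 : c 0 = 0 := by rw [hS0, mul_zero, zero_add] at h; exact h
      have ih := digits_zero B M (fun i => c (i + 1)) (fun i hi => hc (i + 1) (by omega)) hS0
      intro i hi
      cases i with
      | zero => exact hc0
      | succ i => exact ih i (by omega)

/-- The check that the layout separates all exponents. -/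
def zeroOK (L : Lay) (v : KV) : Bool :=
  decide (v.1 = 0) && decide (v.2.a < L.s1) && decide (v.2.b < L.s2) && decide (v.2.c < L.s3) &&
    decide (v.2.d < L.s4) && decide (2 * v.2.n < 2 ^ L.W)

lemma idx_inj {L : Lay} {i j k l i' j' k' l' : ℕ} (hi : i < L.s1) (hi' : i' < L.s1)
    (hj : j < L.s2) (hj' : j' < L.s2) (hk : k < L.s3) (hk' : k' < L.s3)
    (h : L.idx i j k l = L.idx i' j' k' l') : i = i' ∧ j = j' ∧ k = k' ∧ l = l' := by
  simp only [Lay.idx] at h
  have e1 : i = i' := by
    have := congrArg (· % L.s1) h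
    simpa [Nat.add_mul_mod_self_left, Nat.mod_eq_of_lt hi, Nat.mod_eq_of_lt hi'] using this
  have e1' := Nat.eq_of_mul_eq_mul_left (by omega) (by omega :
    L.s1 * (j + L.s2 * (k + L.s3 * l)) = L.s1 * (j' + L.s2 * (k' + L.s3 * l')))
  have e2 : j = j' := by
    have := congrArg (· % L.s2) e1'
    simpa [Nat.add_mul_mod_self_left, Nat.mod_eq_of_lt hj, Nat.mod_eq_of_lt hj'] using this
  have e2' := Nat.eq_of_mul_eq_mul_left (by omega) (by omega :
    L.s2 * (k + L.s3 * l) = L.s2 * (k' + L.s3 * l'))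
  have e3 : k = k' := by
    have := congrArg (· % L.s3) e2'
    simpa [Nat.add_mul_mod_self_left, Nat.mod_eq_of_lt hk, Nat.mod_eq_of_lt hk'] using this
  have e3' := Nat.eq_of_mul_eq_mul_left (by omega) (by omega : L.s3 * l = L.s3 * l')
  exact ⟨e1, e2, e3, e3'⟩

lemma idx_lt {L : Lay} {i j k l : ℕ} (hi : i < L.s1) (hj : j < L.s2) (hk : k < L.s3)
    (hl : l < L.s4) : L.idx i j k l < L.s1 * (L.s2 * (L.s3 * L.s4)) := by
  have h3 : k + L.s3 * l < L.s3 * L.s4 := by
    calc k + L.s3 * l < L.s3 * (l + 1) := by rw [Nat.mul_succ]; omega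
      _ ≤ _ := Nat.mul_le_mul_left _ hl
  have h2 : j + L.s2 * (k + L.s3 * l) < L.s2 * (L.s3 * L.s4) := by
    calc j + L.s2 * (k + L.s3 * l) < L.s2 * (k + L.s3 * l + 1) := by rw [Nat.mul_succ]; omega
      _ ≤ _ := Nat.mul_le_mul_left _ h3
  calc L.idx i j k l < L.s1 * (j + L.s2 * (k + L.s3 * l) + 1) := by
        simp only [Lay.idx, Nat.mul_succ]; omega
    _ ≤ _ := Nat.mul_le_mul_left _ h2

/-- A polynomial vanishing at a suitable Kronecker point vanishes everywhere. -/
theorem rel_zero (h : Rel L f p) (hz : zeroOK L p = true) : ∀ x, f x = 0 := by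
  classical
  obtain ⟨T, hT, hn, hf, hv⟩ := h
  simp only [zeroOK, Bool.and_eq_true, decide_eq_true_eq] at hz
  obtain ⟨⟨⟨⟨⟨h0, ha⟩, hb⟩, hc⟩, hd⟩, hW⟩ := hz
  set key : Term → ℕ := fun t => L.idx t.2.1 t.2.2.1 t.2.2.2.1 t.2.2.2.2 with hkey
  set M := L.s1 * (L.s2 * (L.s3 * L.s4))
  have hlt : ∀ t ∈ T, key t < M := by
    intro t ht
    obtain ⟨u1, u2, u3, u4⟩ := hT t ht
    exact idx_lt (by omega) (by omega) (by omega) (by omega)
  set coef : ℕ → ℤ := fun i => ((T.filter (fun t => key t = i)).map (·.1)).sum with hcoef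
  -- group a weighted sum by the index
  have group : ∀ {R : Type} [CommRing R] (w : ℕ → R) (U : List Term), (∀ t ∈ U, key t < M) →
      (U.map (fun t => (t.1 : R) * w (key t))).sum =
        ∑ i ∈ Finset.range M, (((U.filter (fun t => key t = i)).map (·.1)).sum : R) * w i := by
    intro R _ w U hU
    induction U with
    | nil => simp
    | cons t U ih =>
        simp only [List.mem_cons, forall_eq_or_imp] at hU
        rw [List.map_cons, List.sum_cons, ih hU.2]
        have : ∀ i, (((List.filter (fun t => key t = i) (t :: U)).map (·.1)).sum : R) * w i =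
            (if key t = i then (t.1 : R) * w i else 0) +
            (((U.filter (fun t => key t = i)).map (·.1)).sum : R) * w i := by
          intro i
          by_cases h : key t = i <;> simp [List.filter_cons, h, add_mul]
        simp only [this, Finset.sum_add_distrib]
        rw [Finset.sum_ite_eq, if_pos (Finset.mem_range.2 hU.1)]
  have hpt : ∀ t : Term, termVal L.pt t = (t.1 : ℤ) * (((2 ^ L.W : ℕ) : ℤ)) ^ key t := by
    intro t
    simp only [termVal, hkey, Lay.pt, Lay.idx, Matrix.cons_val_zero, Matrix.cons_val_one,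
      Matrix.cons_val, Int.cast_id, Nat.cast_pow, Nat.cast_ofNat, mul_assoc, ← pow_mul, ← pow_add]
    congr 2
    ring
  have hsum : ∑ i ∈ Finset.range M, coef i * (((2 ^ L.W : ℕ) : ℤ)) ^ i = 0 := by
    rw [← h0, hv, evalT, List.map_congr_left (fun t _ => hpt t)]
    simpa using (group (R := ℤ) (fun i => (((2 ^ L.W : ℕ) : ℤ)) ^ i) T hlt).symm
  have hsmall : ∀ i < M, 2 * |coef i| < ((2 ^ L.W : ℕ) : ℤ) := by
    intro i _
    have : ∀ U : List Term, ((U.filter (fun t => key t = i)).map (fun t : Term => t.1)).sum.natAbs ≤ absT U := by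
      intro U
      induction U with
      | nil => simp [absT]
      | cons t U ih =>
          simp only [absT, List.map_cons, List.sum_cons] at ih ⊢
          by_cases h : key t = i
          · simp only [List.filter_cons, h, decide_true, if_true, List.map_cons, List.sum_cons]
            have := Int.natAbs_add_le t.1 ((U.filter (fun t => key t = i)).map (·.1)).sum
            omega
          · simp only [List.filter_cons, h, decide_false]
            simp only [Bool.false_eq_true, if_false]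
            omega
    have h1 := this T
    simp only [hcoef] at *
    rw [Int.abs_eq_natAbs]
    push_cast at *
    have h2 : 2 * p.2.n < 2 ^ L.W := hW
    have h3 : ((2 * p.2.n : ℕ) : ℤ) < ((2 ^ L.W : ℕ) : ℤ) := by exact_mod_cast h2
    push_cast at h3
    have h4 := h1.trans hn
    have h5 : ((List.map (fun t : Term => t.1) (List.filter (fun t => decide (key t = i)) T)).sum.natAbs : ℤ) ≤ (p.2.n : ℤ) := by
      exact_mod_cast h4
    simp only [Int.natCast_natAbs] at h5 ⊢
    linarith
  have hzero := digits_zero _ M coef hsmall hsum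
  intro x
  rw [hf x, evalT]
  -- each exponent class has total coefficient zero
  let w : ℕ → ℝ := fun i =>
    if h : ∃ t ∈ T, key t = i then
      let t := h.choose
      x 0 ^ t.2.1 * x 1 ^ t.2.2.1 * x 2 ^ t.2.2.2.1 * x 3 ^ t.2.2.2.2
    else 0
  have hw : ∀ t ∈ T, termVal x t = (t.1 : ℝ) * w (key t) := by
    intro t ht
    have hex : ∃ u ∈ T, key u = key t := ⟨t, ht, rfl⟩
    obtain ⟨hu, he⟩ := hex.choose_spec
    obtain ⟨u1, u2, u3, _⟩ := hT t ht
    obtain ⟨v1, v2, v3, _⟩ := hT _ hu
    obtain ⟨e1, e2, e3, e4⟩ := idx_inj (by omega) (by omega) (by omega) (by omega) (by omega)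
      (by omega) he
    simp only [w, dif_pos hex, termVal, e1, e2, e3, e4, mul_assoc]
  rw [List.map_congr_left hw, group w T hlt]
  refine Finset.sum_eq_zero fun i hi => ?_
  have := hzero i (Finset.mem_range.1 hi)
  simp only [hcoef] at this
  have h2 : (((T.filter (fun t => key t = i)).map (fun t : Term => t.1)).sum : ℤ) = 0 := this
  have h3 := congrArg (fun z : ℤ => (z : ℝ)) h2
  simp only [Int.cast_list_sum, List.map_map, Int.cast_zero] at h3
  exact mul_eq_zero_of_left h3 _

end Vale.Agent.P154.Kron
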