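import Mathlib

/-!
P154: integer lists for Bernstein coefficients (with binomial factors absorbed) and packing.
-/

namespace Vale.Agent.P154.Lst

/-- Entrywise sum. -/
def add : List ℤ → List ℤ → List ℤ
  | a :: A, b :: B => (a + b) :: add A B
  | _, _ => []

/-- Scalar multiple. -/
def scale (c : ℤ) (A : List ℤ) : List ℤ := A.map (c * ·)

/-- Padding with zeros at the end. -/
def pad (k : ℕ) (A : List ℤ) : List ℤ := A ++ List.replicate k 0

/-- Product of two homogeneous binary forms. -/
def conv : List ℤ → List ℤ → List ℤ
  | [], _ => []
  | [a], B => scale a B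
  | a :: a' :: A, B => add (pad (A.length + 1) (scale a B)) (0 :: conv (a' :: A) B)

/-- Tensor product, flattened. -/
def outer : List ℤ → List ℤ → List ℤ
  | [], _ => []
  | a :: A, B => scale a B ++ outer A B

/-- Evaluation as a homogeneous binary form. -/
def hv {R : Type} [CommRing R] : List ℤ → R → R → R
  | [], _, _ => 0
  | a :: A, x, y => (a : R) * y ^ A.length + x * hv A x y

/-- Pairing with real weights. -/
def dot : List ℤ → List ℝ → ℝ
  | a :: A, w :: w' => (a : ℝ) * w + dot A w'
  | _, _ => 0

/-- The weights of the homogeneous basis of degree `n - 1`. -/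
def basis (x y : ℝ) : ℕ → List ℝ
  | 0 => []
  | n + 1 => y ^ n :: (basis x y n).map (x * ·)

/-- Weights of a tensor product. -/
def outerW : List ℝ → List ℝ → List ℝ
  | [], _ => []
  | a :: A, B => B.map (a * ·) ++ outerW A B

/-- Sum of absolute values. -/
def absSum : List ℤ → ℕ
  | [] => 0
  | a :: A => a.natAbs + absSum A

/-- Packing in base `2 ^ w`. -/
def pack (w : ℕ) : List ℤ → ℤ
  | [] => 0
  | a :: A => a + ((2 ^ w : ℕ) : ℤ) * pack w A

@[simp] lemma add_length (A B : List ℤ) : (add A B).length = min A.length B.length := by
  induction A generalizing B with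
  | nil => simp [add]
  | cons a A ih => cases B with
    | nil => simp [add]
    | cons b B => simp [add, ih, Nat.add_min_add_right]

@[simp] lemma scale_length (c : ℤ) (A : List ℤ) : (scale c A).length = A.length := by simp [scale]

@[simp] lemma pad_length (k : ℕ) (A : List ℤ) : (pad k A).length = A.length + k := by simp [pad]

@[simp] lemma outer_length (A B : List ℤ) : (outer A B).length = A.length * B.length := by
  induction A with
  | nil => simp [outer]
  | cons a A ih => simp [outer, ih]; ring

lemma conv_length : ∀ (A B : List ℤ), A ≠ [] → (conv A B).length = A.length + B.length - 1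
  | [], _, h => absurd rfl h
  | [a], B, _ => by simp [conv]
  | a :: a' :: A, B, _ => by
      have ih := conv_length (a' :: A) B (by simp)
      simp only [conv, add_length, pad_length, scale_length, List.length_cons] at ih ⊢
      omega

lemma hv_scale {R : Type} [CommRing R] (c : ℤ) (A : List ℤ) (x y : R) :
    hv (scale c A) x y = (c : R) * hv A x y := by
  induction A with
  | nil => simp [scale, hv]
  | cons a A ih =>
      simp only [scale, List.map_cons, hv] at ih ⊢
      rw [ih]
      simp
      ring

lemma hv_zeros {R : Type} [CommRing R] (k : ℕ) (x y : R) :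
    hv (List.replicate k 0) x y = 0 := by
  induction k with
  | zero => simp [hv]
  | succ k ih => simp [List.replicate_succ, hv, ih]

lemma hv_pad {R : Type} [CommRing R] (k : ℕ) (A : List ℤ) (x y : R) :
    hv (pad k A) x y = y ^ k * hv A x y := by
  induction A with
  | nil => simp [pad, hv, hv_zeros]
  | cons a A ih =>
      simp only [pad, List.cons_append, hv, List.length_append, List.length_replicate] at ih ⊢
      rw [ih]
      ring

lemma hv_add {R : Type} [CommRing R] (A B : List ℤ) (h : A.length = B.length) (x y : R) :
    hv (add A B) x y = hv A x y + hv B x y := by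
  induction A generalizing B with
  | nil => cases B with
    | nil => simp [add, hv]
    | cons b B => simp at h
  | cons a A ih => cases B with
    | nil => simp at h
    | cons b B =>
        simp only [List.length_cons, add_left_inj] at h
        simp only [add, hv, ih B h, add_length, h, min_self]
        push_cast
        ring

lemma hv_conv {R : Type} [CommRing R] : ∀ (A B : List ℤ), B ≠ [] → ∀ x y : R,
    hv (conv A B) x y = hv A x y * hv B x y
  | [], _, _, x, y => by simp [conv, hv]
  | [a], B, _, x, y => by simp [conv, hv, hv_scale]
  | a :: a' :: A, B, hB, x, y => by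
      have ih := hv_conv (a' :: A) B hB x y
      have hl := conv_length (a' :: A) B (by simp)
      have hBl : 0 < B.length := List.length_pos_of_ne_nil hB
      rw [conv, hv_add, hv_pad, hv_scale]
      · simp only [hv] at ih ⊢
        simp only [List.length_cons, Int.cast_zero, zero_mul, zero_add]
        rw [ih]
        ring
      · simp only [pad_length, scale_length, List.length_cons] at hl ⊢
        omega

lemma basis_length (x y : ℝ) : ∀ n, (basis x y n).length = n
  | 0 => rfl
  | n + 1 => by simp [basis, basis_length x y n]

lemma dot_map (c : ℝ) : ∀ (A : List ℤ) (w : List ℝ), dot A (w.map (c * ·)) = c * dot A w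
  | [], _ => by simp [dot]
  | _ :: _, [] => by simp [dot]
  | a :: A, v :: w => by simp [dot, dot_map c A w]; ring

lemma hv_eq_dot (A : List ℤ) (x y : ℝ) : hv A x y = dot A (basis x y A.length) := by
  induction A with
  | nil => simp [hv, dot, basis]
  | cons a A ih => simp [hv, basis, dot, dot_map, ih]

lemma basis_nonneg {x y : ℝ} (hx : 0 ≤ x) (hy : 0 ≤ y) :
    ∀ n, ∀ v ∈ basis x y n, 0 ≤ v
  | 0 => by simp [basis]
  | n + 1 => by
      intro v hv
      simp only [basis, List.mem_cons, List.mem_map] at hv
      rcases hv with rfl | ⟨u, hu, rfl⟩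
      · positivity
      · exact mul_nonneg hx (basis_nonneg hx hy n u hu)

lemma outerW_nonneg {A B : List ℝ} (hA : ∀ v ∈ A, 0 ≤ v) (hB : ∀ v ∈ B, 0 ≤ v) :
    ∀ v ∈ outerW A B, 0 ≤ v := by
  induction A with
  | nil => simp [outerW]
  | cons a A ih =>
      intro v hv
      simp only [outerW, List.mem_append, List.mem_map] at hv
      rcases hv with ⟨u, hu, rfl⟩ | hv
      · exact mul_nonneg (hA a (by simp)) (hB u hu)
      · exact ih (fun w hw => hA w (by simp [hw])) v hv

lemma dot_nonneg : ∀ (A : List ℤ) (w : List ℝ), (∀ a ∈ A, 0 ≤ a) → (∀ v ∈ w, 0 ≤ v) →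
    0 ≤ dot A w
  | [], _, _, _ => by simp [dot]
  | _ :: _, [], _, _ => by simp [dot]
  | a :: A, v :: w, hA, hw => by
      have h1 : (0 : ℝ) ≤ a := by exact_mod_cast hA a (by simp)
      have h2 := dot_nonneg A w (fun b hb => hA b (by simp [hb])) (fun b hb => hw b (by simp [hb]))
      have h3 := hw v (by simp)
      simp only [dot]
      positivity

lemma dot_append : ∀ (A B : List ℤ) (w v : List ℝ), A.length = w.length →
    dot (A ++ B) (w ++ v) = dot A w + dot B v
  | [], B, [], v, _ => by simp [dot]
  | [], _, _ :: _, _, h => by simp at h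
  | _ :: _, _, [], _, h => by simp at h
  | a :: A, B, u :: w, v, h => by
      simp only [List.length_cons, add_left_inj] at h
      simp [dot, dot_append A B w v h]; ring

lemma dot_scale (c : ℤ) : ∀ (A : List ℤ) (w : List ℝ), dot (scale c A) w = (c : ℝ) * dot A w
  | [], _ => by simp [scale, dot]
  | _ :: _, [] => by simp [scale, dot]
  | a :: A, v :: w => by
      have := dot_scale c A w
      simp only [scale, List.map_cons, dot] at this ⊢
      rw [this]; push_cast; ring

lemma dot_add : ∀ (A B : List ℤ) (w : List ℝ), A.length = B.length →
    dot (add A B) w = dot A w + dot B w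
  | [], [], _, _ => by simp [add, dot]
  | [], _ :: _, _, h => by simp at h
  | _ :: _, [], _, h => by simp at h
  | _ :: _, _ :: _, [], _ => by simp [add, dot]
  | a :: A, b :: B, v :: w, h => by
      simp only [List.length_cons, add_left_inj] at h
      simp only [add, dot, dot_add A B w h]; push_cast; ring

lemma dot_outer : ∀ (A B : List ℤ) (w v : List ℝ), A.length = w.length → B.length = v.length →
    dot (outer A B) (outerW w v) = dot A w * dot B v
  | [], _, [], _, _, _ => by simp [outer, outerW, dot]
  | [], _, _ :: _, _, h, _ => by simp at h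
  | _ :: _, _, [], _, h, _ => by simp at h
  | a :: A, B, u :: w, v, h, h' => by
      simp only [List.length_cons, add_left_inj] at h
      rw [outer, outerW, dot_append _ _ _ _ (by simp [h']), dot_outer A B w v h h', dot_scale,
        dot_map]
      simp only [dot]; ring

lemma pack_scale (w : ℕ) (c : ℤ) (A : List ℤ) : pack w (scale c A) = c * pack w A := by
  induction A with
  | nil => simp [pack, scale]
  | cons a A ih =>
      simp only [scale, List.map_cons, pack] at ih ⊢
      rw [ih]; ring

lemma pack_append (w : ℕ) (A B : List ℤ) :
    pack w (A ++ B) = pack w A + ((2 ^ (w * A.length) : ℕ) : ℤ) * pack w B := by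
  induction A with
  | nil => simp [pack]
  | cons a A ih =>
      simp only [List.cons_append, pack, ih, List.length_cons, Nat.mul_succ, pow_add]
      push_cast; ring

lemma pack_add (w : ℕ) (A B : List ℤ) (h : A.length = B.length) :
    pack w (add A B) = pack w A + pack w B := by
  induction A generalizing B with
  | nil => cases B with
    | nil => simp [add, pack]
    | cons b B => simp at h
  | cons a A ih => cases B with
    | nil => simp at h
    | cons b B =>
        simp only [List.length_cons, add_left_inj] at h
        simp only [add, pack, ih B h]; ring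

lemma pack_outer (w : ℕ) (A B : List ℤ) :
    pack w (outer A B) = pack (w * B.length) A * pack w B := by
  induction A with
  | nil => simp [outer, pack]
  | cons a A ih =>
      simp only [outer, pack_append, pack_scale, scale_length, pack, ih]; ring

lemma absSum_append (A B : List ℤ) : absSum (A ++ B) = absSum A + absSum B := by
  induction A with
  | nil => simp [absSum]
  | cons a A ih => simp [absSum, ih]; ring

lemma absSum_scale (c : ℤ) (A : List ℤ) : absSum (scale c A) = c.natAbs * absSum A := by
  induction A with
  | nil => simp [absSum, scale]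
  | cons a A ih =>
      simp only [scale, List.map_cons, absSum, Int.natAbs_mul] at ih ⊢
      rw [ih]; ring

lemma absSum_outer (A B : List ℤ) : absSum (outer A B) = absSum A * absSum B := by
  induction A with
  | nil => simp [outer, absSum]
  | cons a A ih => simp [outer, absSum, absSum_append, absSum_scale, ih]; ring

lemma absSum_add (A B : List ℤ) : absSum (add A B) ≤ absSum A + absSum B := by
  induction A generalizing B with
  | nil => simp [add, absSum]
  | cons a A ih => cases B with
    | nil => simp [add, absSum]
    | cons b B =>
        have := ih B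
        have := Int.natAbs_add_le a b
        simp only [add, absSum]; omega

lemma natAbs_le_absSum {A : List ℤ} {a : ℤ} (h : a ∈ A) : a.natAbs ≤ absSum A := by
  induction A with
  | nil => simp at h
  | cons b A ih =>
      simp only [List.mem_cons] at h
      rcases h with rfl | h
      · simp [absSum]
      · have := ih h; simp [absSum]; omega

/-- The number with one half of the base in each of `n` slots. -/
def halves (w : ℕ) : ℕ → ℕ
  | 0 => 0
  | n + 1 => 2 ^ w / 2 + 2 ^ w * halves w n

/-- Every slot of the packed number is nonnegative. -/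
def slotsOK (w n : ℕ) (m : ℤ) : Bool :=
  decide (0 ≤ m + (halves w n : ℤ)) && ((m + (halves w n : ℤ)).toNat &&& halves w n == halves w n)

lemma half_le (w : ℕ) (hw : 0 < w) : 2 ^ w / 2 + 2 ^ w / 2 = 2 ^ w := by
  obtain ⟨v, rfl⟩ : ∃ v, w = v + 1 := ⟨w - 1, by omega⟩
  rw [pow_succ]; omega

/-- If all slots are small and the check passes then all slots are nonnegative. -/
lemma slots_sound (w : ℕ) (hw : 0 < w) : ∀ (A : List ℤ), (∀ a ∈ A, a.natAbs < 2 ^ w / 2) →
    (∃ m : ℕ, (m : ℤ) = pack w A + (halves w A.length : ℤ)) ∧
    (∀ m : ℕ, (m : ℤ) = pack w A + (halves w A.length : ℤ) →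
      m &&& halves w A.length = halves w A.length → ∀ a ∈ A, 0 ≤ a)
  | [], _ => ⟨⟨0, by simp [pack, halves]⟩, by simp⟩
  | a :: A, h => by
      obtain ⟨⟨m', hm'⟩, ih⟩ := slots_sound w hw A (fun b hb => h b (by simp [hb]))
      have ha := h a (by simp)
      have hh := half_le w hw
      set H := 2 ^ w / 2 with hH
      have hlo : 0 ≤ a + (H : ℤ) ∧ a + (H : ℤ) < ((2 ^ w : ℕ) : ℤ) := by omega
      obtain ⟨u, hu⟩ : ∃ u : ℕ, (u : ℤ) = a + (H : ℤ) := ⟨(a + (H : ℤ)).toNat, by omega⟩
      have hu2 : u < 2 ^ w := by omega
      have heq : ((u + 2 ^ w * m' : ℕ) : ℤ) = pack w (a :: A) + (halves w (a :: A).length : ℤ) := by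
        simp only [pack, List.length_cons, halves]
        push_cast at hm' hu ⊢
        rw [hu, hm', hH]; push_cast; ring
      refine ⟨⟨_, heq⟩, fun m hm hand => ?_⟩
      obtain rfl : m = u + 2 ^ w * m' := by exact_mod_cast hm.trans heq.symm
      simp only [List.length_cons, halves, ← hH] at hand
      have hH2 : H < 2 ^ w := by omega
      have h1 : u &&& H = H := by
        have := congrArg (· % 2 ^ w) hand
        simp only [Nat.and_mod_two_pow, Nat.add_mul_mod_self_left, Nat.mod_eq_of_lt hu2,
          Nat.mod_eq_of_lt hH2] at this
        exact this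
      have h2 : m' &&& halves w A.length = halves w A.length := by
        have := congrArg (· / 2 ^ w) hand
        simp only [Nat.and_div_two_pow, Nat.add_mul_div_left _ _ (Nat.two_pow_pos w),
          Nat.div_eq_of_lt hu2, Nat.div_eq_of_lt hH2, Nat.zero_add] at this
        exact this
      have h3 : H ≤ u := h1 ▸ Nat.and_le_left
      intro b hb
      simp only [List.mem_cons] at hb
      rcases hb with rfl | hb
      · omega
      · exact ih m' hm' h2 b hb

/-- The form used by the checker. -/
lemma slotsOK_sound {w : ℕ} (hw : 0 < w) {A : List ℤ} (hb : 2 * absSum A < 2 ^ w)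
    (h : slotsOK w A.length (pack w A) = true) : ∀ a ∈ A, 0 ≤ a := by
  have hsmall : ∀ a ∈ A, a.natAbs < 2 ^ w / 2 := by
    intro a ha
    have := natAbs_le_absSum ha
    have := half_le w hw
    omega
  simp only [slotsOK, Bool.and_eq_true, decide_eq_true_eq, beq_iff_eq] at h
  exact (slots_sound w hw A hsmall).2 _ (Int.toNat_of_nonneg h.1) h.2

end Vale.Agent.P154.Lst
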