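import Vale.Agent.P154.MomentsDefs

/-!
P154: soundness of the recursion for the means.
-/

namespace Vale.Agent.P154.Mom

open Kron

lemma rAdd (x y : ℝ) : rOps.add x y = x + y := rfl

lemma rMul (x y : ℝ) : rOps.mul x y = x * y := rfl

lemma rCst (z : ℤ) : rOps.cst z = (z : ℝ) := rfl

lemma opPow_r (x : ℝ) : ∀ n, opPow rOps x n = x ^ n
  | 0 => by simp [opPow, rCst]
  | n + 1 => by rw [opPow, opPow_r x n, pow_succ']; rfl

/-- The environment of two scales and four invariants. -/
noncomputable def rEnv (a b ts cs tp cp : ℝ) : Env ℝ :=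
  ⟨a, a ^ 2 * ts, a ^ 3 * cs, b, b ^ 2 * tp, b ^ 3 * cp⟩

/-- Terms within weight `n`. -/
def wOK (n : ℕ) (L : List Term) : Bool :=
  L.all fun t => decide (2 * t.2.1 + 3 * t.2.2.1 ≤ n) &&
    decide (2 * t.2.2.2.1 + 3 * t.2.2.2.2 ≤ n)

lemma hev_eq (a b ts cs tp cp : ℝ) (n : ℕ) : ∀ L : List Term, wOK n L = true →
    hev rOps (rEnv a b ts cs tp cp) n L = (a * b) ^ n * evalT L ![ts, cs, tp, cp]
  | [], _ => by simp [hev, evalT, rAdd, rMul, rCst]
  | (z, i, j, k, l) :: L, h => by
      simp only [wOK, List.all_cons, Bool.and_eq_true, decide_eq_true_eq] at h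
      obtain ⟨⟨h1, h2⟩, h3⟩ := h
      obtain ⟨u, hu⟩ : ∃ u, n = 2 * i + 3 * j + u := ⟨n - (2 * i + 3 * j), by omega⟩
      obtain ⟨v, hv⟩ : ∃ v, n = 2 * k + 3 * l + v := ⟨n - (2 * k + 3 * l), by omega⟩
      rw [hev, hev_eq a b ts cs tp cp n L h3]
      simp only [opPow_r, evalT, List.map_cons, List.sum_cons, termVal, rEnv,
        show n - (2 * i + 3 * j) = u by omega, show n - (2 * k + 3 * l) = v by omega]
      simp only [rAdd, rMul, rCst, Matrix.cons_val_zero, Matrix.cons_val_one, Matrix.cons_val]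
      have ea : a ^ u * ((a ^ 2) ^ i * (a ^ 3) ^ j) = a ^ n := by
        rw [← pow_mul, ← pow_mul, ← pow_add, ← pow_add]; congr 1; omega
      have eb : b ^ v * ((b ^ 2) ^ k * (b ^ 3) ^ l) = b ^ n := by
        rw [← pow_mul, ← pow_mul, ← pow_add, ← pow_add]; congr 1; omega
      rw [mul_pow a b n, ← ea, ← eb]
      simp only [mul_pow]
      ring

/-- The alternating product of the differences. -/
noncomputable def delta (x : Fin 3 → ℝ) : ℝ := (x 0 - x 1) * (x 1 - x 2) * (x 2 - x 0)

/-- The scaled sum of the node vector. -/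
noncomputable def bigZ (a b : ℝ) (s y : Fin 3 → ℝ) : ℝ :=
  9 * (a * b) * (s 0 * y 0 + s 1 * y 1 + s 2 * y 2)

/-- The scaled pair sum of the node vector. -/
noncomputable def bigE (a b : ℝ) (s y : Fin 3 → ℝ) : ℝ :=
  81 * (a * b) ^ 2 * (s 0 * y 0 * (s 1 * y 1) + s 1 * y 1 * (s 2 * y 2) + s 2 * y 2 * (s 0 * y 0))

/-- The three cyclic relabellings. -/
def rot (y : Fin 3 → ℝ) : Fin 3 → (Fin 3 → ℝ)
  | 0 => ![y 0, y 1, y 2]
  | 1 => ![y 1, y 2, y 0]
  | 2 => ![y 2, y 0, y 1]

/-- The reflected vector. -/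
def refl (y : Fin 3 → ℝ) : Fin 3 → ℝ := ![y 0, y 2, y 1]

variable (a b : ℝ) (s y : Fin 3 → ℝ)

/-- The alternating product, scaled. -/
noncomputable def bigW : ℝ := (a * b) ^ 3 * (27 / 4 * (delta s * delta y))

/-- The invariants of the two points. -/
noncomputable def envOf : Env ℝ := rEnv a b (tI s) (cI s) (tI y) (cI y)

/-- Value of a pair. -/
noncomputable def val (x : ℝ × ℝ) : ℝ := x.1 + bigW a b s y * x.2

lemma val_pev (n : ℕ) (d : PairData) (h1 : wOK n d.1 = true) (h2 : wOK (n - 3) d.2 = true)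
    (h3 : 3 ≤ n ∨ d.2 = []) :
    val a b s y (pev rOps (envOf a b s y) n d) = (a * b) ^ n *
      (evalT d.1 ![tI s, cI s, tI y, cI y] +
        27 / 4 * (delta s * delta y) * evalT d.2 ![tI s, cI s, tI y, cI y]) := by
  rw [val, pev, envOf, hev_eq _ _ _ _ _ _ _ _ h1, hev_eq _ _ _ _ _ _ _ _ h2, bigW]
  rcases h3 with h | h
  · obtain ⟨m, rfl⟩ : ∃ m, n = m + 3 := ⟨n - 3, by omega⟩
    rw [Nat.add_sub_cancel, pow_add]; ring
  · simp [h, evalT]

variable (hs : s 0 + s 1 + s 2 = 1) (hy : y 0 + y 1 + y 2 = 1)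

include hs hy

lemma wSq_eq : wSq rOps (envOf a b s y) = bigW a b s y ^ 2 := by
  rw [wSq, envOf, hev_eq _ _ _ _ _ _ _ _ (by decide), bigW]
  simp only [evalT, termVal, tI, cI, delta, Fin.sum_univ_three, Fin.prod_univ_three,
    List.map_cons, List.map_nil, List.sum_cons, List.sum_nil, Matrix.cons_val_zero,
    Matrix.cons_val_one, Matrix.cons_val]
  rw [show s 2 = 1 - s 0 - s 1 by linarith, show y 2 = 1 - y 0 - y 1 by linarith]
  push_cast
  ring

lemma val_pmul (x x' : ℝ × ℝ) :
    val a b s y (pmul rOps (wSq rOps (envOf a b s y)) x x') = val a b s y x * val a b s y x' := by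
  rw [wSq_eq a b s y hs hy]
  simp only [val, pmul, rAdd, rMul, rCst]
  ring

omit hs hy in
lemma val_padd (x x' : ℝ × ℝ) :
    val a b s y (padd rOps x x') = val a b s y x + val a b s y x' := by
  simp only [val, padd, rAdd, rMul, rCst]; ring

omit hs hy in
lemma val_pneg (x : ℝ × ℝ) : val a b s y (pneg rOps x) = -val a b s y x := by
  simp only [val, pneg, rAdd, rMul, rCst]; push_cast; ring

omit hs hy in
/-- The mean over cyclic relabellings. -/
noncomputable def cmean (i j : ℕ) : ℝ :=
  (bigZ a b s (rot y 0) ^ i * bigE a b s (rot y 0) ^ j +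
    bigZ a b s (rot y 1) ^ i * bigE a b s (rot y 1) ^ j +
    bigZ a b s (rot y 2) ^ i * bigE a b s (rot y 2) ^ j) / 3

lemma base_eq :
    val a b s y (pev rOps (envOf a b s y) 0 mb00) = cmean a b s y 0 0 ∧
    val a b s y (pev rOps (envOf a b s y) 2 mb01) = cmean a b s y 0 1 ∧
    val a b s y (pev rOps (envOf a b s y) 4 mb02) = cmean a b s y 0 2 ∧
    val a b s y (pev rOps (envOf a b s y) 1 mb10) = cmean a b s y 1 0 ∧
    val a b s y (pev rOps (envOf a b s y) 3 mb11) = cmean a b s y 1 1 ∧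
    val a b s y (pev rOps (envOf a b s y) 5 mb12) = cmean a b s y 1 2 ∧
    val a b s y (pev rOps (envOf a b s y) 2 mb20) = cmean a b s y 2 0 ∧
    val a b s y (pev rOps (envOf a b s y) 4 mb21) = cmean a b s y 2 1 ∧
    val a b s y (pev rOps (envOf a b s y) 6 mb22) = cmean a b s y 2 2 := by
  refine ⟨?_, ?_, ?_, ?_, ?_, ?_, ?_, ?_, ?_⟩ <;>
    (rw [val_pev _ _ _ _ _ _ (by decide) (by decide) (by decide)]
     simp only [mb00, mb01, mb02, mb10, mb11, mb12, mb20, mb21, mb22, evalT, termVal, tI, cI,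
       delta, cmean, bigZ, bigE, rot, Fin.sum_univ_three, Fin.prod_univ_three, List.map_cons,
       List.map_nil, List.sum_cons, List.sum_nil, Matrix.cons_val_zero, Matrix.cons_val_one,
       Matrix.cons_val]
     rw [show s 2 = 1 - s 0 - s 1 by linarith, show y 2 = 1 - y 0 - y 1 by linarith]
     push_cast
     ring)

omit hs hy in
/-- The three elementary symmetric functions. -/
noncomputable def esym (F : Fin 3 → ℝ) : Tri ℝ :=
  (F 0 + F 1 + F 2, F 0 * F 1 + F 1 * F 2 + F 2 * F 0, F 0 * F 1 * F 2)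

lemma coef_eq :
    val a b s y (czs rOps (envOf a b s y)).1 = (esym fun k => bigZ a b s (rot y k)).1 ∧
    val a b s y (czs rOps (envOf a b s y)).2.1 = (esym fun k => bigZ a b s (rot y k)).2.1 ∧
    val a b s y (czs rOps (envOf a b s y)).2.2 = (esym fun k => bigZ a b s (rot y k)).2.2 ∧
    val a b s y (ces rOps (envOf a b s y)).1 = (esym fun k => bigE a b s (rot y k)).1 ∧
    val a b s y (ces rOps (envOf a b s y)).2.1 = (esym fun k => bigE a b s (rot y k)).2.1 ∧
    val a b s y (ces rOps (envOf a b s y)).2.2 = (esym fun k => bigE a b s (rot y k)).2.2 := by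
  refine ⟨?_, ?_, ?_, ?_, ?_, ?_⟩ <;>
    (simp only [czs, ces]
     rw [val_pev _ _ _ _ _ _ (by decide) (by decide) (by decide)]
     simp only [ez1, ez2, ez3, ee1, ee2, ee3, evalT, termVal, tI, cI, delta, esym, bigZ, bigE,
       rot, Fin.sum_univ_three, Fin.prod_univ_three, List.map_cons, List.map_nil, List.sum_cons,
       List.sum_nil, Matrix.cons_val_zero, Matrix.cons_val_one, Matrix.cons_val]
     rw [show s 2 = 1 - s 0 - s 1 by linarith, show y 2 = 1 - y 0 - y 1 by linarith]
     push_cast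
     ring)

omit hs hy in
/-- The values of three consecutive members of a sequence. -/
def IsSeq (P : ℕ → ℝ) (n : ℕ) (x : Tri (ℝ × ℝ)) : Prop :=
  val a b s y x.1 = P n ∧ val a b s y x.2.1 = P (n + 1) ∧ val a b s y x.2.2 = P (n + 2)

lemma step_seq {c x : Tri (ℝ × ℝ)} {P : ℕ → ℝ} {n : ℕ} {F : Fin 3 → ℝ}
    (hc : val a b s y c.1 = (esym F).1 ∧ val a b s y c.2.1 = (esym F).2.1 ∧
      val a b s y c.2.2 = (esym F).2.2)
    (hP : ∀ m, P (m + 3) = (esym F).1 * P (m + 2) - (esym F).2.1 * P (m + 1) + (esym F).2.2 * P m)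
    (hx : IsSeq a b s y P n x) :
    IsSeq a b s y P (n + 1) (step rOps (wSq rOps (envOf a b s y)) c x) := by
  obtain ⟨h1, h2, h3⟩ := hx
  obtain ⟨c1, c2, c3⟩ := hc
  refine ⟨h2, h3, ?_⟩
  simp only [step, val_padd, val_pneg, val_pmul a b s y hs hy, c1, c2, c3, h1, h2, h3]
  rw [show n + 1 + 2 = n + 3 by ring, hP n]
  ring

lemma iter_seq {c x : Tri (ℝ × ℝ)} {P : ℕ → ℝ} {F : Fin 3 → ℝ}
    (hc : val a b s y c.1 = (esym F).1 ∧ val a b s y c.2.1 = (esym F).2.1 ∧
      val a b s y c.2.2 = (esym F).2.2)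
    (hP : ∀ m, P (m + 3) = (esym F).1 * P (m + 2) - (esym F).2.1 * P (m + 1) + (esym F).2.2 * P m)
    (hx : IsSeq a b s y P 0 x) :
    ∀ m, IsSeq a b s y P m (iter rOps (wSq rOps (envOf a b s y)) c m x)
  | 0 => hx
  | m + 1 => step_seq a b s y hs hy hc hP (iter_seq hc hP hx m)

lemma start_seq (j : ℕ) :
    IsSeq a b s y (fun i => cmean a b s y i j) 0
      (start rOps (envOf a b s y) (wSq rOps (envOf a b s y)) (ces rOps (envOf a b s y)) j) := by
  obtain ⟨b00, b01, b02, b10, b11, b12, b20, b21, b22⟩ := base_eq a b s y hs hy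
  obtain ⟨_, _, _, e1, e2, e3⟩ := coef_eq a b s y hs hy
  have hP : ∀ i m, cmean a b s y i (m + 3) =
      (esym fun k => bigE a b s (rot y k)).1 * cmean a b s y i (m + 2) -
      (esym fun k => bigE a b s (rot y k)).2.1 * cmean a b s y i (m + 1) +
      (esym fun k => bigE a b s (rot y k)).2.2 * cmean a b s y i m := by
    intro i m; simp only [cmean, esym, pow_succ]; ring
  refine ⟨?_, ?_, ?_⟩ <;> simp only [start, zero_add]
  · exact (iter_seq a b s y hs hy (F := fun k => bigE a b s (rot y k))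
      (P := fun m => cmean a b s y 0 m) ⟨e1, e2, e3⟩ (hP 0) ⟨b00, b01, b02⟩ j).1
  · exact (iter_seq a b s y hs hy (F := fun k => bigE a b s (rot y k))
      (P := fun m => cmean a b s y 1 m) ⟨e1, e2, e3⟩ (hP 1) ⟨b10, b11, b12⟩ j).1
  · exact (iter_seq a b s y hs hy (F := fun k => bigE a b s (rot y k))
      (P := fun m => cmean a b s y 2 m) ⟨e1, e2, e3⟩ (hP 2) ⟨b20, b21, b22⟩ j).1

omit hs hy in
lemma delta_refl : delta (refl y) = -delta y := by simp [delta, refl]; ring

omit hs hy in
lemma inv_refl : tI (refl y) = tI y ∧ cI (refl y) = cI y := by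
  constructor <;> simp [tI, cI, refl, Fin.sum_univ_three, Fin.prod_univ_three] <;> ring

omit hs hy in
lemma envOf_refl : envOf a b s (refl y) = envOf a b s y := by
  rw [envOf, envOf, (inv_refl y).1, (inv_refl y).2]

omit hs hy in
/-- The mean over all relabellings. -/
noncomputable def fmean (i j : ℕ) : ℝ := (cmean a b s y i j + cmean a b s (refl y) i j) / 2

/-- The first components carry the means over all relabellings. -/
lemma iter_start (i j : ℕ) :
    (iter rOps (wSq rOps (envOf a b s y)) (czs rOps (envOf a b s y)) i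
      (start rOps (envOf a b s y) (wSq rOps (envOf a b s y)) (ces rOps (envOf a b s y)) j)).1.1 =
      fmean a b s y i j := by
  have key : ∀ z : Fin 3 → ℝ, z 0 + z 1 + z 2 = 1 →
      val a b s z (iter rOps (wSq rOps (envOf a b s z)) (czs rOps (envOf a b s z)) i
        (start rOps (envOf a b s z) (wSq rOps (envOf a b s z)) (ces rOps (envOf a b s z)) j)).1 =
        cmean a b s z i j := by
    intro z hz
    obtain ⟨z1, z2, z3, _⟩ := coef_eq a b s z hs hz
    exact (iter_seq a b s z hs hz (F := fun k => bigZ a b s (rot z k)) ⟨z1, z2, z3⟩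
      (fun m => by simp only [cmean, esym, pow_succ]; ring) (start_seq a b s z hs hz j) i).1
  have h1 := key y hy
  have h2 := key (refl y) (by simp [refl]; linarith)
  rw [envOf_refl] at h2
  have hW : bigW a b s (refl y) = -bigW a b s y := by
    simp only [bigW, delta_refl]; ring
  simp only [val, hW] at h1 h2
  rw [fmean]
  linarith

omit hs hy in
lemma horner_addRow (kd m x : ℝ) (N w : ℕ) : ∀ (gs : List ℤ) (e : ℕ) (xs : List ℝ),
    gs.length ≤ xs.length →
    horner rOps x (addRow rOps kd m N w e gs xs) =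
      horner rOps x xs + gRow rOps kd x N w e gs * m ∧
    (addRow rOps kd m N w e gs xs).length = xs.length
  | [], e, xs, _ => by cases xs <;> simp [addRow, gRow, rAdd, rMul, rCst]
  | g :: gs, e, [], h => by simp at h
  | g :: gs, e, z :: xs, h => by
      simp only [List.length_cons, Nat.add_le_add_iff_right] at h
      obtain ⟨h1, h2⟩ := horner_addRow kd m x N w gs (e + 1) xs h
      refine ⟨?_, by simp [addRow, h2]⟩
      simp only [addRow, horner, gRow, h1]
      simp only [rAdd, rMul, rCst]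
      ring

omit hs hy in
lemma rowOK_length (N em w : ℕ) : ∀ (gs : List ℤ) (e : ℕ), rowOK N em w e gs = true →
    e ≤ em + 1 → e + gs.length ≤ em + 1
  | [], e, _, h => by simpa using h
  | g :: gs, e, h, _ => by
      simp only [rowOK, Bool.and_eq_true, decide_eq_true_eq] at h
      have := rowOK_length N em w gs (e + 1) h.2 (by omega)
      simp only [List.length_cons]; omega

omit hs hy in
/-- Rows against a sequence of means. -/
noncomputable def rowsVal (kd x : ℝ) (N : ℕ) (P : ℕ → ℝ) : ℕ → ℕ → List (List ℤ) → ℝ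
  | _, _, [] => 0
  | w, i, r :: rs => gRow rOps kd x N w 0 r * P i + rowsVal kd x N P (w + 1) (i + 1) rs

omit hs hy in
lemma horner_foldA (w2 kd x : ℝ) (cz : Tri (ℝ × ℝ)) (N em : ℕ) (s0 : Tri (ℝ × ℝ)) (P : ℕ → ℝ)
    (hP : ∀ i, (iter rOps w2 cz i s0).1.1 = P i) :
    ∀ (rs : List (List ℤ)) (w i : ℕ) (acc : List ℝ), colOK N em w rs = true →
    acc.length = em + 1 →
    horner rOps x (foldA rOps w2 kd cz N w rs (iter rOps w2 cz i s0) acc) =
      horner rOps x acc + rowsVal kd x N P w i rs ∧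
    (foldA rOps w2 kd cz N w rs (iter rOps w2 cz i s0) acc).length = em + 1
  | [], w, i, acc, _, hl => by simp [foldA, rowsVal, hl]
  | r :: rs, w, i, acc, h, hl => by
      simp only [colOK, Bool.and_eq_true] at h
      have hr : r.length ≤ acc.length := by
        have := rowOK_length N em w r 0 h.1 (by omega)
        omega
      obtain ⟨a1, a2⟩ := horner_addRow kd (iter rOps w2 cz i s0).1.1 x N w r 0 acc hr
      have ih := horner_foldA w2 kd x cz N em s0 P hP rs (w + 1) (i + 1)
        (addRow rOps kd (iter rOps w2 cz i s0).1.1 N w 0 r acc) h.2 (by omega)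
      rw [a1, hP] at ih
      simp only [foldA, rowsVal, hP] at ih ⊢
      refine ⟨?_, ih.2⟩
      rw [show step rOps w2 cz (iter rOps w2 cz i s0) = iter rOps w2 cz (i + 1) s0 from rfl, ih.1]
      ring

omit hs hy in
/-- All rows against the means. -/
noncomputable def allVal (kd x : ℝ) (N : ℕ) (P : ℕ → ℕ → ℝ) : ℕ → List (List (List ℤ)) → ℝ
  | _, [] => 0
  | c, rows :: rest => rowsVal kd x N (fun i => P i c) (2 * c) 0 rows + allVal kd x N P (c + 1) rest

lemma horner_foldC (kd x : ℝ) (N em : ℕ) :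
    ∀ (G : List (List (List ℤ))) (c : ℕ) (acc : List ℝ), gOK N em c G = true →
    acc.length = em + 1 →
    horner rOps x (foldC rOps (envOf a b s y) (wSq rOps (envOf a b s y)) kd
      (czs rOps (envOf a b s y)) (ces rOps (envOf a b s y)) N c G acc) =
      horner rOps x acc + allVal kd x N (fmean a b s y) c G
  | [], c, acc, _, _ => by simp [foldC, allVal]
  | rows :: rest, c, acc, h, hl => by
      simp only [gOK, Bool.and_eq_true] at h
      obtain ⟨f1, f2⟩ := horner_foldA (wSq rOps (envOf a b s y)) kd x (czs rOps (envOf a b s y))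
        N em _ (fun i => fmean a b s y i c) (fun i => iter_start a b s y hs hy i c)
        rows (2 * c) 0 acc h.1 hl
      simp only [iter] at f1 f2
      rw [foldC, horner_foldC kd x N em rest (c + 1) _ h.2 f2, f1, allVal]
      ring

omit hs hy in
lemma rowsVal_mean (kd x : ℝ) (N : ℕ) (Z E : Fin 6 → ℝ) (c : ℕ) :
    ∀ (rs : List (List ℤ)) (w i : ℕ),
    rowsVal kd x N (fun i => (∑ k, Z k ^ i * E k ^ c) / 6) w i rs =
      (∑ k, Z k ^ i * E k ^ c * gA rOps kd (Z k) x N w rs) / 6
  | [], w, i => by simp [rowsVal, gA, rAdd, rMul, rCst]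
  | r :: rs, w, i => by
      rw [rowsVal, rowsVal_mean kd x N Z E c rs (w + 1) (i + 1), mul_div_assoc', Finset.mul_sum,
        ← add_div, ← Finset.sum_add_distrib]
      congr 1
      refine Finset.sum_congr rfl fun k _ => ?_
      simp only [gA]
      simp only [rAdd, rMul, rCst]
      ring

omit hs hy in
lemma allVal_mean (kd x : ℝ) (N : ℕ) (Z E : Fin 6 → ℝ) :
    ∀ (G : List (List (List ℤ))) (c : ℕ),
    allVal kd x N (fun i j => (∑ k, Z k ^ i * E k ^ j) / 6) c G =
      (∑ k, E k ^ c * gC rOps kd (Z k) (E k) x N c G) / 6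
  | [], c => by simp [allVal, gC, rAdd, rMul, rCst]
  | rows :: rest, c => by
      rw [allVal, rowsVal_mean, allVal_mean kd x N Z E rest (c + 1), ← add_div,
        ← Finset.sum_add_distrib]
      congr 1
      refine Finset.sum_congr rfl fun k _ => ?_
      simp only [gC]
      simp only [rAdd, rMul, rCst]
      ring

omit hs hy in
lemma gRow_scale (kd x : ℝ) (N em w : ℕ) : ∀ (gs : List ℤ) (e : ℕ), rowOK N em w e gs = true →
    kd ^ (w + 3 * e) * gRow rOps kd (kd ^ 3 * x) N w e gs = kd ^ N * gRow rOps 1 x N w e gs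
  | [], e, _ => by simp [gRow, rAdd, rMul, rCst]
  | g :: gs, e, h => by
      simp only [rowOK, Bool.and_eq_true, decide_eq_true_eq] at h
      have ih := gRow_scale kd x N em w gs (e + 1) h.2
      obtain ⟨u, hu⟩ : ∃ u, N = w + 3 * e + u := ⟨N - (w + 3 * e), by omega⟩
      simp only [gRow, opPow_r]
      simp only [rAdd, rMul, rCst, show N - (w + 3 * e) = u by omega, one_pow, mul_one]
      rw [show w + 3 * (e + 1) = w + 3 * e + 3 by ring, pow_add] at ih
      have e1 : kd ^ (w + 3 * e) * kd ^ u = kd ^ N := by rw [← pow_add]; congr 1; omega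
      linear_combination (g : ℝ) * e1 + x * ih

omit hs hy in
lemma gA_scale (kd z x : ℝ) (N em : ℕ) : ∀ (rs : List (List ℤ)) (w : ℕ), colOK N em w rs = true →
    kd ^ w * gA rOps kd (kd * z) (kd ^ 3 * x) N w rs = kd ^ N * gA rOps 1 z x N w rs
  | [], w, _ => by simp [gA, rAdd, rMul, rCst]
  | r :: rs, w, h => by
      simp only [colOK, Bool.and_eq_true] at h
      have ih := gA_scale kd z x N em rs (w + 1) h.2
      have h1 := gRow_scale kd x N em w r 0 h.1
      rw [Nat.mul_zero, Nat.add_zero] at h1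
      rw [pow_succ] at ih
      simp only [gA]
      simp only [rAdd, rMul, rCst] at *
      linear_combination h1 + z * ih

omit hs hy in
lemma gC_scale (kd z u x : ℝ) (N em : ℕ) : ∀ (G : List (List (List ℤ))) (c : ℕ),
    gOK N em c G = true →
    kd ^ (2 * c) * gC rOps kd (kd * z) (kd ^ 2 * u) (kd ^ 3 * x) N c G =
      kd ^ N * gC rOps 1 z u x N c G
  | [], c, _ => by simp [gC, rAdd, rMul, rCst]
  | rows :: rest, c, h => by
      simp only [gOK, Bool.and_eq_true] at h
      have ih := gC_scale kd z u x N em rest (c + 1) h.2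
      have h1 := gA_scale kd z x N em rows (2 * c) h.1
      rw [show 2 * (c + 1) = 2 * c + 2 by ring, pow_add] at ih
      simp only [gC]
      simp only [rAdd, rMul, rCst] at *
      linear_combination h1 + u * ih

omit hs hy in
/-- The polynomial given by the coefficients at a node vector. -/
noncomputable def gAt (N : ℕ) (G : List (List (List ℤ))) (v : Fin 3 → ℝ) : ℝ :=
  gC rOps 1 (v 0 + v 1 + v 2) (v 0 * v 1 + v 1 * v 2 + v 2 * v 0) (v 0 * v 1 * v 2) N 0 G

omit hs hy in
lemma perm_univ : (Finset.univ : Finset (Equiv.Perm (Fin 3))) =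
    {Equiv.refl (Fin 3), Equiv.addRight 1, Equiv.addRight 2, Equiv.subLeft 0, Equiv.subLeft 1,
      Equiv.subLeft 2} := by decide

/-- The computed sum is the scaled mean over relabellings. -/
theorem hsum_eq (N em : ℕ) (G : List (List (List ℤ))) (h : gOK N em 0 G = true) :
    hsum rOps (envOf a b s y) N em G = (3 * (a * b)) ^ N *
      (1 / 6 * ∑ σ : Equiv.Perm (Fin 3), gAt N G (fun i => 3 * (s i * y (σ i)))) := by
  set kd := 3 * (a * b) with hkd
  have hx : e3val rOps (envOf a b s y) =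
      kd ^ 3 * (27 * (s 0 * s 1 * s 2) * (y 0 * y 1 * y 2)) := by
    rw [e3val, envOf, hev_eq _ _ _ _ _ _ _ _ (by decide), hkd]
    simp only [evalT, termVal, tI, cI, Fin.sum_univ_three, Fin.prod_univ_three,
      List.map_cons, List.map_nil, List.sum_cons, List.sum_nil, Matrix.cons_val_zero,
      Matrix.cons_val_one, Matrix.cons_val]
    rw [show s 2 = 1 - s 0 - s 1 by linarith, show y 2 = 1 - y 0 - y 1 by linarith]
    push_cast
    ring
  have hz : horner rOps (e3val rOps (envOf a b s y)) (List.replicate (em + 1) (rOps.cst 0)) = 0 := by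
    generalize em + 1 = k
    induction k with
    | zero => simp [horner, rAdd, rMul, rCst]
    | succ k ih => rw [List.replicate_succ, horner, ih]; simp [rOps]
  have hkd' : rOps.mul (rOps.cst 3) (rOps.mul (envOf a b s y).hs (envOf a b s y).hp) = kd := by
    simp [rOps, envOf, rEnv, hkd]
  rw [hsum, hkd', horner_foldC a b s y hs hy kd _ N em G 0 _ h (by simp), hz, zero_add]
  set V : Fin 6 → (Fin 3 → ℝ) :=
    ![rot y 0, rot y 1, rot y 2, rot (refl y) 0, rot (refl y) 1, rot (refl y) 2] with hV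
  have hf : fmean a b s y =
      fun i j => (∑ k, bigZ a b s (V k) ^ i * bigE a b s (V k) ^ j) / 6 := by
    funext i j
    simp only [hV, Fin.sum_univ_six, fmean, cmean, Matrix.cons_val_zero, Matrix.cons_val_one,
      Matrix.cons_val]
    ring
  rw [hf, allVal_mean]
  have hterm : ∀ z : Fin 3 → ℝ, z 0 * z 1 * z 2 = y 0 * y 1 * y 2 →
      bigE a b s z ^ 0 * gC rOps kd (bigZ a b s z) (bigE a b s z) (e3val rOps (envOf a b s y)) N 0 G =
        kd ^ N * gAt N G (fun i => 3 * (s i * z i)) := by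
    intro z hz
    have := gC_scale kd (3 * (s 0 * z 0) + 3 * (s 1 * z 1) + 3 * (s 2 * z 2))
      (3 * (s 0 * z 0) * (3 * (s 1 * z 1)) + 3 * (s 1 * z 1) * (3 * (s 2 * z 2)) +
        3 * (s 2 * z 2) * (3 * (s 0 * z 0)))
      (3 * (s 0 * z 0) * (3 * (s 1 * z 1)) * (3 * (s 2 * z 2))) N em G 0 h
    rw [gAt, ← this, hx, pow_zero, Nat.mul_zero, pow_zero, one_mul, one_mul]
    congr 1
    · simp only [bigZ, hkd]; ring
    · simp only [bigE, hkd]; ring
    · rw [← hz]; ring
  rw [Fin.sum_univ_six]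
  rw [hterm (V 0) (by simp [hV, rot]), hterm (V 1) (by simp only [hV, rot, Matrix.cons_val_zero, Matrix.cons_val_one, Matrix.cons_val]; ring),
    hterm (V 2) (by simp only [hV, rot, Matrix.cons_val_zero, Matrix.cons_val_one, Matrix.cons_val]; ring),
    hterm (V 3) (by simp only [hV, rot, refl, Matrix.cons_val_zero, Matrix.cons_val_one, Matrix.cons_val]; ring),
    hterm (V 4) (by simp only [hV, rot, refl, Matrix.cons_val_zero, Matrix.cons_val_one, Matrix.cons_val]; ring),
    hterm (V 5) (by simp only [hV, rot, refl, Matrix.cons_val_zero, Matrix.cons_val_one, Matrix.cons_val]; ring)]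
  rw [perm_univ]
  rw [Finset.sum_insert (by decide), Finset.sum_insert (by decide), Finset.sum_insert (by decide),
    Finset.sum_insert (by decide), Finset.sum_insert (by decide), Finset.sum_singleton]
  have e : ∀ (k : Fin 6) (σ : Equiv.Perm (Fin 3)), (∀ i, V k i = y (σ i)) →
      gAt N G (fun i => 3 * (s i * V k i)) = gAt N G (fun i => 3 * (s i * y (σ i))) := by
    intro k σ hk; congr 1; funext i; rw [hk]
  rw [e 0 (Equiv.refl _) (fun i => by fin_cases i <;> rfl),
    e 1 (Equiv.addRight 1) (fun i => by fin_cases i <;> rfl),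
    e 2 (Equiv.addRight 2) (fun i => by fin_cases i <;> rfl),
    e 3 (Equiv.subLeft 0) (fun i => by fin_cases i <;> rfl),
    e 4 (Equiv.subLeft 2) (fun i => by fin_cases i <;> rfl),
    e 5 (Equiv.subLeft 1) (fun i => by fin_cases i <;> rfl)]
  ring

end Vale.Agent.P154.Mom
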