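import Vale.Agent.P154.Kron
import Vale.Agent.P154.Potential

/-!
P154: means of products of the linear and quadratic symmetric functions of a node vector over
the relabellings, as polynomials in the four invariants.
-/

namespace Vale.Agent.P154.Mom

open Kron

/-- Two lists of terms: the part without and the part with the alternating product. -/
abbrev PairData := List Term × List Term

/-- Symmetric function 1 of the three sums. -/
def ez1 : PairData := ([(9, 0, 0, 0, 0)], [])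

/-- Symmetric function 2 of the three sums. -/
def ez2 : PairData := ([(27, 0, 0, 0, 0), (-27, 1, 0, 1, 0)], [])

/-- Symmetric function 3 of the three sums. -/
def ez3 : PairData := ([(27, 0, 0, 0, 0), (54, 0, 1, 0, 1), (-81, 1, 0, 1, 0)], [(54, 0, 0, 0, 0)])

/-- Symmetric function 1 of the three pair sums. -/
def ee1 : PairData :=
  ([(9, 0, 0, 0, 0), (-9, 0, 0, 1, 0), (-9, 1, 0, 0, 0), (9, 1, 0, 1, 0)],
   [])

/-- Symmetric function 2 of the three pair sums. -/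
def ee2 : PairData :=
  ([(27, 0, 0, 0, 0), (-54, 0, 0, 1, 0), (27, 0, 0, 2, 0), (-108, 0, 1, 0, 1), (54, 0, 1, 1, 0), (54, 0, 1, 2, 0), (-54, 1, 0, 0, 0), (54, 1, 0, 0, 1), (81, 1, 0, 1, 0), (-81, 1, 0, 2, 0), (27, 2, 0, 0, 0), (54, 2, 0, 0, 1), (-81, 2, 0, 1, 0)],
   [])

/-- Symmetric function 3 of the three pair sums. -/
def ee3 : PairData :=
  ([(27, 0, 0, 0, 0), (-81, 0, 0, 1, 0), (81, 0, 0, 2, 0), (-27, 0, 0, 3, 0), (-270, 0, 1, 0, 1), (-108, 0, 1, 0, 2), (162, 0, 1, 1, 0), (486, 0, 1, 1, 1), (-162, 0, 1, 2, 0), (-108, 0, 1, 3, 0), (-108, 0, 2, 0, 1), (216, 0, 2, 0, 2), (-324, 0, 2, 1, 1), (324, 0, 2, 2, 0), (-108, 0, 2, 3, 0), (-81, 1, 0, 0, 0), (162, 1, 0, 0, 1), (162, 1, 0, 1, 0), (-162, 1, 0, 1, 1), (-243, 1, 0, 2, 0), (162, 1, 0, 3, 0), (486, 1, 1, 0, 1), (-324, 1, 1, 0, 2), (-162, 1, 1, 1, 0), (162, 1, 1, 1, 1), (-486, 1, 1, 2, 0), (324, 1, 1, 3, 0), (81, 2, 0, 0, 0), (-162, 2, 0, 0, 1), (324, 2, 0, 0,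 2), (-243, 2, 0, 1, 0), (-486, 2, 0, 1, 1), (729, 2, 0, 2, 0), (-243, 2, 0, 3, 0), (-27, 3, 0, 0, 0), (-108, 3, 0, 0, 1), (-108, 3, 0, 0, 2), (162, 3, 0, 1, 0), (324, 3, 0, 1, 1), (-243, 3, 0, 2, 0)],
   [(54, 0, 0, 0, 0), (108, 0, 0, 0, 1), (-162, 0, 0, 1, 0), (108, 0, 1, 0, 0), (216, 0, 1, 0, 1), (-324, 0, 1, 1, 0), (-162, 1, 0, 0, 0), (-324, 1, 0, 0, 1), (486, 1, 0, 1, 0)])

/-- Mean of the products with exponents 0 and 0. -/
def mb00 : PairData :=
  ([(1, 0, 0, 0, 0)],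
   [])

/-- Mean of the products with exponents 0 and 1. -/
def mb01 : PairData :=
  ([(3, 0, 0, 0, 0), (-3, 0, 0, 1, 0), (-3, 1, 0, 0, 0), (3, 1, 0, 1, 0)],
   [])

/-- Mean of the products with exponents 0 and 2. -/
def mb02 : PairData :=
  ([(9, 0, 0, 0, 0), (-18, 0, 0, 1, 0), (9, 0, 0, 2, 0), (72, 0, 1, 0, 1), (-36, 0, 1, 1, 0), (-36, 0, 1, 2, 0), (-18, 1, 0, 0, 0), (-36, 1, 0, 0, 1), (54, 1, 0, 1, 0), (9, 2, 0, 0, 0), (-36, 2, 0, 0, 1), (27, 2, 0, 2, 0)],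
   [])

/-- Mean of the products with exponents 1 and 0. -/
def mb10 : PairData :=
  ([(3, 0, 0, 0, 0)],
   [])

/-- Mean of the products with exponents 1 and 1. -/
def mb11 : PairData :=
  ([(9, 0, 0, 0, 0), (-9, 0, 0, 1, 0), (18, 0, 1, 0, 1), (-18, 0, 1, 1, 0), (-9, 1, 0, 0, 0), (-18, 1, 0, 0, 1), (27, 1, 0, 1, 0)],
   [(18, 0, 0, 0, 0)])

/-- Mean of the products with exponents 1 and 2. -/
def mb12 : PairData :=
  ([(27, 0, 0, 0, 0), (-54, 0, 0, 1, 0), (27, 0, 0, 2, 0), (378, 0, 1, 0, 1), (-216, 0, 1, 1, 0), (-54, 0, 1, 1, 1), (-108, 0, 1, 2, 0), (-54, 1, 0, 0, 0), (-216, 1, 0, 0, 1), (270, 1, 0, 1, 0), (108, 1, 0, 1, 1), (-108, 1, 0, 2, 0), (-54, 1, 1, 0, 1), (108, 1, 1, 1, 0), (162, 1, 1, 1, 1), (-216, 1, 1, 2, 0), (27, 2, 0, 0, 0), (-108, 2, 0, 0, 1), (-108, 2, 0, 1, 0), (-216, 2, 0, 1, 1), (405, 2, 0, 2, 0)],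
   [(162, 0, 0, 0, 0), (-162, 0, 0, 1, 0), (-162, 1, 0, 0, 0), (162, 1, 0, 1, 0)])

/-- Mean of the products with exponents 2 and 0. -/
def mb20 : PairData :=
  ([(9, 0, 0, 0, 0), (18, 1, 0, 1, 0)],
   [])

/-- Mean of the products with exponents 2 and 1. -/
def mb21 : PairData :=
  ([(27, 0, 0, 0, 0), (-27, 0, 0, 1, 0), (162, 0, 1, 0, 1), (-108, 0, 1, 1, 0), (-54, 0, 1, 2, 0), (-27, 1, 0, 0, 0), (-108, 1, 0, 0, 1), (189, 1, 0, 1, 0), (-54, 1, 0, 2, 0), (-54, 2, 0, 0, 1), (-54, 2, 0, 1, 0), (108, 2, 0, 2, 0)],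
   [(162, 0, 0, 0, 0)])

/-- Mean of the products with exponents 2 and 2. -/
def mb22 : PairData :=
  ([(81, 0, 0, 0, 0), (-162, 0, 0, 1, 0), (81, 0, 0, 2, 0), (1944, 0, 1, 0, 1), (-972, 0, 1, 1, 0), (-648, 0, 1, 1, 1), (-648, 0, 1, 2, 0), (324, 0, 1, 3, 0), (648, 0, 2, 0, 2), (-648, 0, 2, 1, 1), (324, 0, 2, 2, 0), (-324, 0, 2, 3, 0), (-162, 1, 0, 0, 0), (-972, 1, 0, 0, 1), (1296, 1, 0, 1, 0), (648, 1, 0, 1, 1), (-972, 1, 0, 2, 0), (162, 1, 0, 3, 0), (-648, 1, 1, 0, 1), (-648, 1, 1, 0, 2), (648, 1, 1, 1, 0), (3240, 1, 1, 1, 1), (-1944, 1, 1, 2, 0), (-648, 1, 1, 3, 0), (81, 2, 0, 0, 0), (-648, 2, 0, 0, 1), (324, 2, 0, 0, 2), (-972, 2, 0, 1, 0), (-1944, 2, 0, 1, 1), (3645, 2, 0, 2, 0), (-486, 2, 0, 3, 0), (324, 3, 0, 0, 1), (-324, 3, 0, 0, 2), (162, 3, 0, 1, 0), (-648, 3, 0, 1, 1), (-486, 3, 0, 2, 0), (972, 3, 0, 3, 0)],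
   [(1296, 0, 0, 0, 0), (-1296, 0, 0, 1, 0), (648, 0, 1, 0, 1), (-648, 0, 1, 1, 0), (-1296, 1, 0, 0, 0), (-648, 1, 0, 0, 1), (1944, 1, 0, 1, 0)])

variable {α : Type}

/-- Powers. -/
def opPow (o : Ops α) (x : α) : ℕ → α
  | 0 => o.cst 1
  | n + 1 => o.mul x (opPow o x n)

/-- The two homogenisers and the four invariants. -/
structure Env (α : Type) where
  hs : α
  ts : α
  cs : α
  hp : α
  tp : α
  cp : α

/-- A homogenised polynomial of weight `n` on both sides. -/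
def hev (o : Ops α) (e : Env α) (n : ℕ) : List Term → α
  | [] => o.cst 0
  | t :: L =>
    o.add
      (o.mul (o.cst t.1)
        (o.mul
          (o.mul (opPow o e.hs (n - (2 * t.2.1 + 3 * t.2.2.1)))
            (o.mul (opPow o e.ts t.2.1) (opPow o e.cs t.2.2.1)))
          (o.mul (opPow o e.hp (n - (2 * t.2.2.2.1 + 3 * t.2.2.2.2)))
            (o.mul (opPow o e.tp t.2.2.2.1) (opPow o e.cp t.2.2.2.2)))))
      (hev o e n L)

/-- A pair of weight `n`. -/
def pev (o : Ops α) (e : Env α) (n : ℕ) (d : PairData) : α × α :=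
  (hev o e n d.1, hev o e (n - 3) d.2)

/-- The square of the alternating product. -/
def wSq (o : Ops α) (e : Env α) : α :=
  hev o e 6 [(1, 3, 0, 3, 0), (-1, 3, 0, 0, 2), (-1, 0, 2, 3, 0), (1, 0, 2, 0, 2)]

/-- Product of pairs. -/
def pmul (o : Ops α) (w : α) (x y : α × α) : α × α :=
  (o.add (o.mul x.1 y.1) (o.mul w (o.mul x.2 y.2)), o.add (o.mul x.1 y.2) (o.mul x.2 y.1))

/-- Sum of pairs. -/
def padd (o : Ops α) (x y : α × α) : α × α := (o.add x.1 y.1, o.add x.2 y.2)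

/-- Negation of a pair. -/
def pneg (o : Ops α) (x : α × α) : α × α := (o.mul (o.cst (-1)) x.1, o.mul (o.cst (-1)) x.2)

/-- Three consecutive values. -/
abbrev Tri (β : Type) := β × β × β

/-- One step of a recursion of order three. -/
def step (o : Ops α) (w : α) (c : Tri (α × α)) (s : Tri (α × α)) : Tri (α × α) :=
  (s.2.1, s.2.2, padd o (pmul o w c.1 s.2.2)
    (padd o (pneg o (pmul o w c.2.1 s.2.1)) (pmul o w c.2.2 s.1)))

/-- Iterated steps. -/
def iter (o : Ops α) (w : α) (c : Tri (α × α)) : ℕ → Tri (α × α) → Tri (α × α)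
  | 0, s => s
  | n + 1, s => step o w c (iter o w c n s)

/-- Coefficients of the recursion in the first exponent. -/
def czs (o : Ops α) (e : Env α) : Tri (α × α) := (pev o e 1 ez1, pev o e 2 ez2, pev o e 3 ez3)

/-- Coefficients of the recursion in the second exponent. -/
def ces (o : Ops α) (e : Env α) : Tri (α × α) := (pev o e 2 ee1, pev o e 4 ee2, pev o e 6 ee3)

/-- The means with first exponent at most two. -/
def start (o : Ops α) (e : Env α) (w : α) (ce : Tri (α × α)) (c : ℕ) : Tri (α × α) :=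
  ((iter o w ce c (pev o e 0 mb00, pev o e 2 mb01, pev o e 4 mb02)).1,
    (iter o w ce c (pev o e 1 mb10, pev o e 3 mb11, pev o e 5 mb12)).1,
    (iter o w ce c (pev o e 2 mb20, pev o e 4 mb21, pev o e 6 mb22)).1)

/-- Contribution of one row of coefficients, indexed by the exponent of the third function. -/
def addRow (o : Ops α) (kd m : α) (N w : ℕ) : ℕ → List ℤ → List α → List α
  | e, g :: gs, x :: xs =>
    o.add x (o.mul (o.mul (o.cst g) (opPow o kd (N - (w + 3 * e)))) m) ::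
      addRow o kd m N w (e + 1) gs xs
  | _, _, xs => xs

/-- All rows with a fixed second exponent. -/
def foldA (o : Ops α) (w2 kd : α) (cz : Tri (α × α)) (N : ℕ) :
    ℕ → List (List ℤ) → Tri (α × α) → List α → List α
  | _, [], _, acc => acc
  | w, r :: rs, s, acc =>
    foldA o w2 kd cz N (w + 1) rs (step o w2 cz s) (addRow o kd s.1.1 N w 0 r acc)

/-- All rows. -/
def foldC (o : Ops α) (e : Env α) (w2 kd : α) (cz ce : Tri (α × α)) (N : ℕ) :
    ℕ → List (List (List ℤ)) → List α → List α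
  | _, [], acc => acc
  | c, rows :: rest, acc =>
    foldC o e w2 kd cz ce N (c + 1) rest
      (foldA o w2 kd cz N (2 * c) rows (start o e w2 ce c) acc)

/-- Horner's rule. -/
def horner (o : Ops α) (x : α) : List α → α
  | [] => o.cst 0
  | a :: L => o.add a (o.mul x (horner o x L))

/-- The third symmetric function. -/
def e3val (o : Ops α) (e : Env α) : α :=
  hev o e 3 [(1, 0, 0, 0, 0), (-3, 1, 0, 0, 0), (2, 0, 1, 0, 0), (-3, 0, 0, 1, 0), (9, 1, 0, 1, 0),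
    (-6, 0, 1, 1, 0), (2, 0, 0, 0, 1), (-6, 1, 0, 0, 1), (4, 0, 1, 0, 1)]

/-- The scaled mean over relabellings of the polynomial given by `G`. -/
def hsum (o : Ops α) (e : Env α) (N em : ℕ) (G : List (List (List ℤ))) : α :=
  horner o (e3val o e)
    (foldC o e (wSq o e) (o.mul (o.cst 3) (o.mul e.hs e.hp)) (czs o e) (ces o e) N 0 G
      (List.replicate (em + 1) (o.cst 0)))

/-- One row is within the bounds. -/
def rowOK (N em w : ℕ) : ℕ → List ℤ → Bool
  | _, [] => true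
  | e, _ :: gs => decide (e ≤ em) && decide (w + 3 * e ≤ N) && rowOK N em w (e + 1) gs

/-- Rows with a fixed second exponent are within the bounds. -/
def colOK (N em : ℕ) : ℕ → List (List ℤ) → Bool
  | _, [] => true
  | w, r :: rs => rowOK N em w 0 r && colOK N em (w + 1) rs

/-- All coefficients are within the bounds. -/
def gOK (N em : ℕ) : ℕ → List (List (List ℤ)) → Bool
  | _, [] => true
  | c, rows :: rest => colOK N em (2 * c) rows && gOK N em (c + 1) rest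

/-- A row as a polynomial in the third function. -/
def gRow (o : Ops α) (kd x : α) (N w : ℕ) : ℕ → List ℤ → α
  | _, [] => o.cst 0
  | e, g :: gs =>
    o.add (o.mul (o.cst g) (opPow o kd (N - (w + 3 * e)))) (o.mul x (gRow o kd x N w (e + 1) gs))

/-- Rows as a polynomial in the first and third functions. -/
def gA (o : Ops α) (kd z x : α) (N : ℕ) : ℕ → List (List ℤ) → α
  | _, [] => o.cst 0
  | w, r :: rs => o.add (gRow o kd x N w 0 r) (o.mul z (gA o kd z x N (w + 1) rs))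

/-- The polynomial given by the coefficients. -/
def gC (o : Ops α) (kd z y x : α) (N : ℕ) : ℕ → List (List (List ℤ)) → α
  | _, [] => o.cst 0
  | c, rows :: rest => o.add (gA o kd z x N (2 * c) rows) (o.mul y (gC o kd z y x N (c + 1) rest))

end Vale.Agent.P154.Mom
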