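import Vale.Agent.P154.Step

/-!
P154: from the one-step bound to nonreconstruction on random trees.
-/

namespace Vale.Agent.P154

open scoped BigOperators ENNReal
open Filter Topology

variable {q : ℕ}

open Classical in
/-- The probability of the observed spins given the root spin. -/
noncomputable def lik (q : ℕ) (lam : ℝ) (n : ℕ) (T : Tree n) (τ : Obs q n T) (i : Fin q) : ℝ :=
  ∑ c : Conf q n T, if rootSpin q n T c = i ∧ leaves q n T c = τ then confWeight q lam n T c else 0

lemma joint_eq (lam : ℝ) (n : ℕ) (T : Tree n) (i : Fin q) (τ : Obs q n T) :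
    joint q lam n T i τ = lik q lam n T τ i / q := by
  classical
  unfold joint lik
  rw [Finset.sum_div]
  exact Finset.sum_congr rfl fun c _ => by split_ifs <;> simp

open Classical in
lemma lik_zero (lam : ℝ) (T : Tree 0) (τ : Obs q 0 T) (i : Fin q) :
    lik q lam 0 T τ i = if τ = (i : Fin q) then 1 else 0 := by
  classical
  show (∑ c : Fin q, if c = i ∧ c = τ then (1 : ℝ) else 0) = _
  rw [Finset.sum_eq_single i]
  · by_cases h : τ = (i : Fin q)
    · rw [if_pos h, if_pos ⟨rfl, h.symm⟩]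
    · rw [if_neg h, if_neg fun h' => h h'.2.symm]
  · intro b _ hb
    rw [if_neg fun h => hb h.1]
  · simp

lemma lik_succ (lam : ℝ) (n : ℕ) (T : Tree (n + 1)) (τ : Obs q (n + 1) T) :
    lik q lam (n + 1) T τ = prodFam lam (fun a => lik q lam n (T.2 a)) τ := by
  classical
  funext i
  show (∑ c : Fin q × ((a : Fin T.1) → Conf q n (T.2 a)),
      if c.1 = i ∧ (fun a => leaves q n (T.2 a) (c.2 a)) = τ then
        ∏ a, potts q lam c.1 (rootSpin q n (T.2 a) (c.2 a)) * confWeight q lam n (T.2 a) (c.2 a)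
      else 0) = _
  rw [Fintype.sum_prod_type, Finset.sum_eq_single i]
  · have h1 : ∀ a, chanMap lam (lik q lam n (T.2 a) (τ a)) i =
        ∑ c : Conf q n (T.2 a), if leaves q n (T.2 a) c = τ a then
          potts q lam i (rootSpin q n (T.2 a) c) * confWeight q lam n (T.2 a) c else 0 := by
      intro a
      simp only [chanMap, lik, Finset.mul_sum]
      rw [Finset.sum_comm]
      refine Finset.sum_congr rfl fun c _ => ?_
      by_cases h : leaves q n (T.2 a) c = τ a <;> simp [h]
    simp only [prodFam, h1, Fintype.prod_sum, true_and]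
    refine Finset.sum_congr rfl fun f _ => ?_
    by_cases h : ∀ a, leaves q n (T.2 a) (f a) = τ a
    · rw [if_pos (funext h)]
      exact Finset.prod_congr rfl fun a _ => by rw [if_pos (h a)]
    · rw [if_neg fun h' => h fun a => congrFun h' a]
      obtain ⟨a, ha⟩ := not_forall.mp h
      exact (Finset.prod_eq_zero (Finset.mem_univ a) (by rw [if_neg ha])).symm
  · intro b _ hb
    exact Finset.sum_eq_zero fun c _ => if_neg fun h => hb h.1
  · simp

/-- Relabelling the observed spins by a permutation. -/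
def obsPerm (σ : Equiv.Perm (Fin q)) : (n : ℕ) → (T : Tree n) → Obs q n T ≃ Obs q n T
  | 0, _ => σ
  | n + 1, T => Equiv.piCongrRight fun a => obsPerm σ n (T.2 a)

lemma lik_balanced (hq : 2 ≤ q) {lam : ℝ} (h0 : -1 / ((q : ℝ) - 1) ≤ lam) (h1 : lam ≤ 1) :
    ∀ (n : ℕ) (T : Tree n), Balanced (lik q lam n T) ∧
      ∀ σ : Equiv.Perm (Fin q), ∀ τ i, lik q lam n T (obsPerm σ n T τ) (σ i) = lik q lam n T τ i := by
  haveI : NeZero q := ⟨by omega⟩
  classical
  intro n
  induction n with
  | zero =>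
      intro T
      have hp : ∀ σ : Equiv.Perm (Fin q), ∀ τ i,
          lik q lam 0 T (obsPerm σ 0 T τ) (σ i) = lik q lam 0 T τ i := by
        intro σ τ i
        rw [lik_zero, lik_zero]
        exact if_congr (σ.injective.eq_iff (a := τ) (b := i)) rfl rfl
      refine ⟨⟨fun τ i => ?_, fun i => ?_, fun σ => ⟨obsPerm σ.symm 0 T, fun τ i => ?_⟩⟩, hp⟩
      · rw [lik_zero]; split_ifs <;> norm_num
      · simp only [lik_zero]
        exact (Finset.sum_eq_single (M := ℝ) i (fun b _ hb => if_neg hb)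
          (fun h => absurd (Finset.mem_univ _) h)).trans (if_pos rfl)
      · have := hp σ.symm τ (σ i)
        simpa using this
  | succ n ih =>
      intro T
      have hb := fun a => (ih (T.2 a)).1
      have hp : ∀ σ : Equiv.Perm (Fin q), ∀ τ i,
          lik q lam (n + 1) T (obsPerm σ (n + 1) T τ) (σ i) = lik q lam (n + 1) T τ i := by
        intro σ τ i
        rw [lik_succ, lik_succ]
        simp only [prodFam]
        refine Finset.prod_congr rfl fun a _ => ?_
        rw [← chanMap_perm]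
        congr 1
        funext j
        exact (ih (T.2 a)).2 σ (τ a) j
      refine ⟨⟨fun τ i => ?_, fun i => ?_, fun σ => ⟨obsPerm σ.symm (n + 1) T, fun τ i => ?_⟩⟩, hp⟩
      · rw [lik_succ]; exact prodFam_nonneg hq h0 h1 (fun a => (hb a).nonneg) τ i
      · simp only [lik_succ]
        exact prodFam_marg hb i
      · have := hp σ.symm τ (σ i)
        simpa using this

lemma treeDist_le (hq : 2 ≤ q) {lam : ℝ} (h0 : -1 / ((q : ℝ) - 1) ≤ lam) (h1 : lam ≤ 1)
    {Φ : (Fin q → ℝ) → ℝ} {ε K : ℝ} (hK : ∀ p ∈ stdSimplex ℝ (Fin q),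
      (1 / 2) * ∑ i, |p i - 1 / q| ≤ ε + K * Φ p) (n : ℕ) (T : Tree n) :
    treeDist q lam n T ≤ ε + K * famVal Φ (lik q lam n T) := by
  haveI : NeZero q := ⟨by omega⟩
  have hb := (lik_balanced hq h0 h1 n T).1
  have hm := hb.mass
  calc treeDist q lam n T
      ≤ ∑ τ, (ε * ((∑ i, lik q lam n T τ i) / q) + K * hom Φ (lik q lam n T τ)) := by
        refine Finset.sum_le_sum fun τ _ => ?_
        simp only [joint_eq, ← Finset.sum_div]
        set w := lik q lam n T τ with hw
        have hnn : ∀ i, 0 ≤ w i := hb.nonneg τ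
        have hq0 : (0 : ℝ) < q := by exact_mod_cast (show 0 < q by omega)
        rcases (Finset.sum_nonneg fun i (_ : i ∈ Finset.univ) => hnn i).eq_or_lt with hS | hS
        · have hz : ∀ i, w i = 0 := fun i => le_antisymm
            (le_of_le_of_eq (Finset.single_le_sum (fun j _ => hnn j) (Finset.mem_univ i)) hS.symm)
            (hnn i)
          simp [hom, hz]
        · have e : ∀ i, |w i / q - (∑ j, w j) / q / q| =
              (∑ j, w j) / q * |w i / (∑ j, w j) - 1 / q| := by
            intro i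
            rw [← abs_of_nonneg (div_nonneg hS.le hq0.le), ← abs_mul]
            congr 1
            rw [abs_of_nonneg (div_nonneg hS.le hq0.le)]
            field_simp
          simp only [e, ← Finset.mul_sum]
          have h := mul_le_mul_of_nonneg_left (hK _ (mem_simplex_of_nonneg hnn hS))
            (div_nonneg hS.le hq0.le)
          simp only [hom]
          linarith
    _ = ε + K * famVal Φ (lik q lam n T) := by
        rw [Finset.sum_add_distrib, ← Finset.mul_sum, hm, mul_one, ← Finset.mul_sum]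
        rfl

lemma tsum_pi_fin_prod {α : Type} :
    ∀ (k : ℕ) (g : Fin k → α → ℝ≥0∞), ∑' f : Fin k → α, ∏ a, g a (f a) = ∏ a, ∑' x, g a x := by
  intro k
  induction k with
  | zero => intro g; simp [tsum_eq_single (default : Fin 0 → α) (fun b hb => absurd (Subsingleton.elim b _) hb)]
  | succ k ih =>
      intro g
      rw [← Equiv.tsum_eq (Fin.consEquiv fun _ : Fin (k + 1) => α)
        (fun f => ∏ a, g a (f a)), ENNReal.tsum_prod']
      simp only [Fin.consEquiv_apply, Fin.prod_univ_succ, Fin.cons_zero, Fin.cons_succ,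
        ENNReal.tsum_mul_left, ENNReal.tsum_mul_right]
      rw [ih fun a => g a.succ]

/-- The tree whose root has the children `f`. -/
def node {n k : ℕ} (f : Fin k → Tree n) : Tree (n + 1) := ⟨k, f⟩

lemma tsum_tree_succ (n : ℕ) (g : Tree (n + 1) → ℝ≥0∞) :
    ∑' T, g T = ∑' k, ∑' f : Fin k → Tree n, g (node f) :=
  ENNReal.tsum_sigma' g

lemma tsum_treeProb (ν : PMF ℕ) : ∀ n, ∑' T : Tree n, treeProb ν n T = 1 := by
  intro n
  induction n with
  | zero =>
      show ∑' _ : Unit, (1 : ℝ≥0∞) = 1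
      simp
  | succ n ih =>
      rw [tsum_tree_succ]
      show ∑' k, ∑' f : Fin k → Tree n, ν k * ∏ a, treeProb ν n (f a) = 1
      simp only [ENNReal.tsum_mul_left, tsum_pi_fin_prod _ (fun _ => treeProb ν n), ih,
        Finset.prod_const_one, mul_one]
      exact ν.tsum_coe

/-- The mean potential at depth `n`. -/
noncomputable def meanPot (q : ℕ) (lam : ℝ) (Φ : (Fin q → ℝ) → ℝ) (ν : PMF ℕ) (n : ℕ) : ℝ≥0∞ :=
  ∑' T : Tree n, treeProb ν n T * ENNReal.ofReal (famVal Φ (lik q lam n T))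

open Classical in
lemma tsum_tree_marked (ν : PMF ℕ) (n k : ℕ) (h : Tree n → ℝ≥0∞) (S : Finset (Fin k)) :
    ∑' f : Fin k → Tree n, (∏ a, treeProb ν n (f a)) * ∏ a ∈ S, h (f a) =
      (∑' T, treeProb ν n T * h T) ^ S.card := by
  classical
  have e : ∀ f : Fin k → Tree n, (∏ a, treeProb ν n (f a)) * ∏ a ∈ S, h (f a) =
      ∏ a, (if a ∈ S then treeProb ν n (f a) * h (f a) else treeProb ν n (f a)) := by
    intro f
    rw [← Fintype.prod_extend_by_one S fun a => h (f a), ← Finset.prod_mul_distrib]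
    exact Finset.prod_congr rfl fun a _ => by split_ifs <;> simp
  simp only [e]
  rw [tsum_pi_fin_prod k fun a x => if a ∈ S then treeProb ν n x * h x else treeProb ν n x]
  rw [← Finset.prod_const, ← Fintype.prod_extend_by_one S fun _ => ∑' T, treeProb ν n T * h T]
  refine Finset.prod_congr rfl fun a _ => ?_
  by_cases ha : a ∈ S <;> simp [ha, tsum_treeProb]

lemma tsum_tree_sum (ν : PMF ℕ) (n k : ℕ) (h : Tree n → ℝ≥0∞) :
    ∑' f : Fin k → Tree n, (∏ a, treeProb ν n (f a)) * ∑ a, h (f a) =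
      (k : ℝ≥0∞) * ∑' T, treeProb ν n T * h T := by
  classical
  simp only [Finset.mul_sum]
  rw [Summable.tsum_finsetSum fun _ _ => ENNReal.summable]
  have : ∀ a : Fin k, ∑' f : Fin k → Tree n, (∏ b, treeProb ν n (f b)) * h (f a) =
      ∑' T, treeProb ν n T * h T := by
    intro a
    simpa using tsum_tree_marked ν n k h {a}
  simp [this]

lemma tsum_tree_pair (ν : PMF ℕ) (n k : ℕ) (h : Tree n → ℝ≥0∞) :
    ∑' f : Fin (k + 2) → Tree n, (∏ a, treeProb ν n (f a)) *
        (h (f ⟨k, by omega⟩) * h (f ⟨k + 1, by omega⟩)) =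
      (∑' T, treeProb ν n T * h T) ^ 2 := by
  classical
  have hne : (⟨k, by omega⟩ : Fin (k + 2)) ≠ ⟨k + 1, by omega⟩ := by simp [Fin.ext_iff]
  simpa [Finset.prod_pair hne, Finset.card_pair hne] using
    tsum_tree_marked ν n (k + 2) h {⟨k, by omega⟩, ⟨k + 1, by omega⟩}

/-- The probability of at least two children. -/
noncomputable def branchProb (ν : PMF ℕ) : ℝ≥0∞ := ∑' k : ℕ, if 2 ≤ k then ν k else 0

lemma meanPot_succ_le (hq : 2 ≤ q) {lam : ℝ} (h0 : -1 / ((q : ℝ) - 1) ≤ lam) (h1 : lam ≤ 1)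
    {Φ : (Fin q → ℝ) → ℝ} (hΦ : IsPotential Φ) {c : ℝ} (hc : 0 ≤ c) {ν : PMF ℕ}
    (hstep : ∀ k, ν k ≠ 0 → StepBound q lam Φ c k) (n : ℕ) :
    meanPot q lam Φ ν (n + 1) + ENNReal.ofReal c * branchProb ν * meanPot q lam Φ ν n ^ 2 ≤
      offspringMean ν * ENNReal.ofReal (lam ^ 2) * meanPot q lam Φ ν n := by
  classical
  set X := meanPot q lam Φ ν n with hX
  have hb := fun T : Tree n => (lik_balanced hq h0 h1 n T).1
  set h := fun T : Tree n => ENNReal.ofReal (famVal Φ (lik q lam n T)) with hh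
  have hB : ∀ T : Tree n, 0 ≤ famVal Φ (lik q lam n T) :=
    fun T => famVal_nonneg hΦ (hb T).nonneg
  have hper : ∀ k, ν k * (∑' f : Fin k → Tree n, (∏ a, treeProb ν n (f a)) *
        ENNReal.ofReal (famVal Φ (lik q lam (n + 1) (node f)))) +
      ENNReal.ofReal c * (if 2 ≤ k then ν k else 0) * X ^ 2 ≤
      ((k : ℝ≥0∞) * ν k) * ENNReal.ofReal (lam ^ 2) * X := by
    intro k
    by_cases hk : ν k = 0
    · simp [hk]
    have hle : ∀ f : Fin k → Tree n, ENNReal.ofReal (famVal Φ (lik q lam (n + 1) (node f))) +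
        ENNReal.ofReal c * ENNReal.ofReal (pairTerm fun a => famVal Φ (lik q lam n (f a))) ≤
        ENNReal.ofReal (lam ^ 2) * ∑ a, h (f a) := by
      intro f
      rw [← ENNReal.ofReal_mul hc, hh, ← ENNReal.ofReal_sum_of_nonneg fun a _ => hB (f a),
        ← ENNReal.ofReal_mul (sq_nonneg lam), ← ENNReal.ofReal_add
          (famVal_nonneg hΦ (lik_balanced hq h0 h1 (n + 1) (node f)).1.nonneg)
          (mul_nonneg hc (pairTerm_nonneg _ fun a => hB (f a)))]
      refine ENNReal.ofReal_le_ofReal ?_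
      have := hstep k hk (fun a => Obs q n (f a)) (fun a => obsFintype q n (f a))
        (fun a => lik q lam n (f a)) (fun a => hb (f a))
      have e : lik q lam (n + 1) (node f) = prodFam lam (fun a => lik q lam n (f a)) :=
        funext fun τ => lik_succ lam n (node f) τ
      rw [e]
      exact this
    have hsum := ENNReal.tsum_le_tsum fun f => mul_le_mul_right (hle f) (∏ a, treeProb ν n (f a))
    simp only [mul_add, ENNReal.tsum_add, mul_left_comm _ (ENNReal.ofReal c),
      mul_left_comm _ (ENNReal.ofReal (lam ^ 2)), ENNReal.tsum_mul_left, tsum_tree_sum] at hsum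
    have hpair : (if 2 ≤ k then X ^ 2 else 0) ≤ ∑' f : Fin k → Tree n, (∏ a, treeProb ν n (f a)) *
        ENNReal.ofReal (pairTerm fun a => famVal Φ (lik q lam n (f a))) := by
      match k with
      | 0 => simp
      | 1 => simp
      | j + 2 =>
          rw [if_pos (by omega), hX, meanPot, ← tsum_tree_pair ν n j h]
          refine le_of_eq (tsum_congr fun f => ?_)
          simp only [pairTerm, ENNReal.ofReal_mul (hB _), hh]
    calc ν k * (∑' f : Fin k → Tree n, (∏ a, treeProb ν n (f a)) *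
            ENNReal.ofReal (famVal Φ (lik q lam (n + 1) (node f)))) +
          ENNReal.ofReal c * (if 2 ≤ k then ν k else 0) * X ^ 2
        = ν k * ((∑' f : Fin k → Tree n, (∏ a, treeProb ν n (f a)) *
            ENNReal.ofReal (famVal Φ (lik q lam (n + 1) (node f)))) +
            ENNReal.ofReal c * (if 2 ≤ k then X ^ 2 else 0)) := by split_ifs <;> ring
      _ ≤ ν k * (ENNReal.ofReal (lam ^ 2) * ((k : ℝ≥0∞) * X)) :=
          mul_le_mul_right (le_trans (add_le_add le_rfl (mul_le_mul_right hpair _)) hsum) _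
      _ = _ := by ring
  have hall := ENNReal.tsum_le_tsum hper
  rw [ENNReal.tsum_add] at hall
  simp only [ENNReal.tsum_mul_right, ENNReal.tsum_mul_left] at hall
  refine le_trans (le_of_eq ?_) hall
  congr 1
  rw [meanPot, tsum_tree_succ]
  refine tsum_congr fun k => ?_
  rw [← ENNReal.tsum_mul_left]
  refine tsum_congr fun f => ?_
  show (ν k * ∏ a, treeProb ν n (f a)) * _ = _
  ring

lemma tendsto_zero_of_rec {x : ℕ → ℝ≥0∞} {θ κ : ℝ≥0∞} (hθ : θ ≤ 1) (hx0 : x 0 ≠ ⊤)
    (hstrict : θ < 1 ∨ κ ≠ 0) (hrec : ∀ n, x (n + 1) + κ * x n ^ 2 ≤ θ * x n) :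
    Tendsto x atTop (𝓝 0) := by
  have hle : ∀ n, x (n + 1) ≤ θ * x n := fun n => le_trans le_self_add (hrec n)
  have hanti : Antitone x := antitone_nat_of_succ_le fun n =>
    (hle n).trans (mul_le_of_le_one_left zero_le hθ)
  set L := ⨅ n, x n with hL
  have hlim : Tendsto x atTop (𝓝 L) := tendsto_atTop_iInf hanti
  have hLn : ∀ n, L ≤ x n := fun n => iInf_le _ n
  have hLtop : L ≠ ⊤ := ne_top_of_le_ne_top hx0 (hLn 0)
  have h1 : ∀ n, L + κ * L ^ 2 ≤ θ * x n := fun n =>
    le_trans (add_le_add (hLn (n + 1)) (mul_le_mul_right (pow_le_pow_left' (hLn n) 2) κ)) (hrec n)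
  have h2 : L + κ * L ^ 2 ≤ θ * L := by
    have ht : Tendsto (fun n => θ * x n) atTop (𝓝 (θ * L)) :=
      ENNReal.Tendsto.const_mul hlim (Or.inr (ne_top_of_le_ne_top ENNReal.one_ne_top hθ))
    exact ge_of_tendsto' ht h1
  suffices L = 0 by rw [← this]; exact hlim
  by_contra hne
  rcases hstrict with hlt | hκ
  · have : θ * L < L := by
      calc θ * L < 1 * L := ENNReal.mul_lt_mul_left hne hLtop hlt
        _ = L := one_mul L
    exact absurd (le_trans le_self_add h2) (not_le.mpr this)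
  · have : L + κ * L ^ 2 ≤ L := h2.trans (mul_le_of_le_one_left zero_le hθ)
    have hlt : L < L + κ * L ^ 2 := ENNReal.lt_add_right hLtop (mul_ne_zero hκ (pow_ne_zero 2 hne))
    exact absurd this (not_le.mpr hlt)

/-- Nonreconstruction from a potential satisfying the one-step bound. -/
theorem nonReconstruction_of_step (hq : 2 ≤ q) {lam : ℝ} (h0 : -1 / ((q : ℝ) - 1) ≤ lam)
    (h1 : lam ≤ 1) {Φ : (Fin q → ℝ) → ℝ} (hΦ : IsPotential Φ) {c : ℝ} (hc : 0 ≤ c) {ν : PMF ℕ}
    (hstep : ∀ k, ν k ≠ 0 → StepBound q lam Φ c k)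
    (hle : offspringMean ν * ENNReal.ofReal (lam ^ 2) ≤ 1)
    (hstrict : offspringMean ν * ENNReal.ofReal (lam ^ 2) < 1 ∨ (0 < c ∧ ∃ k, 2 ≤ k ∧ ν k ≠ 0)) :
    NonReconstruction q lam ν := by
  classical
  haveI : NeZero q := ⟨by omega⟩
  obtain ⟨M, hM⟩ := hΦ.bounded
  have hfin : meanPot q lam Φ ν 0 ≠ ⊤ := by
    refine ne_top_of_le_ne_top ENNReal.ofReal_ne_top (b := ENNReal.ofReal M) ?_
    calc meanPot q lam Φ ν 0 ≤ ∑' T, treeProb ν 0 T * ENNReal.ofReal M :=
          ENNReal.tsum_le_tsum fun T => mul_le_mul_right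
            (ENNReal.ofReal_le_ofReal (famVal_le hM (lik_balanced hq h0 h1 0 T).1)) _
      _ = ENNReal.ofReal M := by rw [ENNReal.tsum_mul_right, tsum_treeProb, one_mul]
  have hκ : offspringMean ν * ENNReal.ofReal (lam ^ 2) < 1 ∨
      ENNReal.ofReal c * branchProb ν ≠ 0 := by
    rcases hstrict with h | ⟨hcpos, k, hk, hνk⟩
    · exact Or.inl h
    · refine Or.inr (mul_ne_zero (ENNReal.ofReal_pos.mpr hcpos).ne' ?_)
      intro hz
      have := ENNReal.tsum_eq_zero.mp hz k
      rw [if_pos hk] at this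
      exact hνk this
  have hX := tendsto_zero_of_rec hle hfin hκ fun n => meanPot_succ_le hq h0 h1 hΦ hc hstep n
  rw [NonReconstruction, ENNReal.tendsto_atTop_zero]
  intro δ hδ
  obtain ⟨ε, hε, hεδ⟩ : ∃ ε : ℝ, 0 < ε ∧ ENNReal.ofReal (2 * ε) ≤ δ := by
    rcases eq_or_ne δ ⊤ with rfl | hd
    · exact ⟨1, one_pos, le_top⟩
    · refine ⟨δ.toReal / 2, by have := ENNReal.toReal_pos hδ.ne' hd; positivity, ?_⟩
      rw [mul_div_cancel₀ _ two_ne_zero, ENNReal.ofReal_toReal hd]
  obtain ⟨K, hK0, hK⟩ := hΦ.coercive ε hε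
  have hbd : ∀ n, reconDist q lam ν n ≤
      ENNReal.ofReal ε + ENNReal.ofReal K * meanPot q lam Φ ν n := by
    intro n
    calc reconDist q lam ν n
        ≤ ∑' T, (treeProb ν n T * ENNReal.ofReal ε +
            ENNReal.ofReal K * (treeProb ν n T * ENNReal.ofReal (famVal Φ (lik q lam n T)))) := by
          refine ENNReal.tsum_le_tsum fun T => ?_
          rw [mul_left_comm (ENNReal.ofReal K), ← mul_add, ← ENNReal.ofReal_mul hK0,
            ← ENNReal.ofReal_add hε.le
              (mul_nonneg hK0 (famVal_nonneg hΦ (lik_balanced hq h0 h1 n T).1.nonneg))]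
          exact mul_le_mul_right (ENNReal.ofReal_le_ofReal (treeDist_le hq h0 h1 hK n T)) _
      _ = _ := by
          rw [ENNReal.tsum_add, ENNReal.tsum_mul_right, ENNReal.tsum_mul_left, tsum_treeProb,
            one_mul]
          rfl
  have hKX : Tendsto (fun n => ENNReal.ofReal K * meanPot q lam Φ ν n) atTop (𝓝 0) := by
    simpa using ENNReal.Tendsto.const_mul hX (Or.inr ENNReal.ofReal_ne_top)
  obtain ⟨N, hN⟩ := ENNReal.tendsto_atTop_zero.mp hKX (ENNReal.ofReal ε) (ENNReal.ofReal_pos.mpr hε)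
  refine ⟨N, fun n hn => ?_⟩
  calc reconDist q lam ν n ≤ ENNReal.ofReal ε + ENNReal.ofReal ε :=
        (hbd n).trans (add_le_add le_rfl (hN n hn))
    _ = ENNReal.ofReal (2 * ε) := by rw [← ENNReal.ofReal_add hε.le hε.le, two_mul]
    _ ≤ δ := hεδ

/-- A potential with the pairwise inequality gives nonreconstruction up to and including the
Kesten-Stigum threshold. -/
theorem nonReconstruction_of_pair (hq : 2 ≤ q) {lam : ℝ} (h0 : -1 / ((q : ℝ) - 1) ≤ lam)
    (h1 : lam ≤ 1) {Φ : (Fin q → ℝ) → ℝ} (hΦ : IsPotential Φ) {c : ℝ} (hc : 0 < c)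
    (hP : PairIneq q lam Φ c) {ν : PMF ℕ}
    (hle : offspringMean ν * ENNReal.ofReal (lam ^ 2) ≤ 1)
    (hstrict : offspringMean ν * ENNReal.ofReal (lam ^ 2) < 1 ∨ (lam ≠ 0 ∧ ∃ k, 2 ≤ k ∧ ν k ≠ 0)) :
    NonReconstruction q lam ν := by
  obtain ⟨M, hM⟩ := hΦ.bounded
  set c' := min c (1 / (max M 1)) with hc'
  have hmax : 0 < max M 1 := lt_max_of_lt_right one_pos
  have hc'0 : 0 < c' := lt_min hc (by positivity)
  have hcM : c' * max M 1 ≤ 1 := by
    have := mul_le_mul_of_nonneg_right (min_le_right c (1 / max M 1)) hmax.le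
    rwa [div_mul_cancel₀ _ hmax.ne'] at this
  have hP' : PairIneq q lam Φ c' := by
    intro s hs p hp
    have := hP s hs p hp
    nlinarith [mul_le_mul_of_nonneg_right (min_le_left c (1 / max M 1))
      (mul_nonneg (hΦ.nonneg s hs) (hΦ.nonneg p hp))]
  have hstep := stepBound_of_pair hq h0 h1 hΦ (M := max M 1)
    (fun p hp => (hM p hp).trans (le_max_left _ _)) hc'0.le hcM hP'
  refine nonReconstruction_of_step hq h0 h1 hΦ (mul_nonneg hc'0.le (sq_nonneg lam))
    (fun k _ => hstep k) hle ?_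
  rcases hstrict with h | ⟨hl, hk⟩
  · exact Or.inl h
  · exact Or.inr ⟨by positivity, hk⟩

end Vale.Agent.P154
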