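import Vale.Agent.P154.BudgetRowGen
import Vale.Agent.P154.FastBern

/-!
P154: row checks with the fast box checker; they imply the row checks.
-/

namespace Vale.Agent.P154.Bern

/-- A cover is checked through its two halves, so that the kernel can check them separately. -/
theorem coverF_split {c : Cfg} {P : Poly} {ax : ℕ} {l r : Cover} {b : Box}
    (hl : coverF c P l (b.cut ax Ax.left) = true) (hr : coverF c P r (b.cut ax Ax.right) = true) :
    coverF c P (.split ax l r) b = true := by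
  simp only [coverF, hl, hr, Bool.and_self]

end Vale.Agent.P154.Bern

namespace Vale.Agent.P154.BudgetRow

open Kron

/-- The check of one row, with the fast box checker. -/
def rowCheckF (Φ : List Term) (r : Row) : Bool :=
  decide (0 < r.a) && decide (0 < r.e) && decide (0 < r.kG) &&
    decide (r.e * r.kR * (6 ^ r.I * 2 ^ r.J) = 6 * r.a * r.kG) &&
    firstOnly r.W && firstOnly r.D && firstOnly Φ && constOK r.G &&
    Aux3.scaleOK r.I r.J (unChan (rhsT Φ r)) &&
    Aux3.scaleOK r.I r.J (unChan (Aux3.toTerms r.P)) &&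
    Bern.checkF r.cfg r.P r.cov && zeroOK r.lay (sumPoly kOps Φ r r.lay.var) &&
    Bern.shapeOK r.cfg3 r.R3 && Bern.coverF r.cfg3 r.R3 r.cov3 box3 &&
    zeroOK r.lay3 (domPoly kOps r r.lay3.var)

theorem rowCheck_of_fast {Φ : List Term} {r : Row} (h : rowCheckF Φ r = true) :
    rowCheck Φ r = true := by
  simp only [rowCheckF, Bool.and_eq_true, decide_eq_true_eq] at h
  obtain ⟨⟨⟨⟨⟨h', hb⟩, hid⟩, hs3⟩, hb3⟩, hid3⟩ := h
  simp only [rowCheck, Bool.and_eq_true, decide_eq_true_eq]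
  exact ⟨⟨⟨⟨⟨h', Bern.check_of_fast hb⟩, hid⟩, hs3⟩, Bern.coverOK_of_fast hs3 _ _ hb3⟩, hid3⟩

/-- The general row check, with the fast box checker. -/
def rowCheckGenF (na nb N : ℕ) (R : List Term) (r : Row) : Bool :=
  decide (0 < r.a) && decide (0 < r.kG) && decide (0 < nb) && decide (2 * na ≤ nb) &&
    decide (r.e * r.kR * (6 ^ r.I * 2 ^ r.J * na ^ N) = 6 * r.a * r.kG) &&
    firstOnly r.W && constOK r.G && weightOK N R && weightOK N (Aux3.toTerms r.P) &&
    Aux3.scaleOK r.I r.J (unChanGen na nb N R) &&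
    Aux3.scaleOK r.I r.J (unChanGen na nb N (Aux3.toTerms r.P)) &&
    Bern.checkF r.cfg r.P r.cov && zeroOK r.lay (sumPolyGen kOps na nb N R r r.lay.var) &&
    Bern.shapeOK r.cfg3 r.R3 && Bern.coverF r.cfg3 r.R3 r.cov3 box3 &&
    zeroOK r.lay3 (domPoly kOps r r.lay3.var)

theorem rowCheckGen_of_fast {na nb N : ℕ} {R : List Term} {r : Row}
    (h : rowCheckGenF na nb N R r = true) : rowCheckGen na nb N R r = true := by
  simp only [rowCheckGenF, Bool.and_eq_true, decide_eq_true_eq] at h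
  obtain ⟨⟨⟨⟨⟨h', hb⟩, hid⟩, hs3⟩, hb3⟩, hid3⟩ := h
  simp only [rowCheckGen, Bool.and_eq_true, decide_eq_true_eq]
  exact ⟨⟨⟨⟨⟨h', Bern.check_of_fast hb⟩, hid⟩, hs3⟩, Bern.coverOK_of_fast hs3 _ _ hb3⟩, hid3⟩

/-- The parts of the check of one row other than the two covers. -/
def rowRest (Φ : List Term) (r : Row) : Bool :=
  decide (0 < r.a) && decide (0 < r.e) && decide (0 < r.kG) &&
    decide (r.e * r.kR * (6 ^ r.I * 2 ^ r.J) = 6 * r.a * r.kG) &&
    firstOnly r.W && firstOnly r.D && firstOnly Φ && constOK r.G &&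
    Aux3.scaleOK r.I r.J (unChan (rhsT Φ r)) &&
    Aux3.scaleOK r.I r.J (unChan (Aux3.toTerms r.P)) &&
    Bern.shapeOK r.cfg r.P && zeroOK r.lay (sumPoly kOps Φ r r.lay.var) &&
    Bern.shapeOK r.cfg3 r.R3 &&
    zeroOK r.lay3 (domPoly kOps r r.lay3.var)

theorem rowCheck_of_parts {Φ : List Term} {r : Row} (h : rowRest Φ r = true)
    (hP : Bern.coverF r.cfg r.P r.cov Bern.unitBox = true)
    (h3 : Bern.coverF r.cfg3 r.R3 r.cov3 box3 = true) : rowCheck Φ r = true := by
  refine rowCheck_of_fast ?_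
  simp only [rowRest, Bool.and_eq_true, decide_eq_true_eq] at h
  simp only [rowCheckF, Bern.checkF, Bool.and_eq_true, decide_eq_true_eq]
  obtain ⟨⟨⟨⟨h', hb⟩, hid⟩, hs3⟩, hid3⟩ := h
  exact ⟨⟨⟨⟨⟨h', hb, hP⟩, hid⟩, hs3⟩, h3⟩, hid3⟩

/-- The parts of the general row check other than the two covers. -/
def rowRestGen (na nb N : ℕ) (R : List Term) (r : Row) : Bool :=
  decide (0 < r.a) && decide (0 < r.kG) && decide (0 < nb) && decide (2 * na ≤ nb) &&
    decide (r.e * r.kR * (6 ^ r.I * 2 ^ r.J * na ^ N) = 6 * r.a * r.kG) &&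
    firstOnly r.W && constOK r.G && weightOK N R && weightOK N (Aux3.toTerms r.P) &&
    Aux3.scaleOK r.I r.J (unChanGen na nb N R) &&
    Aux3.scaleOK r.I r.J (unChanGen na nb N (Aux3.toTerms r.P)) &&
    Bern.shapeOK r.cfg r.P && zeroOK r.lay (sumPolyGen kOps na nb N R r r.lay.var) &&
    Bern.shapeOK r.cfg3 r.R3 &&
    zeroOK r.lay3 (domPoly kOps r r.lay3.var)

theorem rowCheckGen_of_parts {na nb N : ℕ} {R : List Term} {r : Row}
    (h : rowRestGen na nb N R r = true)
    (hP : Bern.coverF r.cfg r.P r.cov Bern.unitBox = true)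
    (h3 : Bern.coverF r.cfg3 r.R3 r.cov3 box3 = true) : rowCheckGen na nb N R r = true := by
  refine rowCheckGen_of_fast ?_
  simp only [rowRestGen, Bool.and_eq_true, decide_eq_true_eq] at h
  simp only [rowCheckGenF, Bern.checkF, Bool.and_eq_true, decide_eq_true_eq]
  obtain ⟨⟨⟨⟨h', hb⟩, hid⟩, hs3⟩, hid3⟩ := h
  exact ⟨⟨⟨⟨⟨h', hb, hP⟩, hid⟩, hs3⟩, h3⟩, hid3⟩

end Vale.Agent.P154.BudgetRow
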