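import Vale.Agent.P154.Defs

/-!
P154: one step of the recursion, for abstract families of likelihood vectors.
A pairwise inequality for a potential gives the bound for any number of children.
-/

namespace Vale.Agent.P154

open scoped BigOperators

variable {q : ℕ}

/-- The homogeneous extension of a potential: `(∑ w / q) * Φ (w / ∑ w)`. -/
noncomputable def hom (Φ : (Fin q → ℝ) → ℝ) (w : Fin q → ℝ) : ℝ :=
  (∑ i, w i) / q * Φ (fun i => w i / ∑ j, w j)

/-- The channel acting on a likelihood vector. -/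
noncomputable def chanMap (lam : ℝ) (w : Fin q → ℝ) : Fin q → ℝ :=
  fun i => ∑ j, potts q lam i j * w j

/-- A symmetric family of likelihood vectors. -/
structure Balanced {ι : Type} [Fintype ι] (v : ι → Fin q → ℝ) : Prop where
  nonneg : ∀ τ i, 0 ≤ v τ i
  marg : ∀ i, ∑ τ, v τ i = 1
  sym : ∀ σ : Equiv.Perm (Fin q), ∃ e : ι ≃ ι, ∀ τ i, v (e τ) i = v τ (σ i)

/-- The likelihood vectors of a vertex given those of its children. -/
noncomputable def prodFam (lam : ℝ) {k : ℕ} {ι : Fin k → Type}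
    (v : (a : Fin k) → ι a → Fin q → ℝ) (τ : (a : Fin k) → ι a) : Fin q → ℝ :=
  fun i => ∏ a, chanMap lam (v a (τ a)) i

/-- The mean potential of a family. -/
noncomputable def famVal (Φ : (Fin q → ℝ) → ℝ) {ι : Type} [Fintype ι]
    (v : ι → Fin q → ℝ) : ℝ := ∑ τ, hom Φ (v τ)

/-- The product of the last two values. -/
def pairTerm : {k : ℕ} → (Fin k → ℝ) → ℝ
  | 0, _ => 0
  | 1, _ => 0
  | k + 2, B => B ⟨k, by omega⟩ * B ⟨k + 1, by omega⟩

/-- The conditions on a potential used for nonreconstruction: the inequality for a vertex with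
`k` children, with a strict gain as soon as `k ≥ 2`. -/
def StepBound (q : ℕ) (lam : ℝ) (Φ : (Fin q → ℝ) → ℝ) (c : ℝ) (k : ℕ) : Prop :=
  ∀ (ι : Fin k → Type) (_ : ∀ a, Fintype (ι a)) (v : (a : Fin k) → ι a → Fin q → ℝ),
    (∀ a, Balanced (v a)) →
      famVal Φ (prodFam lam v) + c * pairTerm (fun a => famVal Φ (v a)) ≤
        lam ^ 2 * ∑ a, famVal Φ (v a)

/-- The general properties of a potential on the simplex. -/
structure IsPotential (Φ : (Fin q → ℝ) → ℝ) : Prop where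
  nonneg : ∀ p ∈ stdSimplex ℝ (Fin q), 0 ≤ Φ p
  bounded : ∃ M : ℝ, ∀ p ∈ stdSimplex ℝ (Fin q), Φ p ≤ M
  uniform : Φ (fun _ => (1 : ℝ) / q) = 0
  coercive : ∀ ε : ℝ, 0 < ε → ∃ K : ℝ, 0 ≤ K ∧ ∀ p ∈ stdSimplex ℝ (Fin q),
    (1 / 2) * ∑ i, |p i - 1 / q| ≤ ε + K * Φ p

/-- The pairwise inequality: averaged over the permutations of the second vector, merging a
child into a vertex increases the potential by at most `lam ^ 2` times that of the child,
less a product term. -/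
def PairIneq (q : ℕ) (lam : ℝ) (Φ : (Fin q → ℝ) → ℝ) (c : ℝ) : Prop :=
  ∀ s ∈ stdSimplex ℝ (Fin q), ∀ p ∈ stdSimplex ℝ (Fin q),
    ((q : ℝ) ^ 2 / (Fintype.card (Equiv.Perm (Fin q)) : ℝ)) *
        ∑ σ : Equiv.Perm (Fin q), hom Φ (fun i => s i * chanMap lam p (σ i))
      + c * (Φ s * Φ p) ≤ Φ s + lam ^ 2 * Φ p

lemma potts_nonneg (hq : 2 ≤ q) {lam : ℝ} (h0 : -1 / ((q : ℝ) - 1) ≤ lam) (h1 : lam ≤ 1)
    (i j : Fin q) : 0 ≤ potts q lam i j := by
  have hq' : (2 : ℝ) ≤ q := by exact_mod_cast hq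
  have hb : 0 ≤ (1 - lam) / (q : ℝ) := div_nonneg (by linarith) (by linarith)
  unfold potts
  split_ifs with h
  · have h2 : -1 ≤ lam * ((q : ℝ) - 1) := by
      rw [div_le_iff₀ (by linarith)] at h0; linarith
    have h3 : lam + (1 - lam) / q = (lam * ((q : ℝ) - 1) + 1) / q := by
      field_simp
      ring
    rw [h3]
    exact div_nonneg (by linarith) (by linarith)
  · simpa using hb

lemma chanMap_eq (lam : ℝ) (w : Fin q → ℝ) (i : Fin q) :
    chanMap lam w i = lam * w i + (1 - lam) / q * ∑ j, w j := by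
  simp only [chanMap, potts, add_mul, Finset.sum_add_distrib, ite_mul, zero_mul,
    Finset.sum_ite_eq, Finset.mem_univ, if_true, ← Finset.mul_sum]

lemma sum_chanMap [NeZero q] (lam : ℝ) (w : Fin q → ℝ) :
    ∑ i, chanMap lam w i = ∑ i, w i := by
  have hq : (q : ℝ) ≠ 0 := Nat.cast_ne_zero.mpr (NeZero.ne q)
  simp only [chanMap_eq, Finset.sum_add_distrib, Finset.sum_const, Finset.card_univ,
    Fintype.card_fin, nsmul_eq_mul, ← Finset.mul_sum]
  field_simp
  ring

lemma chanMap_nonneg (hq : 2 ≤ q) {lam : ℝ} (h0 : -1 / ((q : ℝ) - 1) ≤ lam) (h1 : lam ≤ 1)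
    {w : Fin q → ℝ} (hw : ∀ i, 0 ≤ w i) (i : Fin q) : 0 ≤ chanMap lam w i :=
  Finset.sum_nonneg fun j _ => mul_nonneg (potts_nonneg hq h0 h1 i j) (hw j)

lemma chanMap_perm (lam : ℝ) (w : Fin q → ℝ) (σ : Equiv.Perm (Fin q)) (i : Fin q) :
    chanMap lam (fun j => w (σ j)) i = chanMap lam w (σ i) := by
  simp only [chanMap_eq, Equiv.sum_comp σ w]

lemma chanMap_smul (lam r : ℝ) (w : Fin q → ℝ) (i : Fin q) :
    chanMap lam (fun j => r * w j) i = r * chanMap lam w i := by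
  simp only [chanMap_eq, ← Finset.mul_sum]
  ring

lemma hom_smul {Φ : (Fin q → ℝ) → ℝ} (r : ℝ) (w : Fin q → ℝ) :
    hom Φ (fun i => r * w i) = r * hom Φ w := by
  unfold hom
  rcases eq_or_ne r 0 with h | h
  · simp [h]
  · have : (fun i => r * w i / ∑ j, r * w j) = fun i => w i / ∑ j, w j := by
      funext i
      rw [← Finset.mul_sum, mul_div_mul_left _ _ h]
    rw [this, ← Finset.mul_sum]
    ring

lemma mem_simplex_of_nonneg {w : Fin q → ℝ} (hw : ∀ i, 0 ≤ w i) (hs : 0 < ∑ i, w i) :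
    (fun i => w i / ∑ j, w j) ∈ stdSimplex ℝ (Fin q) :=
  ⟨fun i => div_nonneg (hw i) hs.le, by rw [← Finset.sum_div, div_self hs.ne']⟩

lemma hom_nonneg {Φ : (Fin q → ℝ) → ℝ} (hΦ : IsPotential Φ) {w : Fin q → ℝ}
    (hw : ∀ i, 0 ≤ w i) : 0 ≤ hom Φ w := by
  rcases (Finset.sum_nonneg fun i (_ : i ∈ Finset.univ) => hw i).eq_or_lt with h | h
  · simp [hom, ← h]
  · exact mul_nonneg (div_nonneg h.le (Nat.cast_nonneg q))
      (hΦ.nonneg _ (mem_simplex_of_nonneg hw h))

lemma Balanced.mass [NeZero q] {ι : Type} [Fintype ι] {v : ι → Fin q → ℝ} (hv : Balanced v) :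
    ∑ τ, (∑ i, v τ i) / (q : ℝ) = 1 := by
  have hq : (q : ℝ) ≠ 0 := Nat.cast_ne_zero.mpr (NeZero.ne q)
  rw [← Finset.sum_div, Finset.sum_comm]
  simp [hv.marg, hq]

lemma famVal_nonneg {Φ : (Fin q → ℝ) → ℝ} (hΦ : IsPotential Φ) {ι : Type} [Fintype ι]
    {v : ι → Fin q → ℝ} (hv : ∀ τ i, 0 ≤ v τ i) : 0 ≤ famVal Φ v :=
  Finset.sum_nonneg fun τ _ => hom_nonneg hΦ (hv τ)

lemma hom_le {Φ : (Fin q → ℝ) → ℝ} {M : ℝ} (hM : ∀ p ∈ stdSimplex ℝ (Fin q), Φ p ≤ M)
    {w : Fin q → ℝ} (hw : ∀ i, 0 ≤ w i) : hom Φ w ≤ (∑ i, w i) / q * M := by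
  rcases (Finset.sum_nonneg fun i (_ : i ∈ Finset.univ) => hw i).eq_or_lt with h | h
  · simp [hom, ← h]
  · exact mul_le_mul_of_nonneg_left (hM _ (mem_simplex_of_nonneg hw h))
      (div_nonneg h.le (Nat.cast_nonneg q))

lemma famVal_le [NeZero q] {Φ : (Fin q → ℝ) → ℝ} {M : ℝ}
    (hM : ∀ p ∈ stdSimplex ℝ (Fin q), Φ p ≤ M) {ι : Type} [Fintype ι]
    {v : ι → Fin q → ℝ} (hv : Balanced v) : famVal Φ v ≤ M := by
  calc famVal Φ v ≤ ∑ τ, (∑ i, v τ i) / q * M :=
        Finset.sum_le_sum fun τ _ => hom_le hM (hv.nonneg τ)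
    _ = M := by rw [← Finset.sum_mul, hv.mass, one_mul]

lemma pairTerm_nonneg : ∀ {k : ℕ} (B : Fin k → ℝ), (∀ a, 0 ≤ B a) → 0 ≤ pairTerm B
  | 0, _, _ => le_rfl
  | 1, _, _ => le_rfl
  | k + 2, B, h => mul_nonneg (h _) (h _)

/-- Scaled form of the pairwise inequality. -/
lemma pair_scaled [NeZero q] (hq : 2 ≤ q) {lam : ℝ}
    {Φ : (Fin q → ℝ) → ℝ} {c : ℝ} (hP : PairIneq q lam Φ c)
    {s p : Fin q → ℝ} (hs : ∀ i, 0 ≤ s i) (hp : ∀ i, 0 ≤ p i) :
    (∑ σ : Equiv.Perm (Fin q), hom Φ (fun i => s i * chanMap lam p (σ i))) /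
        (Fintype.card (Equiv.Perm (Fin q)) : ℝ) + c * (hom Φ s * hom Φ p) ≤
      (∑ i, p i) / q * hom Φ s + lam ^ 2 * ((∑ i, s i) / q * hom Φ p) := by
  have hq' : (q : ℝ) ≠ 0 := by positivity
  rcases (Finset.sum_nonneg fun i (_ : i ∈ Finset.univ) => hs i).eq_or_lt with hS | hS
  · have h0 : ∀ i, s i = 0 := fun i =>
      le_antisymm (le_of_le_of_eq (Finset.single_le_sum (fun j _ => hs j) (Finset.mem_univ i))
        hS.symm) (hs i)
    simp [hom, h0]
  rcases (Finset.sum_nonneg fun i (_ : i ∈ Finset.univ) => hp i).eq_or_lt with hP0 | hP0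
  · have h0 : ∀ i, p i = 0 := fun i =>
      le_antisymm (le_of_le_of_eq (Finset.single_le_sum (fun j _ => hp j) (Finset.mem_univ i))
        hP0.symm) (hp i)
    simp [hom, h0, chanMap_eq]
  set S := ∑ i, s i with hSdef
  set P := ∑ i, p i with hPdef
  have h := hP _ (mem_simplex_of_nonneg hs hS) _ (mem_simplex_of_nonneg hp hP0)
  rw [← hSdef, ← hPdef] at h
  have e1 : ∀ σ : Equiv.Perm (Fin q),
      hom Φ (fun i => s i / S * chanMap lam (fun j => p j / P) (σ i)) =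
        (1 / (S * P)) * hom Φ (fun i => s i * chanMap lam p (σ i)) := by
    intro σ
    rw [← hom_smul]
    congr 1
    funext i
    have : chanMap lam (fun j => p j / P) (σ i) = 1 / P * chanMap lam p (σ i) := by
      rw [← chanMap_smul]
      congr 1
      funext j
      ring
    rw [this]
    field_simp
  simp only [e1, ← Finset.mul_sum] at h
  have es : Φ (fun i => s i / S) = hom Φ s * q / S := by
    rw [hom, ← hSdef]; field_simp
  have ep : Φ (fun i => p i / P) = hom Φ p * q / P := by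
    rw [hom, ← hPdef]; field_simp
  rw [es, ep] at h
  have hfac : (0 : ℝ) ≤ S * P / (q : ℝ) ^ 2 := by positivity
  have := mul_le_mul_of_nonneg_left h hfac
  field_simp at this ⊢
  linarith

/-- Merging one balanced child into a family of mass one. -/
lemma merge_le [NeZero q] (hq : 2 ≤ q) {lam : ℝ} {Φ : (Fin q → ℝ) → ℝ} {c : ℝ}
    (hP : PairIneq q lam Φ c) {κ ι : Type} [Fintype κ] [Fintype ι]
    {s : κ → Fin q → ℝ} {v : ι → Fin q → ℝ} (hs : ∀ τ i, 0 ≤ s τ i)
    (hmass : ∑ τ, (∑ i, s τ i) / (q : ℝ) = 1) (hv : Balanced v) :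
    (∑ a, ∑ τ, hom Φ (fun i => s a i * chanMap lam (v τ) i)) + c * (famVal Φ s * famVal Φ v) ≤
      famVal Φ s + lam ^ 2 * famVal Φ v := by
  have hN : (Fintype.card (Equiv.Perm (Fin q)) : ℝ) ≠ 0 :=
    Nat.cast_ne_zero.mpr Fintype.card_ne_zero
  have key : ∀ a, ∑ τ, hom Φ (fun i => s a i * chanMap lam (v τ) i) =
      ∑ τ, (∑ σ : Equiv.Perm (Fin q), hom Φ (fun i => s a i * chanMap lam (v τ) (σ i))) /
        (Fintype.card (Equiv.Perm (Fin q)) : ℝ) := by
    intro a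
    rw [← Finset.sum_div, Finset.sum_comm]
    have : ∀ σ : Equiv.Perm (Fin q),
        ∑ τ, hom Φ (fun i => s a i * chanMap lam (v τ) (σ i)) =
          ∑ τ, hom Φ (fun i => s a i * chanMap lam (v τ) i) := by
      intro σ
      obtain ⟨e, he⟩ := hv.sym σ
      rw [← Equiv.sum_comp e (fun τ => hom Φ (fun i => s a i * chanMap lam (v τ) i))]
      refine Finset.sum_congr rfl fun τ _ => ?_
      congr 1
      funext i
      rw [← chanMap_perm, show v (e τ) = fun j => v τ (σ j) from funext (he τ)]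
    simp only [this, Finset.sum_const, Finset.card_univ, nsmul_eq_mul]
    field_simp
  have hsum := Finset.sum_le_sum fun a (_ : a ∈ Finset.univ) =>
    Finset.sum_le_sum fun τ (_ : τ ∈ Finset.univ) => pair_scaled hq hP (hs a) (hv.nonneg τ)
  simp only [Finset.sum_add_distrib, ← Finset.sum_mul, ← Finset.mul_sum] at hsum
  rw [hv.mass, one_mul, hmass, one_mul] at hsum
  simp only [key]
  simpa [famVal] using hsum

lemma prodFam_nonneg (hq : 2 ≤ q) {lam : ℝ} (h0 : -1 / ((q : ℝ) - 1) ≤ lam) (h1 : lam ≤ 1)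
    {k : ℕ} {ι : Fin k → Type} {v : (a : Fin k) → ι a → Fin q → ℝ}
    (hv : ∀ a τ i, 0 ≤ v a τ i) (τ : (a : Fin k) → ι a) (i : Fin q) :
    0 ≤ prodFam lam v τ i :=
  Finset.prod_nonneg fun a _ => chanMap_nonneg hq h0 h1 (hv a (τ a)) i

lemma prodFam_marg [NeZero q] {lam : ℝ} {k : ℕ} {ι : Fin k → Type} [∀ a, Fintype (ι a)]
    {v : (a : Fin k) → ι a → Fin q → ℝ} (hv : ∀ a, Balanced (v a)) (i : Fin q) :
    ∑ τ, prodFam lam v τ i = 1 := by
  classical
  unfold prodFam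
  rw [← Fintype.prod_sum fun a τ => chanMap lam (v a τ) i]
  refine Finset.prod_eq_one fun a _ => ?_
  have hq : (q : ℝ) ≠ 0 := Nat.cast_ne_zero.mpr (NeZero.ne q)
  simp only [chanMap, Finset.sum_comm (γ := ι a), ← Finset.mul_sum, (hv a).marg, mul_one]
  simp only [potts, Finset.sum_add_distrib, Finset.sum_ite_eq, Finset.mem_univ, if_true,
    Finset.sum_const, Finset.card_univ, Fintype.card_fin, nsmul_eq_mul]
  field_simp
  ring

lemma prodFam_mass [NeZero q] {lam : ℝ} {k : ℕ} {ι : Fin k → Type} [∀ a, Fintype (ι a)]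
    {v : (a : Fin k) → ι a → Fin q → ℝ} (hv : ∀ a, Balanced (v a)) :
    ∑ τ, (∑ i, prodFam lam v τ i) / (q : ℝ) = 1 := by
  have hq : (q : ℝ) ≠ 0 := Nat.cast_ne_zero.mpr (NeZero.ne q)
  rw [← Finset.sum_div, Finset.sum_comm]
  simp [prodFam_marg hv, hq]

/-- Splitting off the first child. -/
lemma famVal_prodFam_succ (Φ : (Fin q → ℝ) → ℝ) (lam : ℝ) {k : ℕ} {ι : Fin (k + 1) → Type}
    [∀ a, Fintype (ι a)] (v : (a : Fin (k + 1)) → ι a → Fin q → ℝ) :
    famVal Φ (prodFam lam v) =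
      ∑ r, ∑ τ, hom Φ (fun i => prodFam lam (fun a : Fin k => v a.succ) r i *
        chanMap lam (v 0 τ) i) := by
  classical
  rw [famVal, ← Equiv.sum_comp (Fin.consEquiv ι) (fun τ => hom Φ (prodFam lam v τ)),
    Fintype.sum_prod_type, Finset.sum_comm]
  refine Finset.sum_congr rfl fun r _ => Finset.sum_congr rfl fun τ _ => ?_
  congr 1
  funext i
  simp [prodFam, Fin.prod_univ_succ, mul_comm]

lemma pairTerm_succ {k : ℕ} (B : Fin (k + 3) → ℝ) :
    pairTerm B = pairTerm (fun a : Fin (k + 2) => B a.succ) := rfl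

/-- The pairwise inequality gives the bound for every number of children. -/
theorem stepBound_of_pair (hq : 2 ≤ q) {lam : ℝ}
    (h0 : -1 / ((q : ℝ) - 1) ≤ lam) (h1 : lam ≤ 1)
    {Φ : (Fin q → ℝ) → ℝ} (hΦ : IsPotential Φ) {M : ℝ}
    (hM : ∀ p ∈ stdSimplex ℝ (Fin q), Φ p ≤ M) {c : ℝ} (hc : 0 ≤ c) (hcM : c * M ≤ 1)
    (hP : PairIneq q lam Φ c) : ∀ k, StepBound q lam Φ (c * lam ^ 2) k := by
  haveI : NeZero q := ⟨by omega⟩
  intro k
  induction k with
  | zero =>
      intro ι inst v _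
      have hu : (fun i : Fin q => (1 : ℝ) / ∑ _j : Fin q, (1 : ℝ)) = fun _ => (1 : ℝ) / q := by
        simp
      have hu2 : Φ (fun _ => (q : ℝ)⁻¹) = 0 := by simpa using hΦ.uniform
      simp [famVal, prodFam, hom, pairTerm, hu2]
  | succ k ih =>
      intro ι inst v hv
      have hv' : ∀ a : Fin k, Balanced (v a.succ) := fun a => hv a.succ
      have hrest := ih (fun a => ι a.succ) (fun a => inst a.succ) (fun a => v a.succ) hv'
      have hnn := prodFam_nonneg hq h0 h1 (fun a => (hv' a).nonneg)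
      have hm := merge_le hq hP (s := prodFam lam (fun a : Fin k => v a.succ))
        hnn (prodFam_mass hv') (hv 0)
      rw [famVal_prodFam_succ, Fin.sum_univ_succ]
      set A := famVal Φ (prodFam lam (fun a : Fin k => v a.succ)) with hA
      set B0 := famVal Φ (v 0) with hB0
      have hA0 : 0 ≤ A := famVal_nonneg hΦ hnn
      have hB00 : 0 ≤ B0 := famVal_nonneg hΦ (hv 0).nonneg
      have hB1 : c * B0 ≤ 1 :=
        le_trans (mul_le_mul_of_nonneg_left (famVal_le hM (hv 0)) hc) hcM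
      match k, ι, inst, v, hv, hv', hrest with
      | 0, ι, inst, v, hv, hv', hrest =>
          simp only [pairTerm, Finset.univ_eq_empty, Finset.sum_empty, mul_zero, add_zero] at hrest ⊢
          nlinarith [mul_nonneg hc (mul_nonneg hA0 hB00)]
      | 1, ι, inst, v, hv, hv', hrest =>
          simp only [pairTerm, Fin.sum_univ_one, mul_zero, add_zero] at hrest ⊢
          have e0 : (⟨0, by omega⟩ : Fin (1 + 1)) = 0 := rfl
          have e1 : (⟨0 + 1, by omega⟩ : Fin (1 + 1)) = (0 : Fin 1).succ := rfl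
          rw [e0, e1, ← hB0]
          nlinarith [mul_le_mul_of_nonneg_right hrest (sub_nonneg.mpr hB1)]
      | k + 2, ι, inst, v, hv, hv', hrest =>
          rw [pairTerm_succ]
          nlinarith [mul_nonneg hc (mul_nonneg hA0 hB00)]

end Vale.Agent.P154
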